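import Vale.Agent.P257.E.Act
import Vale.Agent.P251.H.Wst
import Vale.Agent.P251.H.HCofCone

/-!
# P257, block E: `Action M G` satisfies `StabInput`

The spaces and the formal desuspension carry the trivial action.  Homotopies and h-cofibrations in
`Action M G` are equivariant homotopies and equivariant h-cofibrations.
-/

open CategoryTheory MonoidalCategory Limits Functor.LaxMonoidal Functor.OplaxMonoidal

namespace Vale.Agent.P257.E

open Vale.Agent.P251.H Vale.Agent.P251.H.StabInput
open Vale.Agent.P251.G (LC)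
open Vale.Agent.P251.G.LC (RR II HH)

universe v u

variable {G H : Type} [Group G] [Group H]

section

variable {M : Type u} [Category.{v} M] [MonoidalCategory M]

/-- the underlying object of a tensor power -/
def tpowIso (X : Action M G) : ∀ n : ℕ, (tpow X n).V ≅ tpow X.V n
  | 0 => Iso.refl _
  | n + 1 => whiskerLeftIso X.V (tpowIso X n)

theorem jincl_hom (j : LC ⥤ M) [j.Monoidal] (t : unitInterval) (X : Action M G) :
    (jincl (j ⋙ triv G) t X).hom = jincl j t X.V := by
  simp [jincl]

theorem jev_hom (j : LC ⥤ M) [j.Monoidal] (L : M) (lam : L ⊗ j.obj RR ⟶ 𝟙_ M)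
    (lam' : (triv G).obj L ⊗ (j ⋙ triv G).obj RR ⟶ 𝟙_ _) (h : lam'.hom = lam) (K : LC) :
    (jev (j ⋙ triv G) ((triv G).obj L) lam' K).hom = jev j L lam K := by
  simp [jev, h]

end

section

variable {M : Type u} [Category.{v} M] [HasColimitsOfSize.{0, 0} M]

/-- the underlying object of a coproduct -/
noncomputable def sigmaV {ι : Type} (X : ι → Action M G) : (∐ X).V ≅ ∐ fun i => (X i).V :=
  PreservesCoproduct.iso (Action.forget M G) X

@[reassoc (attr := simp)]
theorem ι_sigmaV_inv {ι : Type} (X : ι → Action M G) (i : ι) :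
    Sigma.ι (fun i => (X i).V) i ≫ (sigmaV X).inv = (Sigma.ι X i).hom :=
  ι_comp_sigmaComparison (Action.forget M G) X i

@[reassoc (attr := simp)]
theorem ι_sigmaV_hom {ι : Type} (X : ι → Action M G) (i : ι) :
    (Sigma.ι X i).hom ≫ (sigmaV X).hom = Sigma.ι (fun i => (X i).V) i := by
  rw [← ι_sigmaV_inv, Category.assoc, Iso.inv_hom_id, Category.comp_id]

end

theorem finFactor_of_V {M : Type u} [Category.{v} M] [HasZeroMorphisms M]
    [HasColimitsOfSize.{0, 0} M] {K : Action M G} (h : FinFactor K.V) : FinFactor K := by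
  intro ι X f
  obtain ⟨s, g, hg⟩ := h (fun i => (X i).V) (f.hom ≫ (sigmaV X).hom)
  refine ⟨s, f ≫ sigmaRet s X, Action.hom_ext _ _ ?_⟩
  have h1 : f.hom = (g ≫ Sigma.desc fun i : s => (Sigma.ι (fun i : s => X i) i).hom) ≫
      (sigmaSub s X).hom := by
    rw [((Iso.comp_inv_eq (sigmaV X)).2 hg).symm.trans (Category.assoc _ _ _), Category.assoc]
    congr 1
    refine Sigma.hom_ext _ _ fun i => ?_
    rw [Sigma.ι_desc_assoc, Sigma.ι_desc_assoc, ← Action.comp_hom, sigmaSub, Sigma.ι_desc,
      ι_sigmaV_inv]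
  have h2 : (sigmaSub s X).hom ≫ (sigmaRet s X).hom = 𝟙 _ :=
    congrArg Action.Hom.hom (sigmaSub_sigmaRet s X)
  show (f.hom ≫ (sigmaRet s X).hom) ≫ (sigmaSub s X).hom = f.hom
  rw [h1, Category.assoc _ _ (sigmaRet s X).hom, h2, Category.comp_id]

variable {M : Type u} [Category.{v} M] [MonoidalCategory M] [SymmetricCategory M]
  [MonoidalClosed M] [HasZeroMorphisms M] [HasColimitsOfSize.{0, 0} M] [StabInput M]

variable (M G) in
/-- the structure map of the formal desuspension -/
noncomputable def lamA : (triv G).obj (L : M) ⊗ (J M ⋙ triv G).obj RR ⟶ 𝟙_ (Action M G) :=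
  mkHom lam fun _ => by simp

noncomputable instance : StabInput (Action M G) where
  j := J M ⋙ triv G
  braided := inferInstance
  full := inferInstance
  faithful := inferInstance
  isZero_empty := isZero_of_V isZero_empty
  pushout i f g k hi h := isPushout_of_hom (StabInput.pushout i f g k hi h)
  L := (triv G).obj L
  lam := lamA G M
  ev_bij X K := by
    have h := ev_bij X.V K
    constructor
    · intro x y e
      refine Action.hom_ext _ _ (h.1 ?_)
      simpa only [Action.comp_hom, Action.whiskerLeft_hom, jev_hom (J M) L lam (lamA G M) rfl]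
        using congrArg Action.Hom.hom e
    · intro y
      obtain ⟨x, hx⟩ := h.2 y.hom
      have hx' : L ◁ x ≫ jev (J M) L lam K = y.hom := hx
      refine ⟨mkHom x fun g => h.1 ?_, Action.hom_ext _ _ ?_⟩
      · have h1 : L ◁ act X g ≫ y.hom = y.hom := by simpa using act_comm y g
        show L ◁ (act X g ≫ x) ≫ jev (J M) L lam K = L ◁ (x ≫ 𝟙 _) ≫ jev (J M) L lam K
        rw [Category.comp_id, MonoidalCategory.whiskerLeft_comp, Category.assoc, hx', h1]
      · rw [Action.comp_hom, Action.whiskerLeft_hom, jev_hom (J M) L lam (lamA G M) rfl]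
        exact hx'
  rot := by
    obtain ⟨K, h0, h1⟩ := rot (M := M)
    refine ⟨mkHom K fun _ => by simp, Action.hom_ext _ _ ?_, Action.hom_ext _ _ ?_⟩
    · simpa [jincl_hom, lamA] using h0
    · simpa [jincl_hom, lamA] using h1
  fin n K := finFactor_of_V (FinFactor.of_iso (StabInput.fin n K)
    (whiskerRightIso (tpowIso ((triv G).obj (L : M)) n).symm _))

theorem J_eq : J (Action M G) = J M ⋙ triv G := rfl

theorem L_eq : (L : Action M G) = (triv G).obj L := rfl

@[simp] theorem J_obj_V (K : LC) : ((J (Action M G)).obj K).V = (J M).obj K := rfl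

@[simp] theorem act_J (K : LC) (g : G) : act ((J (Action M G)).obj K) g = 𝟙 ((J M).obj K) := rfl

@[simp] theorem J_map_hom {K K' : LC} (f : K ⟶ K') :
    ((J (Action M G)).map f).hom = (J M).map f := rfl

@[simp] theorem lam_hom : (lam : (L : Action M G) ⊗ _ ⟶ _).hom = lam := rfl

@[simp] theorem J_ε_hom : (ε (J (Action M G))).hom = ε (J M) := Category.id_comp _

@[simp] theorem J_η_hom : (η (J (Action M G))).hom = η (J M) := Category.comp_id _

@[simp] theorem J_μ_hom (K K' : LC) : (μ (J (Action M G)) K K').hom = μ (J M) K K' :=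
  Category.id_comp _

@[simp] theorem J_δ_hom (K K' : LC) : (δ (J (Action M G)) K K').hom = δ (J M) K K' :=
  Category.comp_id _

@[simp] theorem inc_hom (t : unitInterval) (X : Action M G) : (inc t X).hom = inc t X.V :=
  jincl_hom (J M) t X

@[simp] theorem coneBase_hom (X : Action M G) : (coneBase X).hom = coneBase X.V := by
  simp [coneBase]

/-- equivariant homotopies -/
theorem mHtpy_iff {X Y : Action M G} (f f' : X ⟶ Y) : MHtpy f f' ↔ ∃ K : X.V ⊗ I M ⟶ Y.V,
    (∀ g, act X g ▷ I M ≫ K = K ≫ act Y g) ∧ inc 0 X.V ≫ K = f.hom ∧ inc 1 X.V ≫ K = f'.hom := by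
  constructor
  · rintro ⟨K, h0, h1⟩
    refine ⟨K.hom, fun g => ?_, ?_, ?_⟩
    · rw [← tensorHom_id]
      exact K.comm g
    · rw [← inc_hom, ← h0]
      rfl
    · rw [← inc_hom, ← h1]
      rfl
  · rintro ⟨K, hK, h0, h1⟩
    refine ⟨mkHom (X := X ⊗ I (Action M G)) K fun g => ?_, Action.hom_ext _ _ ?_,
      Action.hom_ext _ _ ?_⟩
    · rw [← hK g, ← tensorHom_id]
      rfl
    · rw [← h0, ← inc_hom]
      rfl
    · rw [← h1, ← inc_hom]
      rfl

theorem mHtpy_hom {X Y : Action M G} {f f' : X ⟶ Y} (h : MHtpy f f') : MHtpy f.hom f'.hom := by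
  obtain ⟨K, -, h0, h1⟩ := (mHtpy_iff f f').1 h
  exact ⟨K, h0, h1⟩

theorem mHtpy_res (φ : H →* G) {X Y : Action M G} {f f' : X ⟶ Y} (h : MHtpy f f') :
    MHtpy ((res φ).map f) ((res φ).map f') := by
  obtain ⟨K, hK, h0, h1⟩ := (mHtpy_iff f f').1 h
  exact (mHtpy_iff _ _).2 ⟨K, fun g => hK (φ g), h0, h1⟩

theorem mHtpy_triv {X Y : M} {f f' : X ⟶ Y} (h : MHtpy f f') :
    MHtpy ((triv G).map f) ((triv G).map f') := by
  obtain ⟨K, h0, h1⟩ := h
  exact (mHtpy_iff _ _).2 ⟨K, fun g => by simp, h0, h1⟩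

end Vale.Agent.P257.E
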