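import Vale.Agent.P251.H.StabInput
import Mathlib.CategoryTheory.Action.Monoidal
import Mathlib.CategoryTheory.Action.Limits

/-!
# P257, block E: objects with a group action

For a group `G` the category `Action M G` is closed symmetric monoidal and cocomplete if `M` is;
`triv G : M ⥤ Action M G` (trivial action) and `res φ` are braided monoidal functors.
-/

open CategoryTheory MonoidalCategory Limits Functor.LaxMonoidal Functor.OplaxMonoidal

namespace Vale.Agent.P257.E

universe v u

variable {M : Type u} [Category.{v} M] {G H : Type} [Group G] [Group H]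

/-- the action of a group element as a morphism -/
def act (X : Action M G) (g : G) : X.V ⟶ X.V := X.ρ g

theorem act_def (X : Action M G) (g : G) : act X g = X.ρ g := rfl

theorem act_one (X : Action M G) : act X 1 = 𝟙 X.V := X.ρ.map_one

@[reassoc]
theorem act_mul (X : Action M G) (g h : G) : act X h ≫ act X g = act X (g * h) :=
  (X.ρ.map_mul g h).symm

@[reassoc (attr := simp)]
theorem act_inv_act (X : Action M G) (g : G) : act X g⁻¹ ≫ act X g = 𝟙 X.V := by
  rw [act_mul, mul_inv_cancel, act_one]

@[reassoc (attr := simp)]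
theorem act_act_inv (X : Action M G) (g : G) : act X g ≫ act X g⁻¹ = 𝟙 X.V := by
  rw [act_mul, inv_mul_cancel, act_one]

instance (X : Action M G) (g : G) : IsIso (act X g) :=
  ⟨act X g⁻¹, act_act_inv X g, act_inv_act X g⟩

@[reassoc]
theorem act_comm {X Y : Action M G} (f : X ⟶ Y) (g : G) : act X g ≫ f.hom = f.hom ≫ act Y g :=
  f.comm g

/-- an object with an action, from the action maps -/
@[reducible] def mkAct (X : M) (a : G → (X ⟶ X)) (h1 : a 1 = 𝟙 X)
    (hm : ∀ g h, a (g * h) = a h ≫ a g) : Action M G where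
  V := X
  ρ := { toFun := a, map_one' := h1, map_mul' := hm }

@[simp] theorem act_mkAct (X : M) (a : G → (X ⟶ X)) (h1 : a 1 = 𝟙 X)
    (hm : ∀ g h, a (g * h) = a h ≫ a g) (g : G) : act (mkAct X a h1 hm) g = a g := rfl

/-- an equivariant map -/
@[simps hom] def mkHom {X Y : Action M G} (f : X.V ⟶ Y.V)
    (h : ∀ g, act X g ≫ f = f ≫ act Y g) : X ⟶ Y := ⟨f, h⟩

variable (G) in
/-- the trivial action -/
@[reducible] def triv : M ⥤ Action M G where
  obj X := { V := X, ρ := 1 }
  map f := ⟨f, fun _ => (Category.id_comp f).trans (Category.comp_id f).symm⟩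

@[simp] theorem triv_map_hom {X Y : M} (f : X ⟶ Y) : ((triv G).map f).hom = f := rfl

@[simp] theorem act_triv (X : M) (g : G) : act ((triv G).obj X) g = 𝟙 X := rfl

@[simp] theorem act_mk_one (X : M) (g : G) : act (⟨X, 1⟩ : Action M G) g = 𝟙 X := rfl

/-- restriction along a homomorphism of groups -/
@[reducible] def res (φ : H →* G) : Action M G ⥤ Action M H where
  obj X := { V := X.V, ρ := X.ρ.comp φ }
  map f := ⟨f.hom, fun h => f.comm (φ h)⟩

@[simp] theorem res_map_hom (φ : H →* G) {X Y : Action M G} (f : X ⟶ Y) :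
    ((res φ).map f).hom = f.hom := rfl

@[simp] theorem act_res (φ : H →* G) (X : Action M G) (h : H) :
    act ((res φ).obj X) h = act X (φ h) := rfl

@[simp] theorem act_mk_comp (φ : H →* G) (X : Action M G) (h : H) :
    act (⟨X.V, X.ρ.comp φ⟩ : Action M H) h = act X (φ h) := rfl

instance : (triv G : M ⥤ _).Full := ⟨fun f => ⟨f.hom, rfl⟩⟩

instance : (triv G : M ⥤ _).Faithful := ⟨fun h => congrArg Action.Hom.hom h⟩

instance [HasColimitsOfSize.{0, 0} M] : HasColimitsOfSize.{0, 0} (Action M G) := ⟨inferInstance⟩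

theorem isPushout_of_hom {A B C D : Action M G} {i : A ⟶ B} {f : A ⟶ C} {g : B ⟶ D} {k : C ⟶ D}
    (h : IsPushout i.hom f.hom g.hom k.hom) : IsPushout i f g k :=
  IsPushout.of_map_of_faithful (Action.forget M G) h

theorem isPushout_hom [HasPushouts M] {A B C D : Action M G} {i : A ⟶ B} {f : A ⟶ C} {g : B ⟶ D}
    {k : C ⟶ D} (h : IsPushout i f g k) : IsPushout i.hom f.hom g.hom k.hom :=
  h.map (Action.forget M G)

theorem isZero_of_V [HasZeroMorphisms M] {X : Action M G} (h : IsZero X.V) : IsZero X := by
  rw [IsZero.iff_id_eq_zero]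
  exact Action.hom_ext _ _ (h.eq_of_src _ _)

theorem isZero_V [HasZeroMorphisms M] {X : Action M G} (h : IsZero X) : IsZero X.V := by
  rw [IsZero.iff_id_eq_zero] at h ⊢
  exact congrArg Action.Hom.hom h

section monoidal

variable [MonoidalCategory M]

@[simp] theorem act_tensor (X Y : Action M G) (g : G) :
    act (X ⊗ Y) g = act X g ⊗ₘ act Y g := rfl

@[simp] theorem act_unit (g : G) : act (𝟙_ (Action M G)) g = 𝟙 (𝟙_ M) := rfl

/-- the monoidal structure of `triv` -/
def trivCore : (triv G : M ⥤ _).CoreMonoidal where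
  εIso := Action.mkIso (Iso.refl _) fun _ => rfl
  μIso X Y := Action.mkIso (Iso.refl _) fun _ => by
    show (𝟙 X ⊗ₘ 𝟙 Y) ≫ 𝟙 _ = 𝟙 _ ≫ 𝟙 _
    rw [id_tensorHom_id]
  μIso_hom_natural_left f X := Action.hom_ext _ _ (by simp)
  μIso_hom_natural_right X f := Action.hom_ext _ _ (by simp)
  associativity X Y Z := Action.hom_ext _ _ (by simp)
  left_unitality X := Action.hom_ext _ _ (by simp)
  right_unitality X := Action.hom_ext _ _ (by simp)

instance : (triv G : M ⥤ _).Monoidal := trivCore.toMonoidal

@[simp] theorem triv_ε_hom : (ε (triv G : M ⥤ _)).hom = 𝟙 (𝟙_ M) := rfl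

@[simp] theorem triv_η_hom : (η (triv G : M ⥤ _)).hom = 𝟙 (𝟙_ M) := rfl

@[simp] theorem triv_μ_hom (X Y : M) : (μ (triv G) X Y).hom = 𝟙 (X ⊗ Y) := rfl

@[simp] theorem triv_δ_hom (X Y : M) : (δ (triv G) X Y).hom = 𝟙 (X ⊗ Y) := rfl

instance [BraidedCategory M] : (triv G : M ⥤ _).Braided where
  braided _ _ := Action.hom_ext _ _ ((Category.id_comp _).trans (Category.comp_id _).symm)

/-- the monoidal structure of the restriction functors -/
def resCore (φ : H →* G) : (res φ : Action M G ⥤ _).CoreMonoidal where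
  εIso := Action.mkIso (Iso.refl _) fun _ => rfl
  μIso X Y := Action.mkIso (Iso.refl _) fun _ =>
    (Category.comp_id _).trans (Category.id_comp _).symm
  μIso_hom_natural_left f X := Action.hom_ext _ _ (by simp)
  μIso_hom_natural_right X f := Action.hom_ext _ _ (by simp)
  associativity X Y Z := Action.hom_ext _ _ (by simp)
  left_unitality X := Action.hom_ext _ _ (by simp)
  right_unitality X := Action.hom_ext _ _ (by simp)

instance (φ : H →* G) : (res φ : Action M G ⥤ _).Monoidal := (resCore φ).toMonoidal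

@[simp] theorem res_ε_hom (φ : H →* G) : (ε (res φ : Action M G ⥤ _)).hom = 𝟙 (𝟙_ M) := rfl

@[simp] theorem res_η_hom (φ : H →* G) : (η (res φ : Action M G ⥤ _)).hom = 𝟙 (𝟙_ M) := rfl

@[simp] theorem res_μ_hom (φ : H →* G) (X Y : Action M G) :
    (μ (res φ) X Y).hom = 𝟙 (X.V ⊗ Y.V) := rfl

@[simp] theorem res_δ_hom (φ : H →* G) (X Y : Action M G) :
    (δ (res φ) X Y).hom = 𝟙 (X.V ⊗ Y.V) := rfl

instance [BraidedCategory M] (φ : H →* G) : (res φ : Action M G ⥤ _).Braided where
  braided _ _ := Action.hom_ext _ _ ((Category.id_comp _).trans (Category.comp_id _).symm)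

variable [MonoidalClosed M]

open MonoidalClosed

/-- the internal hom, with the action by conjugation -/
@[reducible] noncomputable def ihomA (X : Action M G) : Action M G ⥤ Action M G where
  obj Y := mkAct ((ihom X.V).obj Y.V)
    (fun g => (pre (act X g⁻¹)).app Y.V ≫ (ihom X.V).map (act Y g))
    (by rw [inv_one, act_one, act_one, pre_id, CategoryTheory.Functor.map_id]; simp)
    (fun g h => by
      rw [mul_inv_rev, ← act_mul, ← act_mul, pre_map, Functor.map_comp, NatTrans.comp_app]
      simp only [Category.assoc]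
      rw [NatTrans.naturality_assoc])
  map f := mkHom ((ihom X.V).map f.hom) fun g => by
    show ((pre (act X g⁻¹)).app _ ≫ (ihom X.V).map (act _ g)) ≫ (ihom X.V).map f.hom =
      (ihom X.V).map f.hom ≫ (pre (act X g⁻¹)).app _ ≫ (ihom X.V).map (act _ g)
    rw [Category.assoc, ← Functor.map_comp, act_comm, Functor.map_comp,
      NatTrans.naturality_assoc]
  map_id Y := Action.hom_ext _ _ ((ihom X.V).map_id _)
  map_comp f g := Action.hom_ext _ _ ((ihom X.V).map_comp _ _)

theorem act_ihomA (X Y : Action M G) (g : G) : act ((ihomA X).obj Y) g =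
    (pre (act X g⁻¹)).app Y.V ≫ (ihom X.V).map (act Y g) := rfl

theorem curry_comm_iff {X Y Z : Action M G} (f : X.V ⊗ Y.V ⟶ Z.V) (g : G) :
    act Y g ≫ curry f = curry f ≫ act ((ihomA X).obj Z) g ↔
      act (X ⊗ Y) g ≫ f = f ≫ act Z g := by
  rw [act_ihomA, ← Category.assoc, curry_pre_app, ← curry_natural_right, ← curry_natural_left,
    curry_injective.eq_iff, act_tensor, tensorHom_def, ← cancel_epi (act X g ▷ Y.V)]
  simp only [Category.assoc]
  rw [← comp_whiskerRight_assoc, act_act_inv, id_whiskerRight, Category.id_comp]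

/-- the adjunction between the tensor product and the internal hom -/
noncomputable def adjA (X : Action M G) : tensorLeft X ⊣ ihomA X :=
  Adjunction.mkOfHomEquiv
    { homEquiv := fun Y Z =>
        { toFun := fun f => mkHom (curry f.hom) fun g => (curry_comm_iff f.hom g).2 (f.comm g)
          invFun := fun f => mkHom (uncurry f.hom) fun g => (curry_comm_iff _ g).1 (by
            rw [curry_uncurry]
            exact f.comm g)
          left_inv := fun f => Action.hom_ext _ _ (uncurry_curry _)
          right_inv := fun f => Action.hom_ext _ _ (curry_uncurry _) }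
      homEquiv_naturality_left_symm := fun f g => Action.hom_ext _ _ (uncurry_natural_left _ _)
      homEquiv_naturality_right := fun f g => Action.hom_ext _ _ (curry_natural_right _ _) }

noncomputable instance : MonoidalClosed (Action M G) where
  closed X := { rightAdj := ihomA X, adj := adjA X }

theorem curry_hom {X Y Z : Action M G} (f : X ⊗ Y ⟶ Z) : (curry f).hom = curry f.hom := by
  have h : curry f = (adjA X).homEquiv Y Z f := rfl
  rw [h, adjA, Adjunction.mkOfHomEquiv_homEquiv]
  rfl

theorem uncurry_hom {X Y Z : Action M G} (f : Y ⟶ (ihom X).obj Z) :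
    (uncurry f).hom = uncurry f.hom := by
  conv_rhs => rw [← curry_uncurry f, curry_hom, uncurry_curry]

end monoidal

end Vale.Agent.P257.E
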