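import Vale.Agent.P257.E.VF
import Vale.Agent.P257.D.GrFun

/-!
# P257, block E: the formal desuspension by a representation

For a braided monoidal functor `Φ : O ⥤ J` of index categories:

* `lamV Φ a : rep (Φ a) ⊗ V a ⟶ 𝟙`, dinatural in `a` and multiplicative;
* for `Q : Action O G`: `repA Φ Q`, `lamQ Φ Q : repA Φ Q ⊗ S^Q ⟶ 𝟙` in `Action (EF J) G`;
* `rot_lamQ`: the equivariant rotation homotopy, also for the restriction to a subrepresentation.
-/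

open CategoryTheory MonoidalCategory Limits Functor.LaxMonoidal Functor.OplaxMonoidal
open Topology OnePoint Filter

namespace Vale.Agent.P257.E

open Vale.Agent.P251.H (CH PQ contr₁ contr₂ StabInput)
open Vale.Agent.P251.G (LC)
open Vale.Agent.P251.G.LC (RR II HH app smash incl point)
open Vale.Agent.P257.D Vale.Agent.P257.D.EF
open Vale.Agent.P257.D.O (V vec vfst vsnd spt vsm)

variable {J : Type} [Idx J]

section lamOf

variable {c d : J} {K : LC}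

/-- Maps out of `rep c ⊗ jC K` are determined by the values on the generators. -/
theorem RF_ext {Z : EF J} {f g : rep c ⊗ (jC J).obj K ⟶ Z}
    (h : ∀ k : OnePoint K, fn f (tm (pr (𝟙 c)) (jm k (𝟙 _))) =
      fn g (tm (pr (𝟙 c)) (jm k (𝟙 _)))) : f = g := by
  apply rep_tensor_ext
  intro b z
  obtain ⟨k, t, rfl⟩ := jm_surjective z
  have h1 : jm k t = ((jC J).obj K).act t (jm k (𝟙 _)) := by rw [jC_act, Category.id_comp]
  rw [h1, ← act_tm_right, fn_act, fn_act, h]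

/-- Maps out of `(rep c ⊗ jC K) ⊗ (rep d ⊗ jC K')` are determined on the generators. -/
theorem RFRF_ext {K' : LC} {Z : EF J}
    {f g : (rep c ⊗ (jC J).obj K) ⊗ (rep d ⊗ (jC J).obj K') ⟶ Z}
    (h : ∀ (k : OnePoint K) (l : OnePoint K'),
      fn f (tm (tm (pr (𝟙 c)) (jm k (𝟙 _))) (tm (pr (𝟙 d)) (jm l (𝟙 _)))) =
      fn g (tm (tm (pr (𝟙 c)) (jm k (𝟙 _))) (tm (pr (𝟙 d)) (jm l (𝟙 _))))) : f = g := by
  apply tensor_ext
  intro a b x y
  obtain ⟨a1, a2, w, u, z, rfl⟩ := exists_tm x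
  obtain ⟨b1, b2, w', u', z', rfl⟩ := exists_tm y
  obtain ⟨u, rfl⟩ := pr_surjective u
  obtain ⟨u', rfl⟩ := pr_surjective u'
  obtain ⟨k, t, rfl⟩ := jm_surjective z
  obtain ⟨l, t', rfl⟩ := jm_surjective z'
  have h1 : tm (pr u) (jm k t) =
      (rep c ⊗ (jC J).obj K).act (u ⊗ₘ t) (tm (pr (𝟙 c)) (jm k (𝟙 _))) := by
    rw [act_tm, rep_act, jC_act, Category.id_comp, Category.id_comp]
  have h2 : tm (pr u') (jm l t') =
      (rep d ⊗ (jC J).obj K').act (u' ⊗ₘ t') (tm (pr (𝟙 d)) (jm l (𝟙 _))) := by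
    rw [act_tm, rep_act, jC_act, Category.id_comp, Category.id_comp]
  rw [h1, h2, ← act_comp, ← act_comp, ← act_tm, fn_act, fn_act, h]

theorem RRJ_ext {Z : EF J} {f g : (rep c ⊗ rep d) ⊗ (jC J).obj K ⟶ Z}
    (h : ∀ k : OnePoint K, fn f (tm (tm (pr (𝟙 c)) (pr (𝟙 d))) (jm k (𝟙 _))) =
      fn g (tm (tm (pr (𝟙 c)) (pr (𝟙 d))) (jm k (𝟙 _)))) : f = g :=
  RRF_ext h

/-- the map `rep c ⊗ K ⟶ 𝟙` of a family `K ⟶ Hom (𝟙, c)` -/
noncomputable def lamOf (s : OnePoint K → (𝟙_ J ⟶ c)) (h0 : s ∞ = 0)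
    (hs : ∀ (T : CH) (k : T → OnePoint K), Continuous k → Idx.plot T (fun t => s (k t))) :
    rep c ⊗ (jC J).obj K ⟶ 𝟙_ (EF J) :=
  repDesc (Fyo (X := (sh c).obj (sphere J))
    ⟨fun k => pr (s k ≫ (ρ_ c).inv),
      (congrArg (fun x => pr (x ≫ (ρ_ c).inv)) h0).trans (by rw [zero_comp, pr_zero]; rfl),
      fun T k hk => pr_plot (Idx.plot_comp (hs T k hk) (Idx.plot_const _ _))⟩)

theorem lamOf_tm (s : OnePoint K → (𝟙_ J ⟶ c)) (h0 : s ∞ = 0)
    (hs : ∀ (T : CH) (k : T → OnePoint K), Continuous k → Idx.plot T (fun t => s (k t)))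
    {a b : J} (f : c ⟶ a) (k : OnePoint K) (t : 𝟙_ J ⟶ b) :
    fn (lamOf s h0 hs) (tm (pr f) (jm k t)) = pr (smp (s k ≫ f) t) := by
  refine (fn_repDesc _ f (jm k t)).trans ?_
  refine (congrArg (fun z => (𝟙_ (EF J)).act (f ▷ b) (unshi z))
    (fn_Fyo (A := PQ.LCPQ.obj K) _ k t)).trans ?_
  rw [unshi_act]
  change (sphere J).act (f ▷ b) ((sphere J).act (c ◁ t) (pr (s k ≫ (ρ_ c).inv))) = _
  rw [rep_act, rep_act, ← smp_comp_whiskerRight, smp_eq_right]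
  simp only [Category.assoc]

variable {lam : rep c ⊗ (jC J).obj K ⟶ 𝟙_ (EF J)} {s : OnePoint K → (𝟙_ J ⟶ c)}

theorem fn_contr₁_of (h : ∀ k, fn lam (tm (pr (𝟙 c)) (jm k (𝟙 _))) = pr (s k ≫ (ρ_ c).inv))
    (w : OnePoint K) :
    fn (contr₁ (rep c) lam) (tm (tm (pr (𝟙 c)) (pr (𝟙 c))) (jm w (𝟙 _))) =
      pr (((λ_ c).inv ≫ s w ▷ c) ≫ (ρ_ (c ⊗ c)).inv) := by
  simp only [contr₁, fn_comp]
  rw [associator_tm, fn_act, fn_act, fn_act, fn_act, whiskerLeft_tm, braiding_tm, ← act_tm_right,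
    fn_act, fn_act, fn_act, associator_inv_tm, fn_act, fn_act, whiskerRight_tm, h,
    leftUnitor_tm]
  rw [rep_act, rep_act, rep_act, rep_act, Category.id_comp]
  congr 1
  erw [unpr_pr]
  rw [comp_whiskerRight]
  simp only [Category.assoc]
  congr 2
  rw [braiding_tensorUnit_left]
  monoidal

theorem fn_contr₂_of (h : ∀ k, fn lam (tm (pr (𝟙 c)) (jm k (𝟙 _))) = pr (s k ≫ (ρ_ c).inv))
    (w : OnePoint K) :
    fn (contr₂ (rep c) lam) (tm (tm (pr (𝟙 c)) (pr (𝟙 c))) (jm w (𝟙 _))) =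
      pr (((ρ_ c).inv ≫ c ◁ s w) ≫ (ρ_ (c ⊗ c)).inv) := by
  simp only [contr₂, fn_comp]
  rw [associator_tm, fn_act, fn_act, whiskerLeft_tm, h, rightUnitor_tm, rep_act, rep_act,
    Category.id_comp]
  congr 1
  erw [unpr_pr]
  rw [MonoidalCategory.whiskerLeft_comp]
  simp only [Category.assoc]
  congr 2
  monoidal

end lamOf

variable (Φ : O ⥤ J) [IdxFun Φ]

section lax

variable [Φ.LaxMonoidal] {a b : O}

/-- the points of the spheres in the index category `J` -/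
noncomputable def ptF (v : OnePoint (a.El → ℝ)) : 𝟙_ J ⟶ Φ.obj a := ε Φ ≫ Φ.map (spt v)

theorem ptF_infty : ptF Φ (∞ : OnePoint (a.El → ℝ)) = 0 := by
  rw [ptF, O.spt_infty, IdxFun.map_zero, comp_zero]

theorem ptF_plot {T : CH} {v : T → OnePoint (a.El → ℝ)} (hv : Continuous v) :
    Idx.plot T (fun t => ptF Φ (v t)) :=
  Idx.plot_comp (Idx.plot_const _ _) (IdxFun.map_plot (O.plot_spt hv))

omit [IdxFun Φ] in
@[reassoc]
theorem ptF_map (v : OnePoint (a.El → ℝ)) (f : a ⟶ b) :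
    ptF Φ v ≫ Φ.map f = ptF Φ (O.act f v) := by
  rw [ptF, ptF, Category.assoc, ← Φ.map_comp, O.spt_comp]

omit [IdxFun Φ] in
@[reassoc]
theorem smp_ptF (u : OnePoint (a.El → ℝ)) (v : OnePoint (b.El → ℝ)) :
    smp (ptF Φ u) (ptF Φ v) ≫ μ Φ a b = ptF Φ (vsm u v) := by
  rw [ptF, ptF, ptF, ← O.smp_spt, smp, smp, ← tensorHom_comp_tensorHom, Category.assoc,
    Category.assoc, μ_natural, Φ.map_comp, ← left_unitality_inv_assoc, tensorHom_def',
    leftUnitor_inv_naturality_assoc, Category.assoc]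

/-- the structure map `rep (Φ a) ⊗ S^a ⟶ 𝟙` -/
noncomputable def lamV (a : O) : rep (Φ.obj a) ⊗ (jC J).obj (V a) ⟶ 𝟙_ (EF J) :=
  lamOf (K := V a) (ptF Φ) (ptF_infty Φ) (fun _ _ hk => ptF_plot Φ hk)

theorem lamV_tm {c d : J} (f : Φ.obj a ⟶ c) (v : OnePoint (a.El → ℝ)) (t : 𝟙_ J ⟶ d) :
    fn (lamV Φ a) (tm (pr f) (jm (K := V a) v t)) = pr (smp (ptF Φ v ≫ f) t) :=
  lamOf_tm (K := V a) _ _ _ f v t

theorem lamV_tm_id {c : J} (f : Φ.obj a ⟶ c) (v : OnePoint (a.El → ℝ)) :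
    fn (lamV Φ a) (tm (pr f) (jm (K := V a) v (𝟙 _))) = pr ((ptF Φ v ≫ f) ≫ (ρ_ c).inv) := by
  rw [lamV_tm, smp_id_right]

/-- dinaturality -/
@[reassoc]
theorem lamV_dinat (f : a ⟶ b) :
    repMap (Φ.map f) ▷ (jC J).obj (V a) ≫ lamV Φ a =
      rep (Φ.obj b) ◁ (jC J).map (VF.map f) ≫ lamV Φ b := by
  refine RF_ext fun v => ?_
  rw [fn_comp, fn_comp, whiskerRight_tm, whiskerLeft_tm, fn_repMap_pr, fn_jC_map, lamV_tm_id,
    lamV_tm_id, Category.comp_id, Category.comp_id, ptF_map, app_VF_map]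

end lax

section strong

variable [Φ.Monoidal] {a b : O}

/-- `rep (Φ a) ⊗ rep (Φ b) ≅ rep (Φ (a ⊗ b))` -/
noncomputable def repMu (a b : O) : rep (Φ.obj a) ⊗ rep (Φ.obj b) ≅ rep (Φ.obj (a ⊗ b)) :=
  repTensor (Φ.obj a) (Φ.obj b) ≪≫
    { hom := repMap (δ Φ a b)
      inv := repMap (μ Φ a b)
      hom_inv_id := by rw [← repMap_comp, Functor.Monoidal.μ_δ, repMap_id]
      inv_hom_id := by rw [← repMap_comp, Functor.Monoidal.δ_μ, repMap_id] }

omit [IdxFun Φ] in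
theorem fn_repMu_hom {c d : J} (u : Φ.obj a ⟶ c) (v : Φ.obj b ⟶ d) :
    fn (repMu Φ a b).hom (tm (pr u) (pr v)) = pr (δ Φ a b ≫ (u ⊗ₘ v)) := by
  change fn (repMap (δ Φ a b)) (fn (repTensor _ _).hom _) = _
  rw [fn_repTensor_hom, fn_repMap_pr]

/-- `𝟙 ≅ rep (Φ 𝟙)` -/
noncomputable def repEps : 𝟙_ (EF J) ≅ rep (Φ.obj (𝟙_ O)) where
  hom := repMap (η Φ)
  inv := repMap (ε Φ)
  hom_inv_id := by
    refine (repMap_comp _ _).symm.trans ?_
    rw [Functor.Monoidal.ε_η]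
    exact repMap_id _
  inv_hom_id := by
    refine (repMap_comp _ _).symm.trans ?_
    rw [Functor.Monoidal.η_ε, repMap_id]

omit [IdxFun Φ] in
@[reassoc]
theorem repMu_nat {a' b' : O} (f : a ⟶ a') (g : b ⟶ b') :
    (repMap (Φ.map f) ⊗ₘ repMap (Φ.map g)) ≫ (repMu Φ a b).hom =
      (repMu Φ a' b').hom ≫ repMap (Φ.map (f ⊗ₘ g)) := by
  apply tensor_ext
  intro c d u v
  obtain ⟨u, rfl⟩ := pr_surjective u
  obtain ⟨v, rfl⟩ := pr_surjective v
  rw [fn_comp, fn_comp, tensorHom_tm, fn_repMap_pr, fn_repMap_pr, fn_repMu_hom, fn_repMu_hom,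
    fn_repMap_pr, ← tensorHom_comp_tensorHom, δ_natural_assoc]

theorem fn_tensorμ_gen {c d : J} {K K' : LC} (k : OnePoint K) (l : OnePoint K') :
    fn (tensorμ (rep c) ((jC J).obj K) (rep d) ((jC J).obj K'))
      (tm (tm (pr (𝟙 c)) (jm k (𝟙 _))) (tm (pr (𝟙 d)) (jm l (𝟙 _)))) =
    ((rep c ⊗ rep d) ⊗ ((jC J).obj K ⊗ (jC J).obj K')).act (tensorδ c (𝟙_ J) d (𝟙_ J))
      (tm (tm (pr (𝟙 c)) (pr (𝟙 d))) (tm (jm k (𝟙 _)) (jm l (𝟙 _)))) := by
  simp only [tensorμ, fn_comp]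
  rw [associator_tm, fn_act, fn_act, fn_act, fn_act, whiskerLeft_tm, associator_inv_tm,
    ← act_tm_right, fn_act, fn_act, fn_act, whiskerLeft_tm, whiskerRight_tm, braiding_tm,
    ← act_tm_left, ← act_tm_right, fn_act, fn_act, whiskerLeft_tm, associator_tm,
    ← act_tm_right, fn_act, associator_inv_tm]
  simp only [← act_comp]
  congr 1
  simp only [tensorδ, Category.assoc, SymmetricCategory.braiding_swap_eq_inv_braiding]

/-- multiplicativity -/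
theorem lamV_tensor (a b : O) :
    tensorμ _ _ _ _ ≫ ((repMu Φ a b).hom ⊗ₘ (μ (jC J) (V a) (V b) ≫ (jC J).map (μ VF a b))) ≫
      lamV Φ (a ⊗ b) = (lamV Φ a ⊗ₘ lamV Φ b) ≫ (λ_ (𝟙_ (EF J))).hom := by
  refine RFRF_ext fun u v => ?_
  rw [fn_comp, fn_comp, fn_comp, fn_tensorμ_gen, fn_act, fn_act, tensorHom_tm, tensorHom_tm,
    fn_repMu_hom, fn_comp, fn_μ_jC, fn_jC_map, VF_μ, app_vecIso_hom, lamV_tm, lamV_tm_id,
    lamV_tm_id, leftUnitor_tm]
  erw [unpr_pr]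
  refine (rep_act _ _).trans (Eq.trans ?_ (rep_act _ _).symm)
  congr 1
  rw [← smp_ptF, id_tensorHom_id, Category.comp_id, Category.comp_id, Category.comp_id,
    Category.assoc, Functor.Monoidal.μ_δ, Category.comp_id, ← smp_eq_left, ← smp_comp,
    smp_id_id, smp_eq_right (smp _ _)]
  simp only [Category.assoc]
  congr 1
  simp only [tensorδ, braiding_inv_tensorUnit_left, tensorHom_def]
  monoidal

/-- unitality -/
theorem lamV_unit : ((repEps Φ).hom ⊗ₘ (ε (jC J) ≫ (jC J).map (ε VF))) ≫ lamV Φ (𝟙_ O) =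
    (λ_ (𝟙_ (EF J))).hom := by
  apply tensor_ext
  intro c d u v
  obtain ⟨u, rfl⟩ := pr_surjective u
  obtain ⟨v, rfl⟩ := pr_surjective v
  rw [fn_comp, tensorHom_tm, fn_comp, fn_ε_jC, fn_jC_map, leftUnitor_tm]
  erw [unpr_pr, fn_repMap_pr]
  refine (lamV_tm Φ _ _ _).trans (Eq.trans ?_ (rep_act _ _).symm)
  rw [VF_ε, app_unitIsoV_hom, ptF, ← O.id_unit_eq, Φ.map_id, Category.comp_id,
    Functor.Monoidal.ε_η_assoc, smp_eq_left]

/-- the family of the rotation homotopy -/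
noncomputable def rotPQ (a : O) :
    PQ.LCPQ.obj (V a ⊗ II) ⟶ (rep (Φ.obj a)).obj (Φ.obj a ⊗ Φ.obj a) :=
  ⟨fun z => pr (Φ.map (rotO z) ≫ δ Φ a a),
    (congrArg (fun x => pr (Φ.map x ≫ δ Φ a a)) rotO_infty).trans
      (by rw [IdxFun.map_zero, zero_comp, pr_zero]),
    fun _ _ hz => pr_plot (Idx.plot_comp (IdxFun.map_plot (plot_rotO hz)) (Idx.plot_const _ _))⟩

/-- the family of the rotation homotopy -/
noncomputable def rotK (a : O) :
    (rep (Φ.obj a) ⊗ rep (Φ.obj a)) ⊗ (jC J).obj (V a ⊗ II) ⟶ rep (Φ.obj a) :=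
  famG (rotPQ Φ a)

theorem fn_rotK (z : OnePoint ((a.El → ℝ) × unitInterval)) :
    fn (rotK Φ a) (tm (tm (pr (𝟙 _)) (pr (𝟙 _))) (jm (K := V a ⊗ II) z (𝟙 _))) =
      pr ((Φ.map (rotO z) ≫ δ Φ a a) ≫ (ρ_ _).inv) :=
  (fn_famG (rotPQ Φ a) z).trans (rep_act _ _)

theorem lamV_gen (k : OnePoint (V a)) : fn (lamV Φ a) (tm (pr (𝟙 _)) (jm k (𝟙 _))) =
    pr (ptF Φ k ≫ (ρ_ (Φ.obj a)).inv) := by
  rw [lamV_tm_id, Category.comp_id]

theorem rotK_zero (a : O) : (rep (Φ.obj a) ⊗ rep (Φ.obj a)) ◁ (jC J).map (incl 0 (V a)) ≫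
    rotK Φ a = contr₁ (rep (Φ.obj a)) (lamV Φ a) := by
  refine RRJ_ext fun w => ?_
  rw [fn_contr₁_of (lamV_gen Φ), fn_comp, whiskerLeft_tm, fn_jC_map, LC.app_incl, fn_rotK,
    rotO_zero, ptF, Φ.map_comp, Category.assoc, Category.assoc, ← δ_natural_left_assoc,
    ← left_unitality_inv, comp_whiskerRight]
  simp only [Category.assoc, Functor.Monoidal.μ_δ_assoc]

theorem rotK_one (a : O) : (rep (Φ.obj a) ⊗ rep (Φ.obj a)) ◁ (jC J).map (incl 1 (V a)) ≫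
    rotK Φ a = (rep (Φ.obj a) ⊗ rep (Φ.obj a)) ◁ (jC J).map (negV a) ≫
      contr₂ (rep (Φ.obj a)) (lamV Φ a) := by
  refine RRJ_ext fun w => ?_
  rw [fn_comp, fn_comp, whiskerLeft_tm, whiskerLeft_tm, fn_jC_map, fn_jC_map,
    fn_contr₂_of (lamV_gen Φ), LC.app_incl, fn_rotK, rotO_one, ptF, Φ.map_comp, Category.assoc,
    Category.assoc, ← δ_natural_right_assoc, ← right_unitality_inv,
    MonoidalCategory.whiskerLeft_comp]
  simp only [Category.assoc, Functor.Monoidal.μ_δ_assoc]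

theorem rotK_nat {f : a ⟶ b} (hf : Lin f) :
    (repMap (Φ.map f) ⊗ₘ repMap (Φ.map f)) ▷ (jC J).obj (V a ⊗ II) ≫ rotK Φ a =
      (rep (Φ.obj b) ⊗ rep (Φ.obj b)) ◁ (jC J).map (VF.map f ▷ II) ≫ rotK Φ b ≫
        repMap (Φ.map f) := by
  refine RRJ_ext fun z => ?_
  obtain ⟨y, t, rfl⟩ := LC.smash_coe_surjective (X := a.El → ℝ) (Y := unitInterval) z
  have h1 : tm (pr (Φ.map f)) (pr (Φ.map f)) = (rep (Φ.obj a) ⊗ rep (Φ.obj a)).act
      (Φ.map f ⊗ₘ Φ.map f) (tm (pr (𝟙 _)) (pr (𝟙 _))) := by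
    rw [act_tm, rep_act, Category.id_comp]
  rw [fn_comp, fn_comp, fn_comp, whiskerRight_tm, whiskerLeft_tm, tensorHom_tm, fn_repMap_pr,
    Category.comp_id, fn_jC_map, h1, ← act_tm_left, fn_act, fn_rotK, LC.app_whiskerRight_cyl,
    fn_rotK, fn_repMap_pr, rep_act, app_VF_map, Category.assoc,
    ← rightUnitor_inv_naturality, Category.assoc, δ_natural_assoc, ← Φ.map_comp_assoc,
    ← rotO_nat hf, Φ.map_comp_assoc, Category.assoc]

end strong

variable {G : Type} [Group G]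

/-- the representable object of a representation -/
@[reducible] noncomputable def repA (Q : Action O G) : Action (EF J) G :=
  mkAct (rep (Φ.obj Q.V)) (fun g => repMap (Φ.map (act Q g⁻¹)))
    (by rw [inv_one, act_one, Φ.map_id, repMap_id])
    (fun g h => by rw [mul_inv_rev, ← act_mul, Φ.map_comp, repMap_comp])

omit [IdxFun Φ] in
theorem act_repA (Q : Action O G) (g : G) :
    act (repA Φ Q) g = repMap (Φ.map (act Q g⁻¹)) := rfl

/-- contravariant functoriality of `repA` -/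
noncomputable def repAMap {P Q : Action O G} (f : P ⟶ Q) : repA Φ Q ⟶ repA Φ P :=
  mkHom (repMap (Φ.map f.hom)) fun g => by
    rw [act_repA, act_repA, ← repMap_comp, ← repMap_comp, ← Φ.map_comp, ← Φ.map_comp, act_comm]

omit [IdxFun Φ] in
theorem repAMap_hom {P Q : Action O G} (f : P ⟶ Q) :
    (repAMap Φ f).hom = repMap (Φ.map f.hom) := rfl

/-- `repA` of an isomorphism -/
noncomputable def repAIso {P Q : Action O G} (e : P ≅ Q) : repA Φ P ≅ repA Φ Q where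
  hom := repAMap Φ e.inv
  inv := repAMap Φ e.hom
  hom_inv_id := Action.hom_ext _ _ (by
    rw [Action.comp_hom, repAMap_hom, repAMap_hom, ← repMap_comp, ← Φ.map_comp,
      ← Action.comp_hom, e.hom_inv_id, Action.id_hom, Φ.map_id, repMap_id, Action.id_hom])
  inv_hom_id := Action.hom_ext _ _ (by
    rw [Action.comp_hom, repAMap_hom, repAMap_hom, ← repMap_comp, ← Φ.map_comp,
      ← Action.comp_hom, e.inv_hom_id, Action.id_hom, Φ.map_id, repMap_id, Action.id_hom])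

/-- `repA` of a direct sum -/
noncomputable def repAMu [Φ.Monoidal] (P Q : Action O G) :
    repA Φ P ⊗ repA Φ Q ≅ repA Φ (P ⊗ Q) :=
  Action.mkIso (repMu Φ P.V Q.V) fun g => repMu_nat Φ (act P g⁻¹) (act Q g⁻¹)

omit [IdxFun Φ] in
theorem repAMu_hom_hom [Φ.Monoidal] (P Q : Action O G) :
    (repAMu Φ P Q).hom.hom = (repMu Φ P.V Q.V).hom := rfl

variable [SphIdx J]

/-- the sphere of a representation in `Action (EF J) G` -/
noncomputable abbrev sphQ (J : Type) [Idx J] [SphIdx J] (Q : Action O G) : Action (EF J) G :=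
  (JA G (EF J)).obj ((sphA G).obj Q)

/-- the equivariant structure map `rep Q ⊗ S^Q ⟶ 𝟙` -/
noncomputable def lamQ [Φ.LaxMonoidal] (Q : Action O G) : repA Φ Q ⊗ sphQ J Q ⟶ 𝟙_ _ :=
  mkHom (lamV Φ Q.V) fun g => by
    change (repMap (Φ.map (act Q g⁻¹)) ⊗ₘ (jC J).map (VF.map (act Q g))) ≫ lamV Φ Q.V =
      lamV Φ Q.V ≫ 𝟙 _
    rw [tensorHom_def', Category.assoc, lamV_dinat, ← MonoidalCategory.whiskerLeft_comp_assoc,
      ← Functor.map_comp, ← Functor.map_comp, act_act_inv, CategoryTheory.Functor.map_id,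
      CategoryTheory.Functor.map_id, MonoidalCategory.whiskerLeft_id, Category.id_comp,
      Category.comp_id]

theorem lamQ_hom [Φ.LaxMonoidal] (Q : Action O G) : (lamQ Φ Q).hom = lamV Φ Q.V := rfl

theorem lamQ_dinat [Φ.LaxMonoidal] {P Q : Action O G} (f : P ⟶ Q) :
    repAMap Φ f ▷ sphQ J P ≫ lamQ Φ P =
      repA Φ Q ◁ (JA G (EF J)).map ((sphA G).map f) ≫ lamQ Φ Q :=
  Action.hom_ext _ _ (by
    rw [Action.comp_hom, Action.comp_hom, Action.whiskerRight_hom, Action.whiskerLeft_hom]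
    exact lamV_dinat Φ f.hom)

/-- the equivariant family of the rotation homotopy -/
noncomputable def rotKA [Φ.Monoidal] (Q : Action O G) :
    (repA Φ Q ⊗ repA Φ Q) ⊗ (JA G (EF J)).obj ((sphA G).obj Q ⊗ (triv G).obj II) ⟶ repA Φ Q :=
  mkHom (rotK Φ Q.V) fun g => by
    change ((repMap (Φ.map (act Q g⁻¹)) ⊗ₘ repMap (Φ.map (act Q g⁻¹))) ⊗ₘ
      (jC J).map (VF.map (act Q g) ⊗ₘ 𝟙 II)) ≫ rotK Φ Q.V =
        rotK Φ Q.V ≫ repMap (Φ.map (act Q g⁻¹))
    rw [tensorHom_def', Category.assoc, rotK_nat Φ (lin_act Q g⁻¹),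
      ← MonoidalCategory.whiskerLeft_comp_assoc, ← Functor.map_comp, tensorHom_id,
      ← comp_whiskerRight, ← Functor.map_comp, act_act_inv, CategoryTheory.Functor.map_id,
      id_whiskerRight, CategoryTheory.Functor.map_id, MonoidalCategory.whiskerLeft_id,
      Category.id_comp]

omit [SphIdx J] in
theorem whiskerLeft_contr₁ {L S S' : EF J} (h : S' ⟶ S) (lam : L ⊗ S ⟶ 𝟙_ _) :
    (L ⊗ L) ◁ h ≫ contr₁ L lam = contr₁ L (L ◁ h ≫ lam) := by
  simp only [contr₁, comp_whiskerRight, Category.assoc]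
  rw [associator_naturality_right_assoc, ← MonoidalCategory.whiskerLeft_comp_assoc,
    BraidedCategory.braiding_naturality_right, MonoidalCategory.whiskerLeft_comp_assoc,
    associator_inv_naturality_middle_assoc]

omit [SphIdx J] in
theorem whiskerLeft_contr₂ {L S S' : EF J} (h : S' ⟶ S) (lam : L ⊗ S ⟶ 𝟙_ _) :
    (L ⊗ L) ◁ h ≫ contr₂ L lam = contr₂ L (L ◁ h ≫ lam) := by
  simp only [contr₂, MonoidalCategory.whiskerLeft_comp, Category.assoc]
  rw [associator_naturality_right_assoc]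

/-- **The equivariant rotation homotopy** for the restriction of `lamQ` to a subrepresentation. -/
theorem rot_lamQ_sub [Φ.Monoidal] {P Q : Action O G} (f : P ⟶ Q) (hf : Lin f.hom) :
    Rot (repA Φ Q ◁ (JA G (EF J)).map ((sphA G).map f) ≫ lamQ Φ Q) := by
  refine rot_of_JA (repA Φ Q) _ (rotA P) (negA P) (negV_negV _) (incl_zero_rotV _)
    (incl_one_rotV _) ((repA Φ Q ⊗ repA Φ Q) ◁
      (JA G (EF J)).map ((sphA G).map f ▷ (triv G).obj II) ≫ rotKA Φ Q) ?_ ?_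
  · rw [Action.comp_hom, Action.comp_hom, Action.whiskerLeft_hom, Action.whiskerLeft_hom,
      mapA_map_hom, Action.whiskerRight_hom]
    change (rep (Φ.obj Q.V) ⊗ rep (Φ.obj Q.V)) ◁ (jC J).map (incl 0 (V P.V)) ≫
      (rep (Φ.obj Q.V) ⊗ rep (Φ.obj Q.V)) ◁ (jC J).map (VF.map f.hom ▷ II) ≫ rotK Φ Q.V =
        contr₁ (rep (Φ.obj Q.V)) (rep (Φ.obj Q.V) ◁ (jC J).map (VF.map f.hom) ≫ lamV Φ Q.V)
    rw [← MonoidalCategory.whiskerLeft_comp_assoc, ← Functor.map_comp, LC.incl_naturality,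
      Functor.map_comp, MonoidalCategory.whiskerLeft_comp_assoc, rotK_zero, whiskerLeft_contr₁]
  · rw [Action.comp_hom, Action.comp_hom, Action.whiskerLeft_hom, Action.whiskerLeft_hom,
      mapA_map_hom, Action.whiskerRight_hom]
    change (rep (Φ.obj Q.V) ⊗ rep (Φ.obj Q.V)) ◁ (jC J).map (incl 1 (V P.V)) ≫
      (rep (Φ.obj Q.V) ⊗ rep (Φ.obj Q.V)) ◁ (jC J).map (VF.map f.hom ▷ II) ≫ rotK Φ Q.V =
        (rep (Φ.obj Q.V) ⊗ rep (Φ.obj Q.V)) ◁ (jC J).map (negV P.V) ≫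
          contr₂ (rep (Φ.obj Q.V)) (rep (Φ.obj Q.V) ◁ (jC J).map (VF.map f.hom) ≫ lamV Φ Q.V)
    rw [← MonoidalCategory.whiskerLeft_comp_assoc, ← Functor.map_comp, LC.incl_naturality,
      Functor.map_comp, MonoidalCategory.whiskerLeft_comp_assoc, rotK_one, ← whiskerLeft_contr₂,
      ← MonoidalCategory.whiskerLeft_comp_assoc, ← MonoidalCategory.whiskerLeft_comp_assoc,
      ← Functor.map_comp, ← Functor.map_comp, negV_nat hf]

/-- **The equivariant rotation homotopy.** -/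
theorem rot_lamQ [Φ.Monoidal] (Q : Action O G) : Rot (lamQ Φ Q) := by
  have h := rot_lamQ_sub Φ (𝟙 Q) (lin_of_isIso (𝟙 Q.V))
  rwa [CategoryTheory.Functor.map_id, CategoryTheory.Functor.map_id,
    MonoidalCategory.whiskerLeft_id, Category.id_comp] at h

theorem lamQ_tensor [Φ.Monoidal] (P Q : Action O G) :
    tensorμ _ _ _ _ ≫ ((repAMu Φ P Q).hom ⊗ₘ
      (μ (JA G (EF J)) _ _ ≫ (JA G (EF J)).map (μ (sphA G) P Q))) ≫ lamQ Φ (P ⊗ Q) =
        (lamQ Φ P ⊗ₘ lamQ Φ Q) ≫ (λ_ (𝟙_ (Action (EF J) G))).hom := by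
  refine Action.hom_ext _ _ ?_
  have h := lamV_tensor Φ P.V Q.V
  simp only [tensorμ] at h ⊢
  simp only [Action.comp_hom, Action.tensorHom_hom, Action.whiskerLeft_hom, Action.whiskerRight_hom,
    Action.associator_hom_hom, Action.associator_inv_hom, Action.β_hom_hom,
    Action.leftUnitor_hom_hom]
  exact h

/-- comparison with the structure map of `StabInput (EF J)` -/
theorem lamC_eq [Φ.LaxMonoidal] (e : SphIdx.gen ⟶ Φ.obj O.pt)
    (h : ∀ r : OnePoint ℝ, SphIdx.pt r ≫ e = ptF Φ (app O.lineIso.hom r)) :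
    repMap e ▷ (jC J).obj RR ≫ lamC J =
      rep (Φ.obj O.pt) ◁ (jC J).map O.lineIso.hom ≫ lamV Φ O.pt := by
  refine RF_ext fun r => ?_
  rw [fn_comp, fn_comp, whiskerRight_tm, whiskerLeft_tm, fn_repMap_pr, fn_jC_map, lamC_tm,
    lamV_tm, Category.comp_id, Category.comp_id, h]

omit [IdxFun Φ] [SphIdx J] in
theorem pt_Gr {Λ : Type} [AddCommMonoid Λ] [Preorder Λ] [IsOrderedAddMonoid Λ] (r : OnePoint ℝ) :
    (SphIdx.pt r : 𝟙_ (Gr O Λ) ⟶ SphIdx.gen) =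
      ptF (Gr.inc O (0 : Λ)) (a := O.pt) (app O.lineIso.hom r) := by
  refine Gr.hom_ext ((Gr.sphIdx_pt_hom r).trans ((O.sphIdx_pt r).trans ?_))
  exact (Category.id_comp _).symm

omit [IdxFun Φ] [SphIdx J] in
/-- the structure map of `StabInput (EF (Gr O Λ))` is `lamV` of the line -/
theorem lamC_Gr (Λ : Type) [AddCommMonoid Λ] [Preorder Λ] [IsOrderedAddMonoid Λ] :
    lamC (Gr O Λ) = rep ((Gr.inc O (0 : Λ)).obj O.pt) ◁ (jC (Gr O Λ)).map O.lineIso.hom ≫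
      lamV (Gr.inc O (0 : Λ)) O.pt := by
  have h := lamC_eq (Gr.inc O (0 : Λ)) (𝟙 _) fun r => (Category.comp_id _).trans (pt_Gr r)
  refine Eq.trans ?_ h
  exact ((congrArg (fun f => f ▷ (jC (Gr O Λ)).obj RR ≫ lamC (Gr O Λ)) (repMap_id _)).trans
    (by rw [id_whiskerRight, Category.id_comp])).symm

end Vale.Agent.P257.E
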