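import Vale.Agent.P257.E.PT
import Mathlib.Analysis.InnerProductSpace.PiL2

/-!
# P257, block E: every representation is a summand of a multiple of the regular representation

* `mt Q g`: the matrices of a representation `Q : Action O G`; `ofMt`, `isoOfMt`;
* `exists_summand`: complements of subrepresentations;
* `rep_induction`, `O_induction`.
-/

open CategoryTheory MonoidalCategory Matrix

namespace Vale.Agent.P257.E

open Vale.Agent.P257.D

theorem exists_compl {ι κ : Type} [Fintype ι] [Fintype κ] [DecidableEq κ] (A : Matrix κ ι ℝ)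
    (h : ∀ v, Aᵀ *ᵥ (A *ᵥ v) = v) : ∃ (m : ℕ) (B : Matrix κ (Fin m) ℝ),
      Bᵀ * B = 1 ∧ Aᵀ * B = 0 ∧ A * Aᵀ + B * Bᵀ = 1 := by
  let K : Submodule ℝ (EuclideanSpace ℝ κ) :=
    LinearMap.ker (Aᵀ.mulVecLin ∘ₗ (WithLp.linearEquiv 2 ℝ (κ → ℝ)).toLinearMap)
  let b := stdOrthonormalBasis ℝ K
  let B : Matrix κ (Fin (Module.finrank ℝ K)) ℝ := Matrix.of fun k j => (b j).1 k
  have hi : ∀ (j) (u : K), inner ℝ (b j) u = (Bᵀ *ᵥ u.1.ofLp) j := fun j u => by
    rw [Submodule.coe_inner, PiLp.inner_apply]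
    exact Finset.sum_congr rfl fun k _ => by simp [B, mul_comm]
  have h2 : Aᵀ * B = 0 := by
    ext i j
    exact congrFun (b j).2 i
  refine ⟨_, B, ?_, h2, ?_⟩
  · ext i j
    rw [one_apply, ← orthonormal_iff_ite.1 b.orthonormal i j, hi]
    rfl
  · have h3 : Bᵀ * A = 0 := by rw [← transpose_transpose A, ← transpose_mul, h2, transpose_zero]
    refine Matrix.toLin'.injective (LinearMap.ext fun w => ?_)
    let u : K := ⟨WithLp.toLp 2 (w - A *ᵥ (Aᵀ *ᵥ w)), by
      change Aᵀ *ᵥ (w - A *ᵥ (Aᵀ *ᵥ w)) = 0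
      rw [mulVec_sub, h, sub_self]⟩
    have h4 : B *ᵥ (Bᵀ *ᵥ u.1.ofLp) = u.1.ofLp := by
      funext k
      have h5 := congrArg (fun x : K => x.1 k) (b.sum_repr' u)
      simp only [Submodule.coe_sum, Submodule.coe_smul, hi, WithLp.ofLp_sum, WithLp.ofLp_smul,
        Finset.sum_apply, Pi.smul_apply, smul_eq_mul] at h5
      refine Eq.trans ?_ h5
      generalize Bᵀ *ᵥ u.1.ofLp = z
      change ∑ j, (b j).1 k * z j = _
      exact Finset.sum_congr rfl fun j _ => mul_comm _ _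
    have h6 : Bᵀ *ᵥ u.1.ofLp = Bᵀ *ᵥ w := by
      change Bᵀ *ᵥ (w - A *ᵥ (Aᵀ *ᵥ w)) = _
      rw [mulVec_sub, mulVec_mulVec, h3, zero_mulVec, sub_zero]
    rw [toLin'_apply, toLin'_apply, add_mulVec, ← mulVec_mulVec, ← mulVec_mulVec, ← h6, h4,
      one_mulVec]
    exact add_sub_cancel _ _

/-- a linear isometric embedding -/
def mkL {a b : O} (A : Matrix b.El a.El ℝ) (h : Aᵀ * A = 1) : a ⟶ b :=
  O.mk (OH.mk A 0 (fun v => by rw [mulVec_mulVec, h, one_mulVec]) (mulVec_zero _))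

theorem mkL_congr {a b : O} {A A' : Matrix b.El a.El ℝ} (h : Aᵀ * A = 1) (h' : A'ᵀ * A' = 1)
    (e : A = A') : mkL A h = mkL A' h' := by subst e; rfl

theorem mkL_comp {a b c : O} {A : Matrix b.El a.El ℝ} {B : Matrix c.El b.El ℝ} (h : Aᵀ * A = 1)
    (h' : Bᵀ * B = 1) : mkL A h ≫ mkL B h' = mkL (B * A) (by
      rw [transpose_mul, Matrix.mul_assoc, ← Matrix.mul_assoc Bᵀ, h', Matrix.one_mul, h]) :=
  congrArg O.mk (OH.ext rfl ((OH.comp_w _ _).trans (OH.ap_zero _)))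

theorem mkL_one (a : O) : mkL (1 : Matrix a.El a.El ℝ) (by simp) = 𝟙 a :=
  O.mk_ext fun v => ((add_zero _).trans (one_mulVec v)).trans (O.refl_ap v).symm

theorem lin_mkL {a b : O} (A : Matrix b.El a.El ℝ) (h : Aᵀ * A = 1) : Lin (mkL A h) := lin_mk rfl

variable {G : Type} [Group G]

/-- the matrices of a representation -/
noncomputable def mt (Q : Action O G) (g : G) : Matrix Q.V.El Q.V.El ℝ := (O.isoOH (act Q g)).A

theorem mt_orth (Q : Action O G) (g : G) : (mt Q g)ᵀ * mt Q g = 1 := OH.transpose_mul_self _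

theorem act_eq_mkL (Q : Action O G) (g : G) : act Q g = mkL (mt Q g) (mt_orth Q g) :=
  (O.mk_isoOH _).symm.trans (congrArg O.mk (OH.ext rfl (O.isoOH_w _)))

theorem mt_eq {Q : Action O G} {g : G} {φ : OH Q.V.El Q.V.El} (h : act Q g = O.mk φ) :
    mt Q g = φ.A := congrArg OH.A (O.mk_injective ((O.mk_isoOH _).trans h))

theorem mt_mul (Q : Action O G) (g h : G) : mt Q (g * h) = mt Q g * mt Q h :=
  mt_eq (Q := Q) (g := g * h) ((act_mul Q g h).symm.trans
    ((congrArg₂ (· ≫ ·) (act_eq_mkL Q h) (act_eq_mkL Q g)).trans (mkL_comp _ _)))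

theorem mt_one (Q : Action O G) : mt Q 1 = 1 := mt_eq ((act_one Q).trans (mkL_one _).symm)

theorem mt_transpose (Q : Action O G) (g : G) : (mt Q g)ᵀ = mt Q g⁻¹ := by
  rw [← Matrix.mul_one (mt Q g)ᵀ, ← mt_one, ← mul_inv_cancel g, mt_mul, ← Matrix.mul_assoc, mt_orth,
    Matrix.one_mul]

theorem mt_tensor (P Q : Action O G) (g : G) :
    mt (P ⊗ Q) g = fromBlocks (mt P g) 0 0 (mt Q g) :=
  mt_eq (Q := P ⊗ Q) (g := g) (φ := O.tens (O.isoOH (act P g)) (O.isoOH (act Q g)))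
    (by rw [act_tensor, ← O.mk_tensor, O.mk_isoOH, O.mk_isoOH])

/-- a representation given by matrices -/
@[reducible] def ofMt (a : O) (ρ : G → Matrix a.El a.El ℝ) (h : ∀ g, (ρ g)ᵀ * ρ g = 1)
    (h1 : ρ 1 = 1) (hm : ∀ g h, ρ (g * h) = ρ g * ρ h) : Action O G :=
  mkAct a (fun g => mkL (ρ g) (h g)) ((mkL_congr _ _ h1).trans (mkL_one a))
    fun g k => (mkL_congr _ _ (hm g k)).trans (mkL_comp _ _).symm

theorem mt_ofMt (a : O) (ρ : G → Matrix a.El a.El ℝ) (h : ∀ g, (ρ g)ᵀ * ρ g = 1)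
    (h1 : ρ 1 = 1) (hm : ∀ g h, ρ (g * h) = ρ g * ρ h) (g : G) :
    mt (ofMt a ρ h h1 hm) g = ρ g := mt_eq (Q := ofMt a ρ h h1 hm) (g := g) rfl

/-- an isomorphism of representations given by a matrix -/
def isoOfMt {P Q : Action O G} (C : Matrix Q.V.El P.V.El ℝ) (h : Cᵀ * C = 1) (h' : C * Cᵀ = 1)
    (he : ∀ g, C * mt P g = mt Q g * C) : P ≅ Q :=
  Action.mkIso
    { hom := mkL C h
      inv := mkL Cᵀ h'
      hom_inv_id := (mkL_comp _ _).trans ((mkL_congr _ _ h).trans (mkL_one _))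
      inv_hom_id := (mkL_comp _ _).trans ((mkL_congr _ _ h').trans (mkL_one _)) } fun g => by
    change act P g ≫ mkL C h = mkL C h ≫ act Q g
    rw [act_eq_mkL, act_eq_mkL, mkL_comp, mkL_comp]
    exact mkL_congr _ _ (he g)

theorem exists_summand {Q W : Action O G} (A : Matrix W.V.El Q.V.El ℝ) (h : Aᵀ * A = 1)
    (he : ∀ g, A * mt Q g = mt W g * A) : ∃ P : Action O G, Nonempty (Q ⊗ P ≅ W) := by
  obtain ⟨m, B, h1, h2, h3⟩ := exists_compl A fun v => by rw [mulVec_mulVec, h, one_mulVec]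
  have h4 : Bᵀ * A = 0 := by rw [← transpose_transpose A, ← transpose_mul, h2, transpose_zero]
  have k1 : ∀ g, Aᵀ * mt W g = mt Q g * Aᵀ := fun g => by
    have := congrArg transpose (he g⁻¹)
    rw [transpose_mul, transpose_mul, mt_transpose, mt_transpose, inv_inv] at this
    exact this.symm
  have k2 : ∀ g, B * (Bᵀ * mt W g * B) = mt W g * B := fun g => by
    rw [← Matrix.mul_assoc, ← Matrix.mul_assoc, eq_sub_of_add_eq' h3, Matrix.sub_mul,
      Matrix.sub_mul, Matrix.one_mul, Matrix.mul_assoc A, k1, Matrix.mul_assoc, Matrix.mul_assoc,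
      h2, Matrix.mul_zero, Matrix.mul_zero, sub_zero]
  have k3 : ∀ g k, Bᵀ * mt W (g * k) * B = (Bᵀ * mt W g * B) * (Bᵀ * mt W k * B) := fun g k => by
    rw [Matrix.mul_assoc (Bᵀ * mt W g), k2, mt_mul, ← Matrix.mul_assoc, ← Matrix.mul_assoc]
  have k4 : Bᵀ * mt W 1 * B = 1 := by rw [mt_one, Matrix.mul_one, h1]
  have k5 : ∀ g, (Bᵀ * mt W g * B)ᵀ * (Bᵀ * mt W g * B) = 1 := fun g => by
    rw [transpose_mul, transpose_mul, transpose_transpose, mt_transpose, ← Matrix.mul_assoc Bᵀ,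
      ← k3, inv_mul_cancel, k4]
  refine ⟨ofMt (O.fin m) (fun g => Bᵀ * mt W g * B) k5 k4 k3,
    ⟨isoOfMt (fromCols A B) ?_ ?_ fun g => ?_⟩⟩
  · refine (congrArg (· * fromCols A B) (transpose_fromCols A B)).trans
      ((fromRows_mul_fromCols _ _ _ _).trans ?_)
    rw [h, h1, h2, h4]
    exact fromBlocks_one
  · exact (congrArg (fromCols A B * ·) (transpose_fromCols A B)).trans
      ((fromCols_mul_fromRows _ _ _ _).trans h3)
  · have k6 : fromCols A B * fromBlocks (mt Q g) 0 0 (Bᵀ * mt W g * B) = mt W g * fromCols A B := by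
      rw [fromCols_mul_fromBlocks, mul_fromCols, Matrix.mul_zero, Matrix.mul_zero, add_zero,
        zero_add, he, k2]
    exact (congrArg (fun X : Matrix (Q.V.El ⊕ Fin m) (Q.V.El ⊕ Fin m) ℝ => fromCols A B * X)
      ((mt_tensor Q (ofMt (O.fin m) _ k5 k4 k3) g).trans
        (congrArg (fromBlocks (mt Q g) 0 0) (mt_ofMt (O.fin m) _ k5 k4 k3 g)))).trans k6

/-- multiples of the regular representation -/
def Reg (W : Action O G) (κ : Type) : Prop := ∃ e : G × κ ≃ W.V.El,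
  ∀ (g : G) (w : W.V.El → ℝ) x i, (mt W g *ᵥ w) (e (x, i)) = w (e (g⁻¹ * x, i))

theorem mt_permRep {Ω : Type} [Finite Ω] [MulAction G Ω] (g : G) (w : (O.of Ω).El → ℝ) (x : Ω) :
    (mt (permRep G Ω) g *ᵥ w) (O.ofEquiv Ω x) = w (O.ofEquiv Ω (g⁻¹ • x)) := by
  rw [mt_eq (Q := permRep G Ω) rfl, OH.ofEquiv_A_mulVec]
  simp

variable [Finite G]

theorem exists_reg (P : Action O G → Prop) (unit : P (𝟙_ _))
    (tensor : ∀ A B, P A → P B → P (A ⊗ B)) (reg : P (permRep G G)) (κ : Type) [Finite κ] :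
    ∃ W, P W ∧ Reg W κ := by
  induction κ using Finite.induction_empty_option with
  | of_equiv e ih =>
    obtain ⟨W, h, e', k⟩ := ih
    exact ⟨W, h, ((Equiv.refl G).prodCongr e.symm).trans e', fun g w x i => k g w x (e.symm i)⟩
  | h_empty => exact ⟨_, unit, Equiv.equivOfIsEmpty _ (𝟙_ O).El, fun _ _ _ i => i.elim⟩
  | h_option ih =>
    obtain ⟨W, h, e, k⟩ := ih
    refine ⟨_, tensor _ _ reg h, ((Equiv.refl G).prodCongr (Equiv.optionEquivSumPUnit.{0} _)).trans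
      ((Equiv.prodSumDistrib _ _ _).trans ((Equiv.sumComm _ _).trans
        (((Equiv.prodPUnit G).trans (O.ofEquiv G)).sumCongr e))), fun g w x i => ?_⟩
    rw [mt_tensor]
    refine (congrFun (fromBlocks_mulVec _ _ _ _ _) _).trans ?_
    rw [zero_mulVec, zero_mulVec, add_zero, zero_add]
    cases i with
    | none => exact mt_permRep g _ x
    | some i => exact k g _ x i

theorem Reg.exists_summand {Q W : Action O G} (h : Reg W Q.V.El) :
    ∃ P : Action O G, Nonempty (Q ⊗ P ≅ W) := by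
  obtain ⟨e, k⟩ := h
  have := Fintype.ofFinite G
  have hc : (0 : ℝ) < Fintype.card G := by exact_mod_cast Fintype.card_pos
  let c : ℝ := (√(Fintype.card G : ℝ))⁻¹
  refine E.exists_summand (Matrix.of fun k j => c * mt Q (e.symm k).1⁻¹ (e.symm k).2 j) ?_
    fun g => ?_
  · ext i j
    have h1 : ∀ x : G, ∑ l, (c * mt Q x⁻¹ l i) * (c * mt Q x⁻¹ l j) =
        c * c * (1 : Matrix Q.V.El Q.V.El ℝ) i j := fun x => by
      rw [← mt_orth Q x⁻¹, mul_apply, Finset.mul_sum]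
      exact Finset.sum_congr rfl fun l _ => by rw [transpose_apply]; ring
    rw [mul_apply, ← e.sum_comp, Fintype.sum_prod_type]
    simp only [transpose_apply, of_apply, Equiv.symm_apply_apply, h1]
    rw [Finset.sum_const, Finset.card_univ, nsmul_eq_mul, ← mul_assoc, ← mul_inv,
      Real.mul_self_sqrt hc.le, mul_inv_cancel₀ hc.ne', one_mul]
  · ext l j
    obtain ⟨⟨x, i⟩, rfl⟩ := e.surjective l
    refine Eq.trans ?_ (k g (fun l => c * mt Q (e.symm l).1⁻¹ (e.symm l).2 j) x i).symm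
    simp only [mul_apply, of_apply, Equiv.symm_apply_apply, _root_.mul_inv_rev, inv_inv, mt_mul,
      Finset.mul_sum, mul_assoc]

theorem rep_induction (P : Action O G → Prop) (iso : ∀ {A B}, (A ≅ B) → P A → P B)
    (unit : P (𝟙_ _)) (tensor : ∀ A B, P A → P B → P (A ⊗ B))
    (summand : ∀ A B, P (A ⊗ B) → P A) (reg : P (permRep G G)) (Q : Action O G) : P Q := by
  obtain ⟨W, h, k⟩ := exists_reg P unit tensor reg Q.V.El
  obtain ⟨R, ⟨e⟩⟩ := k.exists_summand
  exact summand _ _ (iso e.symm h)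

theorem O_induction (P : O → Prop) (iso : ∀ {a b}, (a ≅ b) → P a → P b) (unit : P (𝟙_ _))
    (pt : P O.pt) (tensor : ∀ a b, P a → P b → P (a ⊗ b)) (a : O) : P a := by
  have k : ∀ n, P (O.fin n) := fun n => by
    induction n with
    | zero => exact iso (O.isoOfEquiv (Equiv.equivOfIsEmpty (𝟙_ O).El (Fin 0))) unit
    | succ n ih =>
      exact iso (O.isoOfEquiv (a := O.fin n ⊗ O.pt) (b := O.fin (n + 1))
        ((finSuccEquiv n).trans (Equiv.optionEquivSumPUnit.{0} _)).symm) (tensor _ _ ih pt)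
  exact iso (O.isoOfEquiv (a := O.fin _) (Fintype.equivFin a.El).symm) (k _)

end Vale.Agent.P257.E
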