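import Vale.Agent.P257.E.Res
import Vale.Agent.P257.E.Univ
import Vale.Agent.P257.E.Lam
import Vale.Agent.P257.Z.Rb

/-!
# P257, block E: the stable categories `SC (De J p)` and `SC (Dh Φ p ι)`

* `isIso_lamV`, `isIso_lamQ`: all representation spheres are invertible;
* `DP Φ D P`: the equivariant stabilization in which the transfer of `G ⧸ P` is inverted;
* `De J p`, `Dh Φ p ι`, `Rh`, `τh`, `T0`, `T1`, `exists_trf`.
-/

open CategoryTheory MonoidalCategory Limits Functor.LaxMonoidal Functor.OplaxMonoidal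

namespace Vale.Agent.P257.E

open Vale.Agent.P251.H
open Vale.Agent.P251.H.StabInput hiding J
open Vale.Agent.P251.M (IsInv)
open Vale.Agent.P251.G (LC)
open Vale.Agent.P251.G.LC (RR app)
open Vale.Agent.P257.K Vale.Agent.P257.D Vale.Agent.P257.D.EF
open Vale.Agent.P257.D.O (V)
open Equiv (Perm)

universe v u v' u'

theorem isInv_map {C : Type u} [Category.{v} C] [MonoidalCategory C] {C' : Type u'}
    [Category.{v'} C'] [MonoidalCategory C'] [SymmetricCategory C'] (F : C ⥤ C') [F.Monoidal]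
    (X : C) [IsInv X] : IsInv (F.obj X) :=
  isInv_left F ((tensorLeft X).objObjPreimageIso (𝟙_ C)).hom

variable {J : Type} [Idx J] [SphIdx J] (Φ : O ⥤ J) [IdxFun Φ] [Φ.Monoidal]

/-- compatibility with the circle of the index category -/
class Std : Prop where
  ex : ∃ e : SphIdx.gen ≅ Φ.obj O.pt, ∀ r, SphIdx.pt r ≫ e.hom = ptF Φ (app O.lineIso.hom r)

instance : Std (𝟭 O) :=
  ⟨Iso.refl _, fun r => (Category.comp_id _).trans ((O.sphIdx_pt r).trans (Category.id_comp _).symm)⟩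

instance {Λ : Type} [AddCommMonoid Λ] [Preorder Λ] [IsOrderedAddMonoid Λ] :
    Std (Gr.inc O (0 : Λ)) :=
  ⟨Iso.refl _, fun r => (Category.comp_id _).trans (pt_Gr r)⟩

omit [SphIdx J] [IdxFun Φ] [Φ.Monoidal] in
instance {c d : J} (f : c ⟶ d) [IsIso f] : IsIso (repMap f) :=
  ⟨repMap (inv f), by rw [← repMap_comp, IsIso.inv_hom_id, repMap_id],
    by rw [← repMap_comp, IsIso.hom_inv_id, repMap_id]⟩

omit [SphIdx J] in
instance : IsIso (lamV Φ (𝟙_ O)) :=
  have : IsIso (((repEps Φ).hom ⊗ₘ (ε (jC J) ≫ (jC J).map (ε VF))) ≫ lamV Φ (𝟙_ O)) := by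
    rw [lamV_unit]
    infer_instance
  IsIso.of_isIso_comp_left ((repEps Φ).hom ⊗ₘ (ε (jC J) ≫ (jC J).map (ε VF))) _

theorem isIso_map_iff {N : Type u} [Category.{v} N] {C : Type u'} [Category.{v'} C] (F : N ⥤ C)
    {W X Y Z : N} {e : W ⟶ X} {e' : W ⟶ Y} [IsIso e] [IsIso e'] {f : X ⟶ Z} {g : Y ⟶ Z}
    (h : e ≫ f = e' ≫ g) : IsIso (F.map f) ↔ IsIso (F.map g) := by
  rw [← isIso_comp_left_iff (F.map e), ← F.map_comp, h, F.map_comp, isIso_comp_left_iff]

theorem tensorHom_unit {N : Type u} [Category.{v} N] [MonoidalCategory N] {U W : N}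
    (a : U ⟶ 𝟙_ N) (b : W ⟶ 𝟙_ N) : (a ⊗ₘ b) ≫ (λ_ _).hom = tt a W ≫ b := by
  rw [tt, MonoidalCategory.tensorHom_def, Category.assoc, Category.assoc, leftUnitor_naturality]

instance {N : Type u} [Category.{v} N] [MonoidalCategory N] [BraidedCategory N] (A B C D : N) :
    IsIso (tensorμ A B C D) := by
  unfold tensorμ
  infer_instance

variable {C : Type u'} [Category.{v'} C] [MonoidalCategory C]

theorem isIso_lamV [Std Φ] (F : EF J ⥤ C) [F.Monoidal] [h : IsIso (F.map (lamC J))] (a : O) :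
    IsIso (F.map (lamV Φ a)) := by
  induction a using O_induction with
  | iso e k =>
    have : IsIso (VF.map e.hom) := (VF.mapIso e).isIso_hom
    exact (isIso_map_iff F (lamV_dinat Φ e.hom)).1 k
  | unit => infer_instance
  | pt =>
    obtain ⟨e, he⟩ := Std.ex (Φ := Φ)
    exact (isIso_map_iff F (lamC_eq Φ e.hom he)).1 h
  | tensor a b ha hb =>
    refine (isIso_map_iff F (e' := 𝟙 _) ((Category.assoc _ _ _).trans ((lamV_tensor Φ a b).trans
      ((tensorHom_unit _ _).trans (Category.id_comp _).symm)))).2 ?_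
    rw [F.map_comp]
    infer_instance

variable {G : Type} [Group G]

omit [SphIdx J] [IdxFun Φ] [Φ.Monoidal] in
instance {P Q : Action O G} (f : P ⟶ Q) [IsIso f] : IsIso (repAMap Φ f) :=
  (repAIso Φ (asIso f)).isIso_inv

omit [MonoidalCategory C] in
theorem isIso_lamQ_tensor (F : Action (EF J) G ⥤ C) (P Q : Action O G) :
    IsIso (F.map (lamQ Φ (P ⊗ Q))) ↔ IsIso (F.map (tt (lamQ Φ P) _ ≫ lamQ Φ Q)) :=
  have : IsIso (μ (JA G (EF J)) ((sphA G).obj P) ((sphA G).obj Q) ≫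
      (JA G (EF J)).map (μ (sphA G) P Q)) := (Functor.Monoidal.μIso (JA G (EF J)) _ _ ≪≫
    (JA G (EF J)).mapIso (Functor.Monoidal.μIso (sphA G) P Q)).isIso_hom
  isIso_map_iff F (e' := 𝟙 _) ((Category.assoc _ _ _).trans ((lamQ_tensor Φ P Q).trans
    ((tensorHom_unit _ _).trans (Category.id_comp _).symm)))

theorem isIso_lamQ [Finite G] (F : Action (EF J) G ⥤ C) [F.Monoidal]
    (hF : ∀ {A X : Action (EF J) G} {f g : A ⟶ X}, MHtpy f g → F.map f = F.map g)
    [h : IsIso (F.map (lamQ Φ (permRep G G)))] (Q : Action O G) : IsIso (F.map (lamQ Φ Q)) := by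
  induction Q using rep_induction with
  | iso e k =>
    have : IsIso ((JA G (EF J)).map ((sphA G).map e.hom)) :=
      ((JA G (EF J)).mapIso ((sphA G).mapIso e)).isIso_hom
    exact (isIso_map_iff F (lamQ_dinat Φ e.hom)).1 k
  | unit =>
    have : IsIso (lamQ Φ (𝟙_ (Action O G))).hom := inferInstanceAs (IsIso (lamV Φ (𝟙_ O)))
    infer_instance
  | tensor A B ha hb =>
    rw [isIso_lamQ_tensor, F.map_comp]
    infer_instance
  | summand A B k =>
    rw [isIso_lamQ_tensor, tt_comp_eq] at k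
    exact Rot.isIso_map F hF (rot_lamQ Φ A) _ (h := k)
  | reg => exact h

variable (J G) in
/-- the sphere of a permutation representation -/
noncomputable def sphE (Ω : Type) [Finite Ω] [MulAction G Ω] :
    sphQ J (permRep G Ω) ≅ (JA G (EF J)).obj (gsp G (GF Ω)) := (JA G (EF J)).mapIso (sphGF G Ω)

variable [Finite G] (D : Stab (EF J)) (P : Subgroup G)

variable (J) in
/-- the transfer of `G ⧸ P` followed by the fold map -/
noncomputable def thQ : sphQ J (permRep G G) ⟶ sphQ J (permRep G G) :=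
  (sphE J G G).hom ≫ theta (EF J) (ctr_quot P) ≫ (sphE J G G).inv

/-- the twisted structure map of the regular representation -/
noncomputable def aP : repA Φ (permRep G G) ⊗ sphQ J (permRep G G) ⟶ 𝟙_ _ :=
  repA Φ (permRep G G) ◁ thQ J P ≫ lamQ Φ (permRep G G)

theorem rot_aP : Rot (aP Φ P) := (rot_lamQ Φ _).comp_end _

/-- the equivariant stabilization in which the transfer of `G ⧸ P` is inverted -/
noncomputable abbrev DP : Stab (Action (EF J) G) := DX D (aP Φ P) (rot_aP Φ P)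

instance (Q : Action O G) : IsIso ((st (DP Φ D P)).map (lamQ Φ Q)) :=
  have : IsIso ((st (DP Φ D P)).map (lamQ Φ (permRep G G))) :=
    Rot.isIso_map _ SC.st_htpy (rot_lamQ Φ _) (repA Φ (permRep G G) ◁ thQ J P)
      (h := inferInstanceAs (IsIso ((st (DP Φ D P)).map (aP Φ P))))
  isIso_lamQ Φ _ SC.st_htpy Q

instance isInv_repA (Q : Action O G) : IsInv ((st (DP Φ D P)).obj (repA Φ Q)) :=
  isInv_left _ (lamQ Φ Q)

instance isInv_sphQ (Q : Action O G) : IsInv ((st (DP Φ D P)).obj (sphQ J Q)) :=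
  isInv_right _ (lamQ Φ Q)

instance isInv_GF (Ω : Type) [Finite Ω] [MulAction G Ω] :
    IsInv ((st (DP Φ D P)).obj ((JA G (EF J)).obj (gsp G (GF Ω)))) :=
  have := isInv_sphQ Φ D P (permRep G Ω)
  IsInv.of_iso ((st (DP Φ D P)).mapIso (sphE J G Ω))

instance : IsIso ((st (DP Φ D P)).map (theta (EF J) (ctr_quot P))) := by
  have h : IsIso ((st (DP Φ D P)).map (aP Φ P)) := inferInstance
  rw [aP, Functor.map_comp, isIso_comp_right_iff] at h
  have := isInv_repA Φ D P (permRep G G)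
  have k := isIso_map_of_whiskerLeft (st (DP Φ D P)) (repA Φ (permRep G G)) (thQ J P)
  rwa [thQ, Functor.map_comp, Functor.map_comp, isIso_comp_left_iff, isIso_comp_right_iff] at k

theorem isIso_aP_hom [Std Φ] [IsIso ((st D).map (lamC J))]
    (h : IsIso (Nat.card (G ⧸ P) • 𝟙 (𝟙_ (SC D)))) : IsIso ((st D).map (aP Φ P).hom) := by
  have h1 : IsIso ((st D).map (theta (EF J) (ctr_quot P)).hom) := by
    rw [map_theta (SC.sphFun D)]
    exact isIso_nsmul_of_unit h _
  have h2 : IsIso ((st D).map (thQ J P).hom) := by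
    rw [thQ, Action.comp_hom, Action.comp_hom, Functor.map_comp, Functor.map_comp]
    infer_instance
  have h3 : IsIso ((st D).map (lamQ Φ (permRep G G)).hom) := isIso_lamV Φ _ _
  rw [aP, Action.comp_hom, Action.whiskerLeft_hom, Functor.map_comp]
  infer_instance

section

variable [IsIso ((st D).map (aP Φ P).hom)] {X Y : SC (DP Φ D P)}

theorem DP_inj (hY : Free (fset (EF J) G (G ⧸ P) ⊗ Y.obj)) {x y : Y ⟶ X}
    (e : ((rsA D _ _).map x).hom = ((rsA D _ _).map y).hom) : x = y :=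
  have : IsIso ((st (DP Φ D P)).map (pt (EF J) (ctr_quot P) ≫ fold (G ⧸ P) _)) :=
    inferInstanceAs (IsIso ((st (DP Φ D P)).map (theta (EF J) (ctr_quot P))))
  rsA_inj_trf (pt (EF J) (ctr_quot P)) hY e

theorem DP_trf (T : Type) [MulAction G T] [Fintype T] :
    ∃ τ : 𝟙_ (SC (DP Φ D P)) ⟶ (st _).obj (fset (EF J) G T), ∀ B : SC (DP Φ D P),
      ((rsA D _ _).map ((λ_ B).inv ≫ τ ▷ B)).hom = ∑ t : T, (st D).map (dinc t B.obj.V) := by
  have : IsInv ((st D).obj ((JA G (EF J)).obj (gsp G (GF T))).V) :=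
    isInv_map (rsA D (aP Φ P) (rot_aP Φ P) ⋙ Action.forget _ G)
      ((st (DP Φ D P)).obj ((JA G (EF J)).obj (gsp G (GF T))))
  obtain ⟨τ, -, h⟩ := rsA_trf (D := D) (a := aP Φ P) (ha := rot_aP Φ P)
    (pt (EF J) (ctr_self (G := G) (Ω := T))) (map_pt (SC.sphFun D) _)
  exact ⟨τ, h⟩

end

section final

variable (J) in
/-- the non-equivariant stabilization -/
noncomputable abbrev De (p : ℕ) : Stab (EF J) := DE (EF J) (n0 p)

instance (p : ℕ) : IsIso ((st (De J p)).map (lamC J)) :=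
  inferInstanceAs (IsIso ((st (De J p)).map (Stab.std (EF J)).lam))

instance [Std Φ] (p : ℕ) (a : O) : IsIso ((st (De J p)).map (lamV Φ a)) := isIso_lamV Φ _ a

instance (p : ℕ) : Fact (Nat.card (Fin p) = p) := ⟨Nat.card_eq_fintype_card.trans (Fintype.card_fin p)⟩

variable (p : ℕ) (ι : Type) [Finite ι]

/-- a Sylow subgroup of the symmetric group -/
noncomputable def syl : Sylow p (Perm ι) := default

/-- the equivariant stabilization -/
noncomputable abbrev Dh : Stab (Action (EF J) (Perm ι)) := DP Φ (De J p) (syl p ι : Subgroup _)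

instance isInv_VA : IsInv ((st (Dh Φ p ι)).obj ((JA (Perm ι) (EF J)).obj (Z.VA ι))) :=
  have := isInv_GF Φ (De J p) (syl p ι : Subgroup (Perm ι)) ι
  IsInv.of_iso ((st (Dh Φ p ι)).mapIso ((JA (Perm ι) (EF J)).mapIso (fnGF ι).symm))

/-- objects with the trivial action -/
noncomputable abbrev τh : SC (De J p) ⥤ SC (Dh Φ p ι) := tau _ _ _

variable [Std Φ] [hp : Fact p.Prime] [hι : Fact (Nat.card ι = p)]

instance : IsIso ((st (De J p)).map (aP Φ (syl p ι : Subgroup (Perm ι))).hom) :=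
  isIso_aP_hom Φ _ _ (isIso_nsmul_n0 Nat.card_pos.ne' (fun _ hq e =>
    have h := lt_of_dvd_index hp.out hq hι.out _ e
    ⟨h.trans_le (Nat.le_self_pow two_ne_zero p), h.ne⟩) _)

/-- restriction to the trivial group -/
noncomputable abbrev Rh : SC (Dh Φ p ι) ⥤ Action (SC (De J p)) (Perm ι) := rsA _ _ _

variable {Φ p ι} {X Y : SC (Dh Φ p ι)}

/-- **T0** -/
theorem T0 {T : Type} [MulAction (Perm ι) T] [Finite T]
    (hT : ∀ g : Perm ι, orderOf g = p → ∀ t : T, g • t ≠ t)
    {x y : (st (Dh Φ p ι)).obj (fset (EF J) (Perm ι) T) ⊗ Y ⟶ X}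
    (e : ((Rh Φ p ι).map x).hom = ((Rh Φ p ι).map y).hom) : x = y :=
  DP_inj Φ _ _ (((free_fset_tensor (freeSet_quot hp.out (syl p ι).isPGroup' hT)).tensor_right
    Y.obj).of_iso (α_ _ _ _).symm) e

variable (X Y) in
/-- **T1** -/
theorem T1 : Function.Bijective
    fun x : (st (Dh Φ p ι)).obj (fset (EF J) (Perm ι) (Perm ι)) ⊗ Y ⟶ X =>
      (st (De J p)).map (dinc (1 : Perm ι) Y.obj.V) ≫ ((Rh Φ p ι).map x).hom :=
  rsA_bijective X Y

variable (Φ p ι) in
/-- stable transfers -/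
theorem exists_trf (T : Type) [MulAction (Perm ι) T] [Fintype T] :
    ∃ τ : 𝟙_ (SC (Dh Φ p ι)) ⟶ (st _).obj (fset (EF J) (Perm ι) T), ∀ B : SC (Dh Φ p ι),
      ((Rh Φ p ι).map ((λ_ B).inv ≫ τ ▷ B)).hom =
        ∑ t : T, (st (De J p)).map (dinc t B.obj.V) := DP_trf Φ _ _ T

end final

end Vale.Agent.P257.E
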