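import Vale.Agent.P257.Z.Sp
import Vale.Agent.P257.F.Disc

/-!
# P257, block E: finite `G`-sets and free objects

* `fset G M T`: the finite `G`-set `T` as an object `T₊` of `Action M G`; `dinc t B : B ⟶ T₊ ⊗ B`;
  `fdesc`, `fset_ext`, `mHtpy_fset`: equivariant maps and homotopies out of `T₊ ⊗ B`;
* `Free B`: equivariant maps out of `W ⊗ B` which are homotopic are equivariantly homotopic;
  `free_fset`: `T₊ ⊗ B` is free if `T` is a free `G`-set.
-/

open CategoryTheory MonoidalCategory Limits Functor.LaxMonoidal Functor.OplaxMonoidal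
open Topology OnePoint Filter

namespace Vale.Agent.P257.E

open Vale.Agent.P251.H Vale.Agent.P251.H.StabInput
open Vale.Agent.P251.G (LC)
open Vale.Agent.P251.G.LC (RR II HH app smash incl point)
open Vale.Agent.P257.Z (Ds)

universe v u

variable {M : Type u} [Category.{v} M] [MonoidalCategory M] [SymmetricCategory M]
  [MonoidalClosed M] [HasZeroMorphisms M] [HasColimitsOfSize.{0, 0} M] [StabInput M]

section plain

variable {T T' : Type}

/-- a discrete space -/
abbrev dsp (T : Type) : LC := LC.of (Ds T)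

/-- a point of a discrete space -/
def dpt (t : T) : 𝟙_ LC ⟶ dsp T := point (X := dsp T) (Ds.mk t)

/-- the inclusion of the summand `t` -/
def dinc (t : T) (B : M) : B ⟶ (J M).obj (dsp T) ⊗ B :=
  (λ_ B).inv ≫ (ε (J M) ≫ (J M).map (dpt t)) ▷ B

@[reassoc]
theorem dinc_nat (t : T) {B B' : M} (f : B ⟶ B') :
    dinc t B ≫ (J M).obj (dsp T) ◁ f = f ≫ dinc t B' := by
  rw [dinc, dinc, Category.assoc, ← whisker_exchange, leftUnitor_inv_naturality_assoc]

@[reassoc]
theorem dinc_map {t : T} {t' : T'} {f : dsp T ⟶ dsp T'} (h : dpt t ≫ f = dpt t') (B : M) :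
    dinc t B ≫ (J M).map f ▷ B = dinc t' B := by
  rw [dinc, dinc, Category.assoc, ← comp_whiskerRight, Category.assoc, ← Functor.map_comp, h]

@[reassoc]
theorem dinc_map_unit {t : T} {f : dsp T ⟶ 𝟙_ LC} (h : dpt t ≫ f = 𝟙 _) (B : M) :
    dinc t B ≫ ((J M).map f ≫ η (J M)) ▷ B ≫ (λ_ B).hom = 𝟙 B := by
  rw [dinc, Category.assoc, ← comp_whiskerRight_assoc, Category.assoc, ← Functor.map_comp_assoc, h,
    CategoryTheory.Functor.map_id, Category.id_comp, Functor.Monoidal.ε_η, id_whiskerRight,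
    Category.id_comp, Iso.inv_hom_id]

@[reassoc]
theorem dinc_assoc (t : T) (B B' : M) :
    dinc t B ▷ B' ≫ (α_ _ B B').hom = dinc t (B ⊗ B') := by
  rw [dinc, dinc, comp_whiskerRight, Category.assoc, associator_naturality_left]
  simp

@[reassoc]
theorem dinc_assoc_inv (t : T) (B B' : M) :
    dinc t (B ⊗ B') ≫ (α_ _ B B').inv = dinc t B ▷ B' := by
  rw [← dinc_assoc, Category.assoc, Iso.hom_inv_id, Category.comp_id]

theorem dinc_braiding (t : T) (B : M) : dinc t B ≫ (β_ _ _).hom = F.jpt (dpt t) B := by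
  rw [dinc, F.jpt, Category.assoc, BraidedCategory.braiding_naturality_left,
    leftUnitor_inv_braiding_assoc]

variable [Finite T]

theorem dinc_ext {B Z : M} {f g : (J M).obj (dsp T) ⊗ B ⟶ Z}
    (h : ∀ t, dinc t B ≫ f = dinc t B ≫ g) : f = g := by
  rw [← cancel_epi (β_ _ B).inv]
  refine F.dsc_ext (Z := T) fun t => ?_
  have h1 : F.jpt (F.dpt t) B ≫ (β_ ((J M).obj (dsp T)) B).inv = dinc t B :=
    (Iso.comp_inv_eq _).2 (dinc_braiding t B).symm
  exact (Category.assoc _ _ _).symm.trans ((congrArg (· ≫ f) h1).trans ((h t).trans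
    ((congrArg (· ≫ g) h1).symm.trans (Category.assoc _ _ _))))

/-- the map out of `T₊ ⊗ B` given by a family of maps -/
noncomputable def ddesc {B Z : M} (f : T → (B ⟶ Z)) : (J M).obj (dsp T) ⊗ B ⟶ Z :=
  (β_ _ B).hom ≫ F.dscDesc (Z := T) f

@[reassoc (attr := simp)]
theorem dinc_ddesc {B Z : M} (f : T → (B ⟶ Z)) (t : T) : dinc t B ≫ ddesc f = f t := by
  exact (Category.assoc _ _ _).symm.trans
    ((congrArg (· ≫ F.dscDesc (Z := T) f) (dinc_braiding t B)).trans (F.jpt_dscDesc f t))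

theorem mHtpy_dinc {B Z : M} {f g : (J M).obj (dsp T) ⊗ B ⟶ Z}
    (h : ∀ t, MHtpy (dinc t B ≫ f) (dinc t B ≫ g)) : MHtpy f g := by
  choose K h0 h1 using h
  have key : ∀ (s : unitInterval) (t : T), dinc t B ≫ inc s _ ≫ (α_ _ B (I M)).hom ≫ ddesc K =
      inc s B ≫ K t := fun s t => by
    rw [← inc_naturality_assoc, dinc_assoc_assoc, dinc_ddesc]
  exact ⟨(α_ _ B (I M)).hom ≫ ddesc K, dinc_ext fun t => (key 0 t).trans (h0 t),
    dinc_ext fun t => (key 1 t).trans (h1 t)⟩

end plain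

variable {G : Type} [Group G] {T T' : Type} [MulAction G T] [MulAction G T']

variable (G T) in
/-- a `G`-set as a discrete `G`-space -/
abbrev gds : Action LC G := gsp G (Ds T)

variable (G M T) in
/-- a `G`-set as an object of `Action M G` -/
abbrev fset : Action M G := (JA G M).obj (gds G T)

theorem dpt_act (t : T) (g : G) : dpt t ≫ act (gds G T) g = dpt (g • t) :=
  LC.hom_ext fun _ => rfl

@[reassoc]
theorem dinc_act (t : T) (g : G) (B : Action M G) :
    dinc t B.V ≫ act (fset M G T ⊗ B) g = act B g ≫ dinc (g • t) B.V := by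
  rw [act_tensor, tensorHom_def, act_mapA, dinc_map_assoc (dpt_act t g), dinc_nat]

variable [Finite T] [Finite T']

theorem fset_ext {B X : Action M G} {f g : fset M G T ⊗ B ⟶ X}
    (h : ∀ t, dinc t B.V ≫ f.hom = dinc t B.V ≫ g.hom) : f = g :=
  Action.hom_ext _ _ (dinc_ext h)

/-- the equivariant map out of `T₊ ⊗ B` given by a compatible family of maps -/
noncomputable def fdesc {B X : Action M G} (f : T → (B.V ⟶ X.V))
    (hf : ∀ (g : G) t, act B g ≫ f (g • t) = f t ≫ act X g) : fset M G T ⊗ B ⟶ X :=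
  mkHom (ddesc f) fun g => dinc_ext fun t => by
    rw [dinc_act_assoc, dinc_ddesc, dinc_ddesc_assoc, hf]

@[reassoc (attr := simp)]
theorem dinc_fdesc {B X : Action M G} (f : T → (B.V ⟶ X.V))
    (hf : ∀ (g : G) t, act B g ≫ f (g • t) = f t ≫ act X g) (t : T) :
    dinc t B.V ≫ (fdesc f hf).hom = f t := dinc_ddesc f t

omit [Finite T] in
@[reassoc]
theorem act_dinc_hom {B X : Action M G} (f : fset M G T ⊗ B ⟶ X) (g : G) (t : T) :
    act B g ≫ dinc (g • t) B.V ≫ f.hom = dinc t B.V ≫ f.hom ≫ act X g := by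
  rw [← dinc_act_assoc, act_comm]

/-- equivariant homotopies out of `T₊ ⊗ B` -/
theorem mHtpy_fset {B X : Action M G} {f f' : fset M G T ⊗ B ⟶ X} (K : T → (B.V ⊗ I M ⟶ X.V))
    (hK : ∀ (g : G) t, act B g ▷ I M ≫ K (g • t) = K t ≫ act X g)
    (h0 : ∀ t, inc 0 B.V ≫ K t = dinc t B.V ≫ f.hom)
    (h1 : ∀ t, inc 1 B.V ≫ K t = dinc t B.V ≫ f'.hom) : MHtpy f f' := by
  have key : ∀ (s : unitInterval) (t : T),
      dinc t B.V ≫ inc s _ ≫ (α_ _ B.V (I M)).hom ≫ ddesc K = inc s B.V ≫ K t := fun s t => by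
    rw [← inc_naturality_assoc, dinc_assoc_assoc, dinc_ddesc]
  refine (mHtpy_iff _ _).2 ⟨(α_ _ B.V (I M)).hom ≫ ddesc K, fun g => ?_,
    dinc_ext fun t => (key 0 t).trans (h0 t), dinc_ext fun t => (key 1 t).trans (h1 t)⟩
  rw [← cancel_epi (α_ ((J M).obj (dsp T)) B.V (I M)).inv]
  refine dinc_ext fun t => ?_
  have h2 := dinc_act t g B
  rw [dinc_assoc_inv_assoc, dinc_assoc_inv_assoc, ← Category.assoc]
  refine (congrArg (· ≫ (α_ _ B.V (I M)).hom ≫ ddesc K) ((comp_whiskerRight _ _ _).symm.trans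
    (congrArg (· ▷ I M) h2))).trans ?_
  rw [comp_whiskerRight, Category.assoc, dinc_assoc_assoc, dinc_ddesc, Category.assoc,
    dinc_assoc_assoc, dinc_ddesc_assoc, hK]

variable (G T) in
/-- free `G`-sets -/
def FreeSet : Prop := ∀ (g : G) (t : T), g • t = t → g = 1

omit [Finite T] in
theorem FreeSet.exists_section (h : FreeSet G T) : ∃ (r : T → T) (γ : T → G),
    (∀ t, γ t • r t = t) ∧ (∀ (g : G) t, r (g • t) = r t) ∧ ∀ (g : G) t, γ (g • t) = g * γ t := by
  let r : T → T := fun t => (Quotient.mk (MulAction.orbitRel G T) t).out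
  have hr : ∀ t, ∃ g : G, g • r t = t := fun t =>
    (MulAction.orbitRel G T).symm (Quotient.mk_out (s := MulAction.orbitRel G T) t)
  choose γ hγ using hr
  have hrg : ∀ (g : G) t, r (g • t) = r t := fun g t =>
    congrArg Quotient.out (Quotient.sound (s := MulAction.orbitRel G T) ⟨g, rfl⟩)
  refine ⟨r, γ, hγ, hrg, fun g t => ?_⟩
  have h1 : ((g * γ t)⁻¹ * γ (g • t)) • r t = r t := by
    rw [mul_smul, inv_smul_eq_iff, mul_smul, hγ, ← hrg g t, hγ]
  exact (inv_mul_eq_one.1 (h _ _ h1)).symm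

theorem mHtpy_free (h : FreeSet G T) {B X : Action M G} {f f' : fset M G T ⊗ B ⟶ X}
    (hf : ∀ t, MHtpy (dinc t B.V ≫ f.hom) (dinc t B.V ≫ f'.hom)) : MHtpy f f' := by
  obtain ⟨r, γ, hγ, hr, hγ'⟩ := h.exists_section
  choose K h0 h1 using hf
  have key : ∀ (k : fset M G T ⊗ B ⟶ X) (t : T),
      act B (γ t)⁻¹ ≫ (dinc (r t) B.V ≫ k.hom) ≫ act X (γ t) = dinc t B.V ≫ k.hom := fun k t => by
    rw [Category.assoc, ← act_dinc_hom, act_inv_act_assoc, hγ]
  refine mHtpy_fset (fun t => act B (γ t)⁻¹ ▷ I M ≫ K (r t) ≫ act X (γ t)) (fun g t => ?_)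
    (fun t => ?_) (fun t => ?_)
  · rw [hr, hγ', ← comp_whiskerRight_assoc, act_mul, mul_inv_rev, inv_mul_cancel_right,
      ← act_mul, Category.assoc, Category.assoc]
  · rw [inc_naturality_assoc, ← key f t, ← h0, Category.assoc]
  · rw [inc_naturality_assoc, ← key f' t, ← h1, Category.assoc]

/-- Objects on which homotopic equivariant maps are equivariantly homotopic. -/
def Free (B : Action M G) : Prop :=
  ∀ (W X : Action M G) (f f' : W ⊗ B ⟶ X), MHtpy f.hom f'.hom → MHtpy f f'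

theorem mHtpy_of_iso {B B' X : Action M G} (e : B ≅ B')
    (h : ∀ f f' : B' ⟶ X, MHtpy f.hom f'.hom → MHtpy f f') (f f' : B ⟶ X)
    (hf : MHtpy f.hom f'.hom) : MHtpy f f' := by
  have h1 := MHtpy.comp_left e.hom (h (e.inv ≫ f) (e.inv ≫ f') (MHtpy.comp_left e.inv.hom hf))
  rwa [Iso.hom_inv_id_assoc, Iso.hom_inv_id_assoc] at h1

namespace Free

variable {B B' : Action M G}

theorem of_iso (h : Free B') (e : B ≅ B') : Free B := fun W X =>
  mHtpy_of_iso (whiskerLeftIso W e) (h W X)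

theorem tensor_left (h : Free B) (W : Action M G) : Free (W ⊗ B) := fun W' X =>
  mHtpy_of_iso (α_ W' W B).symm (h _ X)

theorem tensor_right (h : Free B) (W : Action M G) : Free (B ⊗ W) :=
  (h.tensor_left W).of_iso (β_ B W)

theorem mHtpy (h : Free B) {X : Action M G} {f f' : B ⟶ X} (hf : MHtpy f.hom f'.hom) :
    MHtpy f f' := mHtpy_of_iso (λ_ B).symm (h _ X) f f' hf

/-- a retract of a free object is free -/
theorem of_retract (h : Free B') (i : B ⟶ B') (r : B' ⟶ B) (e : MHtpy (i ≫ r) (𝟙 B)) :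
    Free B := fun W X f f' hf => by
  have h1 := MHtpy.comp_left (W ◁ i) (h W X (W ◁ r ≫ f) (W ◁ r ≫ f')
    (MHtpy.comp_left (W ◁ r).hom hf))
  have h2 : ∀ k : W ⊗ B ⟶ X, MHtpy (W ◁ i ≫ W ◁ r ≫ k) k := fun k => by
    have := (e.whiskerLeft W).comp_right k
    rwa [MonoidalCategory.whiskerLeft_id, Category.id_comp, MonoidalCategory.whiskerLeft_comp,
      Category.assoc] at this
  exact (h2 f).symm.trans (h1.trans (h2 f'))

end Free

/-- free `G`-sets are free objects -/
theorem free_fset (h : FreeSet G T) : Free (fset M G T) := fun W _ =>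
  mHtpy_of_iso (β_ W (fset M G T)) fun _ _ hf => mHtpy_free h fun _ => MHtpy.comp_left _ hf

/-- the map of discrete `G`-spaces of an equivariant map -/
def gmap (φ : T → T') (hφ : ∀ (g : G) t, φ (g • t) = g • φ t) : gds G T ⟶ gds G T' :=
  gCompact (X := Ds T) (Y := Ds T') φ continuous_of_discreteTopology hφ

theorem dpt_gmap (φ : T → T') (hφ : ∀ (g : G) t, φ (g • t) = g • φ t) (t : T) :
    dpt t ≫ (gmap φ hφ).hom = dpt (φ t) := LC.hom_ext fun _ => rfl

variable (G T) in
/-- the augmentation of a discrete `G`-space -/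
def gaug : gds G T ⟶ 𝟙_ (Action LC G) :=
  mkHom (LC.ofCompact (X := dsp T) (Y := LC.of Unit) (fun _ => ()) continuous_const) fun _ =>
    LC.hom_ext fun _ => rfl

theorem dpt_gaug (t : T) : dpt t ≫ (gaug G T).hom = 𝟙 _ := LC.hom_ext fun _ => rfl

variable (G M T) in
/-- the augmentation `T₊ ⟶ 𝟙` -/
def faug : fset M G T ⟶ 𝟙_ (Action M G) := (JA G M).map (gaug G T) ≫ η (JA G M)

theorem faug_hom : (faug M G T).hom = (J M).map (gaug G T).hom ≫ η (J M) := rfl

variable (T) in
/-- the fold map `T₊ ⊗ B ⟶ B` -/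
def fold (B : Action M G) : fset M G T ⊗ B ⟶ B := faug M G T ▷ B ≫ (λ_ B).hom

@[reassoc (attr := simp)]
theorem dinc_fold (t : T) (B : Action M G) : dinc t B.V ≫ (fold T B).hom = 𝟙 B.V := by
  rw [fold, Action.comp_hom, Action.whiskerRight_hom, Action.leftUnitor_hom_hom, faug_hom]
  exact dinc_map_unit (dpt_gaug t) B.V

@[reassoc]
theorem fold_nat {B B' : Action M G} (f : B ⟶ B') :
    fset M G T ◁ f ≫ fold T B' = fold T B ≫ f := by
  rw [fold, fold, whisker_exchange_assoc, leftUnitor_naturality, Category.assoc]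

@[reassoc]
theorem fold_tensor (B B' : Action M G) :
    (α_ _ B B').hom ≫ fold T (B ⊗ B') = fold T B ▷ B' := by
  rw [fold, fold, comp_whiskerRight, ← associator_naturality_left_assoc]
  simp

variable (G T T') in
/-- the product of two discrete `G`-spaces -/
def gdsProd : gds G T ⊗ gds G T' ≅ gds G (T × T') :=
  gspTensor G (Ds T) (Ds T') ≪≫ gHomeo (X := Ds T × Ds T') (Y := Ds (T × T'))
    { toEquiv := Equiv.refl (T × T')
      continuous_toFun := continuous_of_discreteTopology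
      continuous_invFun := continuous_of_discreteTopology } fun _ _ => rfl

variable (G M T T') in
/-- `T₊ ⊗ T'₊ ≅ (T × T')₊` -/
def fsetProd : fset M G T ⊗ fset M G T' ≅ fset M G (T × T') :=
  Functor.Monoidal.μIso (JA G M) _ _ ≪≫ (JA G M).mapIso (gdsProd G T T')

theorem free_fset_tensor (h : FreeSet G (T × T')) : Free (fset M G T ⊗ fset M G T') :=
  (free_fset h).of_iso (fsetProd M G T T')

theorem freeSet_self : FreeSet G G := fun _ _ h => mul_eq_right.1 h

/-- the equivariant extension of a map to `G₊ ⊗ B` -/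
noncomputable def gdesc [Finite G] {B X : Action M G} (φ : B.V ⟶ X.V) : fset M G G ⊗ B ⟶ X :=
  fdesc (fun g : G => act B g⁻¹ ≫ φ ≫ act X g) fun g t => by
    rw [smul_eq_mul, mul_inv_rev, act_mul_assoc, inv_mul_cancel_right, ← act_mul, Category.assoc,
      Category.assoc]

@[reassoc (attr := simp)]
theorem dinc_one_gdesc [Finite G] {B X : Action M G} (φ : B.V ⟶ X.V) :
    dinc (1 : G) B.V ≫ (gdesc φ).hom = φ := by
  rw [gdesc, dinc_fdesc, inv_one, act_one, act_one, Category.id_comp, Category.comp_id]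

theorem gset_ext [Finite G] {B X : Action M G} {f f' : fset M G G ⊗ B ⟶ X}
    (h : dinc (1 : G) B.V ≫ f.hom = dinc (1 : G) B.V ≫ f'.hom) : f = f' :=
  fset_ext fun g => by
    have h1 := act_dinc_hom f g (1 : G)
    have h2 := act_dinc_hom f' g (1 : G)
    rw [smul_eq_mul, mul_one] at h1 h2
    rw [← cancel_epi (act B g), h1, h2, reassoc_of% h]

theorem mHtpy_gset [Finite G] {B X : Action M G} {f f' : fset M G G ⊗ B ⟶ X}
    (h : MHtpy (dinc (1 : G) B.V ≫ f.hom) (dinc (1 : G) B.V ≫ f'.hom)) : MHtpy f f' :=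
  mHtpy_free freeSet_self fun g => by
    have h1 := act_dinc_hom f g (1 : G)
    have h2 := act_dinc_hom f' g (1 : G)
    rw [smul_eq_mul, mul_one] at h1 h2
    have h3 := MHtpy.comp_left (act B g⁻¹) (h.comp_right (act X g))
    rwa [Category.assoc, Category.assoc, ← h1, ← h2, act_inv_act_assoc, act_inv_act_assoc] at h3

end Vale.Agent.P257.E
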