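import Vale.Agent.P257.E.Stab
import Vale.Agent.P251.G.Cofib
import Vale.Agent.P251.G.Pushout
import Vale.Agent.P251.H.HCofJ

/-!
# P257, block E: `G`-spaces

* `mapA F G : Action M G ⥤ Action N G` for `F : M ⥤ N`, (lax) monoidal and braided if `F` is;
* `JA M G : Action LC G ⥤ Action M G`, the `G`-spaces in `Action M G`;
* `gsp G X`: the object of `Action LC G` of a space with a continuous action, and the
  constructors `gProper`, `gClosed`, `gOpen`, `gHomeo` of equivariant maps;
* `isPushout_JA`, `mHtpy_JA`, `hCof_JA`.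
-/

open CategoryTheory MonoidalCategory Limits Functor.LaxMonoidal Functor.OplaxMonoidal
open Topology OnePoint Filter

namespace Vale.Agent.P257.E

open Vale.Agent.P251.H Vale.Agent.P251.H.StabInput
open Vale.Agent.P251.G (LC)
open Vale.Agent.P251.G.LC (RR II HH app smash incl IsRetr)

universe v u v' u'

variable {G H : Type} [Group G] [Group H]

section mapA

variable {M : Type u} [Category.{v} M] {N : Type u'} [Category.{v'} N]

/-- a functor applied to objects with an action -/
@[reducible] def mapA (F : M ⥤ N) (G : Type) [Group G] : Action M G ⥤ Action N G where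
  obj X := mkAct (F.obj X.V) (fun g => F.map (act X g)) (by rw [act_one, F.map_id])
    (fun g h => by rw [← act_mul, F.map_comp])
  map f := mkHom (F.map f.hom) fun g => by
    show F.map (act _ g) ≫ F.map f.hom = F.map f.hom ≫ F.map (act _ g)
    rw [← F.map_comp, act_comm, F.map_comp]
  map_id X := Action.hom_ext _ _ (F.map_id _)
  map_comp f g := Action.hom_ext _ _ (F.map_comp _ _)

variable (F : M ⥤ N)

theorem act_mapA (X : Action M G) (g : G) : act ((mapA F G).obj X) g = F.map (act X g) := rfl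

theorem mapA_map_hom {X Y : Action M G} (f : X ⟶ Y) : ((mapA F G).map f).hom = F.map f.hom := rfl

instance [F.Faithful] : (mapA F G).Faithful :=
  ⟨fun h => Action.hom_ext _ _ (F.map_injective (congrArg Action.Hom.hom h))⟩

instance [F.Full] [F.Faithful] : (mapA F G).Full :=
  ⟨fun {X Y} f => ⟨mkHom (F.preimage f.hom) fun g => F.map_injective (by
      rw [F.map_comp, F.map_comp, F.map_preimage]
      exact act_comm f g), Action.hom_ext _ _ (F.map_preimage _)⟩⟩

variable (G) in
/-- `mapA` commutes with `triv` -/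
def mapATriv (X : M) : (mapA F G).obj ((triv G).obj X) ≅ (triv G).obj (F.obj X) :=
  Action.mkIso (Iso.refl _) fun _ => by
    show F.map (𝟙 X) ≫ 𝟙 _ = 𝟙 _ ≫ 𝟙 _
    rw [F.map_id]

@[simp] theorem mapATriv_hom_hom (X : M) : (mapATriv G F X).hom.hom = 𝟙 (F.obj X) := rfl

@[simp] theorem mapATriv_inv_hom (X : M) : (mapATriv G F X).inv.hom = 𝟙 (F.obj X) := rfl

/-- `mapA` commutes with `res` -/
def mapARes (φ : H →* G) (X : Action M G) :
    (mapA F H).obj ((res φ).obj X) ≅ (res φ).obj ((mapA F G).obj X) :=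
  Action.mkIso (Iso.refl _) fun _ => (Category.comp_id _).trans (Category.id_comp _).symm

@[simp] theorem mapARes_hom_hom (φ : H →* G) (X : Action M G) :
    (mapARes F φ X).hom.hom = 𝟙 (F.obj X.V) := rfl

@[simp] theorem mapARes_inv_hom (φ : H →* G) (X : Action M G) :
    (mapARes F φ X).inv.hom = 𝟙 (F.obj X.V) := rfl

variable [MonoidalCategory M] [MonoidalCategory N]

instance [F.LaxMonoidal] : (mapA F G).LaxMonoidal where
  ε := mkHom (ε F) fun g => by
    show 𝟙 _ ≫ ε F = ε F ≫ F.map (𝟙 _)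
    rw [F.map_id, Category.id_comp, Category.comp_id]
  μ X Y := mkHom (μ F X.V Y.V) fun g => μ_natural F (act X g) (act Y g)
  μ_natural_left _ _ := Action.hom_ext _ _ (by simp [mkHom])
  μ_natural_right _ _ := Action.hom_ext _ _ (by simp [mkHom])
  associativity _ _ _ := Action.hom_ext _ _ (by simp [mkHom])
  left_unitality _ := Action.hom_ext _ _ (by simp [mkHom])
  right_unitality _ := Action.hom_ext _ _ (by simp [mkHom])

@[simp] theorem mapA_ε_hom [F.LaxMonoidal] : (ε (mapA F G)).hom = ε F := rfl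

@[simp] theorem mapA_μ_hom [F.LaxMonoidal] (X Y : Action M G) :
    (μ (mapA F G) X Y).hom = μ F X.V Y.V := rfl

instance [F.OplaxMonoidal] : (mapA F G).OplaxMonoidal where
  η := mkHom (η F) fun g => by
    show F.map (𝟙 _) ≫ η F = η F ≫ 𝟙 _
    rw [F.map_id, Category.id_comp, Category.comp_id]
  δ X Y := mkHom (δ F X.V Y.V) fun g => (δ_natural F (act X g) (act Y g)).symm
  δ_natural_left _ _ := Action.hom_ext _ _ (by simp [mkHom])
  δ_natural_right _ _ := Action.hom_ext _ _ (by simp [mkHom])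
  oplax_associativity _ _ _ := Action.hom_ext _ _ (by simp [mkHom])
  oplax_left_unitality _ := Action.hom_ext _ _ (by simp [mkHom])
  oplax_right_unitality _ := Action.hom_ext _ _ (by simp [mkHom])

@[simp] theorem mapA_η_hom [F.OplaxMonoidal] : (η (mapA F G)).hom = η F := rfl

@[simp] theorem mapA_δ_hom [F.OplaxMonoidal] (X Y : Action M G) :
    (δ (mapA F G) X Y).hom = δ F X.V Y.V := rfl

instance [F.Monoidal] : (mapA F G).Monoidal where
  η_ε := Action.hom_ext _ _ (Functor.Monoidal.η_ε F)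
  ε_η := Action.hom_ext _ _ (Functor.Monoidal.ε_η F)
  μ_δ X Y := Action.hom_ext _ _ (Functor.Monoidal.μ_δ F X.V Y.V)
  δ_μ X Y := Action.hom_ext _ _ (Functor.Monoidal.δ_μ F X.V Y.V)

instance [BraidedCategory M] [BraidedCategory N] [F.LaxBraided] : (mapA F G).LaxBraided where
  braided X Y := Action.hom_ext _ _ (Functor.LaxBraided.braided (F := F) X.V Y.V)

instance [BraidedCategory M] [BraidedCategory N] [F.Braided] : (mapA F G).Braided where
  braided X Y := Action.hom_ext _ _ (Functor.LaxBraided.braided (F := F) X.V Y.V)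

end mapA

section gsp

variable (G) in
/-- a space with a continuous action as an object of `Action LC G` -/
@[reducible] def gsp (X : Type) [TopologicalSpace X] [LocallyCompactSpace X] [T2Space X]
    [MulAction G X] [ContinuousConstSMul G X] : Action LC G :=
  mkAct (LC.of X) (fun g => LC.ofClosed (X := LC.of X) (Y := LC.of X) (fun x : X => g • x)
      (Homeomorph.smul g).isClosedEmbedding)
    (LC.hom_ext fun x => congrArg OnePoint.some (one_smul G x))
    (fun g h => LC.hom_ext fun x => congrArg OnePoint.some (mul_smul g h x))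

variable {X Y Z : Type} [TopologicalSpace X] [LocallyCompactSpace X] [T2Space X]
  [MulAction G X] [ContinuousConstSMul G X] [TopologicalSpace Y] [LocallyCompactSpace Y]
  [T2Space Y] [MulAction G Y] [ContinuousConstSMul G Y]

@[simp] theorem app_act_gsp (g : G) (x : X) :
    app (act (gsp G X) g) (x : OnePoint X) = ((g • x : X) : OnePoint X) := rfl

theorem gsp_hom_ext {W : Action LC G} {f f' : gsp G X ⟶ W}
    (h : ∀ x : X, app f.hom (x : OnePoint X) = app f'.hom (x : OnePoint X)) : f = f' :=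
  Action.hom_ext _ _ (LC.hom_ext h)

/-- an equivariant proper map -/
def gProper (f : X → Y) (hf : Continuous f) (h : Tendsto f (cocompact X) (cocompact Y))
    (he : ∀ (g : G) (x : X), f (g • x) = g • f x) : gsp G X ⟶ gsp G Y :=
  mkHom (LC.ofProper (X := LC.of X) (Y := LC.of Y) f hf h) fun g =>
    LC.hom_ext fun x => congrArg OnePoint.some (he g x)

theorem gProper_hom (f : X → Y) (hf : Continuous f) (h : Tendsto f (cocompact X) (cocompact Y))
    (he : ∀ (g : G) (x : X), f (g • x) = g • f x) :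
    (gProper f hf h he).hom = LC.ofProper (X := LC.of X) (Y := LC.of Y) f hf h := rfl

@[simp] theorem app_gProper (f : X → Y) (hf : Continuous f)
    (h : Tendsto f (cocompact X) (cocompact Y))
    (he : ∀ (g : G) (x : X), f (g • x) = g • f x) (x : X) :
    app (gProper f hf h he).hom (x : OnePoint X) = (f x : OnePoint Y) := rfl

/-- an equivariant closed embedding -/
def gClosed (f : X → Y) (hf : IsClosedEmbedding f)
    (he : ∀ (g : G) (x : X), f (g • x) = g • f x) : gsp G X ⟶ gsp G Y :=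
  mkHom (LC.ofClosed (X := LC.of X) (Y := LC.of Y) f hf) fun g =>
    LC.hom_ext fun x => congrArg OnePoint.some (he g x)

theorem gClosed_hom (f : X → Y) (hf : IsClosedEmbedding f)
    (he : ∀ (g : G) (x : X), f (g • x) = g • f x) :
    (gClosed f hf he).hom = LC.ofClosed (X := LC.of X) (Y := LC.of Y) f hf := rfl

@[simp] theorem app_gClosed (f : X → Y) (hf : IsClosedEmbedding f)
    (he : ∀ (g : G) (x : X), f (g • x) = g • f x) (x : X) :
    app (gClosed f hf he).hom (x : OnePoint X) = (f x : OnePoint Y) := rfl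

/-- an equivariant map out of a compact space -/
def gCompact [CompactSpace X] (f : X → Y) (hf : Continuous f)
    (he : ∀ (g : G) (x : X), f (g • x) = g • f x) : gsp G X ⟶ gsp G Y :=
  mkHom (LC.ofCompact (X := LC.of X) (Y := LC.of Y) f hf) fun g =>
    LC.hom_ext fun x => congrArg OnePoint.some (he g x)

theorem gCompact_hom [CompactSpace X] (f : X → Y) (hf : Continuous f)
    (he : ∀ (g : G) (x : X), f (g • x) = g • f x) :
    (gCompact f hf he).hom = LC.ofCompact (X := LC.of X) (Y := LC.of Y) f hf := rfl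

@[simp] theorem app_gCompact [CompactSpace X] (f : X → Y) (hf : Continuous f)
    (he : ∀ (g : G) (x : X), f (g • x) = g • f x) (x : X) :
    app (gCompact f hf he).hom (x : OnePoint X) = (f x : OnePoint Y) := rfl

/-- the collapse of an equivariant open embedding -/
noncomputable def gOpen (j : Y → X) (hj : IsOpenEmbedding j)
    (he : ∀ (g : G) (y : Y), j (g • y) = g • j y) : gsp G X ⟶ gsp G Y :=
  mkHom (LC.ofOpen (X := LC.of X) (Y := LC.of Y) j hj) fun g => LC.hom_ext fun x => by
    rw [LC.app_comp, LC.app_comp]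
    by_cases hx : x ∈ Set.range j
    · obtain ⟨y, rfl⟩ := hx
      rw [app_act_gsp, ← he, LC.app_ofOpen_coe (X := LC.of X) (Y := LC.of Y),
        LC.app_ofOpen_coe (X := LC.of X) (Y := LC.of Y), app_act_gsp]
    · rw [app_act_gsp, LC.app_ofOpen_of_notMem (X := LC.of X) (Y := LC.of Y) j hj hx,
        LC.app_infty]
      refine LC.app_ofOpen_of_notMem (X := LC.of X) (Y := LC.of Y) j hj ?_
      rintro ⟨y, hy⟩
      exact hx ⟨g⁻¹ • y, by rw [he, hy, inv_smul_smul]⟩

theorem gOpen_hom (j : Y → X) (hj : IsOpenEmbedding j)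
    (he : ∀ (g : G) (y : Y), j (g • y) = g • j y) :
    (gOpen j hj he).hom = LC.ofOpen (X := LC.of X) (Y := LC.of Y) j hj := rfl

@[simp] theorem app_gOpen (j : Y → X) (hj : IsOpenEmbedding j)
    (he : ∀ (g : G) (y : Y), j (g • y) = g • j y) (y : Y) :
    app (gOpen j hj he).hom (j y : OnePoint X) = (y : OnePoint Y) :=
  LC.app_ofOpen_coe (X := LC.of X) (Y := LC.of Y) j hj y

theorem app_gOpen_of_notMem (j : Y → X) (hj : IsOpenEmbedding j)
    (he : ∀ (g : G) (y : Y), j (g • y) = g • j y) {x : X} (hx : x ∉ Set.range j) :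
    app (gOpen j hj he).hom (x : OnePoint X) = ∞ :=
  LC.app_ofOpen_of_notMem (X := LC.of X) (Y := LC.of Y) j hj hx

/-- an equivariant homeomorphism -/
def gHomeo (e : X ≃ₜ Y) (he : ∀ (g : G) (x : X), e (g • x) = g • e x) : gsp G X ≅ gsp G Y :=
  Action.mkIso (LC.ofHomeo (X := LC.of X) (Y := LC.of Y) e) fun g =>
    LC.hom_ext fun x => congrArg OnePoint.some (he g x)

@[simp] theorem app_gHomeo_hom (e : X ≃ₜ Y) (he : ∀ (g : G) (x : X), e (g • x) = g • e x)
    (x : X) : app (gHomeo e he).hom.hom (x : OnePoint X) = (e x : OnePoint Y) := rfl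

@[simp] theorem app_gHomeo_inv (e : X ≃ₜ Y) (he : ∀ (g : G) (x : X), e (g • x) = g • e x)
    (y : Y) : app (gHomeo e he).inv.hom (y : OnePoint Y) = (e.symm y : OnePoint X) := rfl

variable (G X Y) in
/-- the product of two `G`-spaces -/
def gspTensor : gsp G X ⊗ gsp G Y ≅ gsp G (X × Y) :=
  Action.mkIso (Iso.refl (LC.of (X × Y))) fun _ => LC.hom_ext fun _ => rfl

@[simp] theorem gspTensor_hom_hom : (gspTensor G X Y).hom.hom = 𝟙 (LC.of (X × Y)) := rfl

@[simp] theorem gspTensor_inv_hom : (gspTensor G X Y).inv.hom = 𝟙 (LC.of (X × Y)) := rfl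

end gsp

/-- the mapping cylinder of an injective map embeds in the cylinder -/
theorem injective_cyl {A B P : LC} {i : A ⟶ B} (hi : Function.Injective (app i))
    {g : A ⊗ II ⟶ P} {k : B ⟶ P} (h : IsPushout (incl 0 A) i g k) {m : P ⟶ B ⊗ II}
    (hg : g ≫ m = i ▷ II) (hk : k ≫ m = incl 0 B) : Function.Injective (app m) := by
  obtain ⟨-, hb⟩ := LC.bij_of_isPushout (injective_app_incl 0 A) h
  have key : ∀ x : OnePoint P, (∃ b, x = app k b) ∨ ∃ (a : OnePoint A) (t : unitInterval),
      a ≠ ∞ ∧ t ≠ 0 ∧ x = app g (smash a (t : OnePoint unitInterval)) := by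
    intro x
    by_cases hx : x ∈ Set.range (app k)
    · obtain ⟨b, rfl⟩ := hx
      exact Or.inl ⟨b, rfl⟩
    · obtain ⟨p, hp, rfl⟩ := hb.surjOn hx
      obtain ⟨a, t, rfl⟩ := LC.smash_coe_surjective (X := A) (Y := unitInterval) p
      refine Or.inr ⟨a, t, ?_, ?_, rfl⟩
      · rintro rfl
        exact hp ⟨∞, LC.app_infty _⟩
      · rintro rfl
        exact hp ⟨a, LC.app_incl 0 A a⟩
  have hmg : ∀ (a : OnePoint A) (t : unitInterval),
      app m (app g (smash a (t : OnePoint unitInterval))) =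
        smash (app i a) (t : OnePoint unitInterval) := fun a t => by
    rw [← LC.app_comp, hg]
    exact LC.app_whiskerRight_cyl i a t
  have hmk : ∀ b : OnePoint B, app m (app k b) =
      smash b ((0 : unitInterval) : OnePoint unitInterval) := fun b => by
    rw [← LC.app_comp, hk, LC.app_incl]
  intro x y hxy
  rcases key x with ⟨b, rfl⟩ | ⟨a, t, ha, ht, rfl⟩ <;>
    rcases key y with ⟨b', rfl⟩ | ⟨a', t', ha', ht', rfl⟩
  · rw [hmk, hmk] at hxy
    rw [(LC.smash_coe_eq_iff.mp hxy).1]
  · rw [hmk, hmg] at hxy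
    obtain ⟨h1, h2 | h2⟩ := LC.smash_coe_eq_iff.mp hxy
    · exact absurd (LC.eq_infty_of_app_eq_infty hi (h1.symm.trans h2)) ha'
    · exact absurd h2.symm ht'
  · rw [hmk, hmg] at hxy
    obtain ⟨-, h2 | h2⟩ := LC.smash_coe_eq_iff.mp hxy
    · exact absurd (LC.eq_infty_of_app_eq_infty hi h2) ha
    · exact absurd h2 ht
  · rw [hmg, hmg] at hxy
    obtain ⟨h1, h2 | h2⟩ := LC.smash_coe_eq_iff.mp hxy
    · exact absurd (LC.eq_infty_of_app_eq_infty hi h2) ha
    · rw [hi h1, h2]

section JA

variable (M : Type u) [Category.{v} M] [MonoidalCategory M] [SymmetricCategory M]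
  [MonoidalClosed M] [HasZeroMorphisms M] [HasColimitsOfSize.{0, 0} M] [StabInput M]

variable (G) in
/-- the `G`-spaces in `Action M G` -/
abbrev JA : Action LC G ⥤ Action M G := mapA (J M) G

variable (G) in
/-- spaces with the trivial action -/
def JATriv (K : LC) : (JA G M).obj ((triv G).obj K) ≅ (J (Action M G)).obj K :=
  mapATriv G (J M) K

@[simp] theorem JATriv_hom_hom (K : LC) : (JATriv G M K).hom.hom = 𝟙 ((J M).obj K) := rfl

@[simp] theorem JATriv_inv_hom (K : LC) : (JATriv G M K).inv.hom = 𝟙 ((J M).obj K) := rfl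

variable {M}

theorem JA_map_zero (X Y : Action LC G) : (JA G M).map (0 : X ⟶ Y) = 0 :=
  Action.hom_ext _ _ (J_map_zero X.V Y.V)

theorem isZero_JA {X : Action LC G} (h : IsZero X.V) : IsZero ((JA G M).obj X) := by
  refine isZero_of_V ?_
  rw [IsZero.iff_id_eq_zero] at h ⊢
  rw [← (J M).map_id, h, J_map_zero]

/-- `JA` preserves pushouts along injective maps -/
theorem isPushout_JA {A B C D : Action LC G} {i : A ⟶ B} {f : A ⟶ C} {g : B ⟶ D} {k : C ⟶ D}
    (hi : Function.Injective (app i.hom)) (h : IsPushout i.hom f.hom g.hom k.hom) :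
    IsPushout ((JA G M).map i) ((JA G M).map f) ((JA G M).map g) ((JA G M).map k) :=
  isPushout_of_hom (StabInput.pushout _ _ _ _ hi h)

/-- an equivariant homotopy of maps of `G`-spaces -/
theorem mHtpy_JA {X Y : Action LC G} {f f' : X ⟶ Y} (K : X.V ⊗ II ⟶ Y.V)
    (hK : ∀ g, act X g ▷ II ≫ K = K ≫ act Y g) (h0 : incl 0 X.V ≫ K = f.hom)
    (h1 : incl 1 X.V ≫ K = f'.hom) : MHtpy ((JA G M).map f) ((JA G M).map f') := by
  refine (mHtpy_iff _ _).2 ⟨μ (J M) X.V II ≫ (J M).map K, fun g => ?_, ?_, ?_⟩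
  · rw [act_mapA, act_mapA, μ_natural_left_assoc, ← Functor.map_comp, hK, Functor.map_comp,
      Category.assoc]
  · rw [inc_μ_assoc, ← Functor.map_comp, h0, mapA_map_hom]
  · rw [inc_μ_assoc, ← Functor.map_comp, h1, mapA_map_hom]

/-- the homotopy extension property in `Action M G`, in terms of the underlying objects -/
theorem hCof_of {A B : Action M G} {i : A ⟶ B}
    (h : ∀ (Z : Action M G) (f : B ⟶ Z) (K : A.V ⊗ I M ⟶ Z.V),
      (∀ g, act A g ▷ I M ≫ K = K ≫ act Z g) → inc 0 A.V ≫ K = i.hom ≫ f.hom →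
      ∃ K' : B.V ⊗ I M ⟶ Z.V, (∀ g, act B g ▷ I M ≫ K' = K' ≫ act Z g) ∧
        inc 0 B.V ≫ K' = f.hom ∧ i.hom ▷ I M ≫ K' = K) : HCof i := by
  intro Z f K hK
  obtain ⟨K', hK', h0, h1⟩ := h Z f K.hom (fun g => by
      rw [← tensorHom_id]
      exact K.comm g) (by
      rw [← inc_hom]
      exact congrArg Action.Hom.hom hK)
  refine ⟨mkHom (X := B ⊗ I (Action M G)) K' fun g => ?_, Action.hom_ext _ _ ?_,
    Action.hom_ext _ _ ?_⟩
  · rw [← hK' g, ← tensorHom_id]
    rfl
  · rw [← h0, ← inc_hom]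
    rfl
  · rw [← h1, Action.comp_hom, Action.whiskerRight_hom]
    rfl

/-- An injective map of `G`-spaces with an equivariant retraction of the cylinder onto the mapping
cylinder is an h-cofibration in `Action M G`. -/
theorem hCof_JA {A B : Action LC G} {i : A ⟶ B} (hi : Function.Injective (app i.hom))
    {r : B.V ⊗ II ⟶ B.V ⊗ II} (hr : IsRetr (Set.range (app i.hom)) r)
    (he : ∀ g, act B g ▷ II ≫ r = r ≫ act B g ▷ II) : HCof ((JA G M).map i) := by
  obtain ⟨P, p, k, hP, -, -⟩ := LC.exists_pushout (incl 0 A.V) i.hom (injective_app_incl 0 A.V)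
  let m : P ⟶ B.V ⊗ II := hP.desc (i.hom ▷ II) (incl 0 B.V) (LC.incl_naturality 0 i.hom)
  have hpm : p ≫ m = i.hom ▷ II := hP.inl_desc _ _ _
  have hkm : k ≫ m = incl 0 B.V := hP.inr_desc _ _ _
  have hm : Function.Injective (app m) := injective_cyl hi hP hpm hkm
  have := LC.mono_of_injective hm
  have hrm : ∀ x, app r x ∈ Set.range (app m) := by
    intro x
    obtain ⟨b, t, hx, rfl | ⟨a, rfl⟩⟩ := hr.range x
    · exact ⟨app k b, by rw [hx, ← LC.app_comp, hkm, LC.app_incl]⟩
    · refine ⟨app p (smash a (t : OnePoint unitInterval)), ?_⟩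
      rw [hx, ← LC.app_comp, hpm]
      exact LC.app_whiskerRight_cyl i.hom a t
  let s : B.V ⊗ II ⟶ P := LC.factor m hm r hrm
  have hsm : s ≫ m = r := LC.factor_comp m hm r hrm
  have hs0 : incl 0 B.V ≫ s = k := by
    rw [← cancel_mono m, Category.assoc, hsm, hkm]
    refine LC.hom_ext' fun b => ?_
    rw [LC.app_comp, LC.app_incl, hr.zero]
  have hs1 : i.hom ▷ II ≫ s = p := by
    rw [← cancel_mono m, Category.assoc, hsm, hpm]
    refine LC.cyl_ext fun a t => ?_
    rw [LC.app_comp, LC.app_whiskerRight_cyl, hr.mem _ ⟨a, rfl⟩]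
  let c : G → (P ⟶ P) := fun g => hP.desc (act A g ▷ II ≫ p) (act B g ≫ k) (by
    rw [LC.incl_naturality_assoc, hP.w, act_comm_assoc])
  have hpc : ∀ g, p ≫ c g = act A g ▷ II ≫ p := fun g => hP.inl_desc _ _ _
  have hkc : ∀ g, k ≫ c g = act B g ≫ k := fun g => hP.inr_desc _ _ _
  have hcm : ∀ g, c g ≫ m = m ≫ act B g ▷ II := fun g => by
    apply hP.hom_ext
    · rw [reassoc_of% hpc g, hpm, reassoc_of% hpm, ← comp_whiskerRight, ← comp_whiskerRight,
        act_comm]
    · rw [reassoc_of% hkc g, hkm, reassoc_of% hkm, LC.incl_naturality]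
  have hsc : ∀ g, act B g ▷ II ≫ s = s ≫ c g := fun g => by
    rw [← cancel_mono m, Category.assoc, Category.assoc, hsm, hcm, reassoc_of% hsm, he]
  have hPM := StabInput.pushout (M := M) (incl 0 A.V) i.hom p k (injective_app_incl 0 A.V) hP
  refine hCof_of fun Z f K hK h0 => ?_
  have hc : (J M).map (incl 0 A.V) ≫ δ (J M) A.V II ≫ K = (J M).map i.hom ≫ f.hom := by
    rw [map_incl_δ_assoc]
    exact h0
  have hd : ∀ g, (J M).map (c g) ≫ hPM.desc (δ (J M) A.V II ≫ K) f.hom hc =
      hPM.desc (δ (J M) A.V II ≫ K) f.hom hc ≫ act Z g := fun g => by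
    apply hPM.hom_ext
    · rw [← Functor.map_comp_assoc, hpc, Functor.map_comp_assoc, hPM.inl_desc,
        hPM.inl_desc_assoc, Category.assoc, ← hK g, ← δ_natural_left_assoc, act_mapA]
    · rw [← Functor.map_comp_assoc, hkc, Functor.map_comp_assoc, hPM.inr_desc,
        hPM.inr_desc_assoc]
      exact act_comm f g
  refine ⟨μ (J M) B.V II ≫ (J M).map s ≫ hPM.desc (δ (J M) A.V II ≫ K) f.hom hc, fun g => ?_,
    ?_, ?_⟩
  · rw [act_mapA, μ_natural_left_assoc, ← Functor.map_comp_assoc, hsc, Functor.map_comp_assoc,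
      hd, Category.assoc, Category.assoc]
  · rw [inc_μ_assoc, ← Functor.map_comp_assoc, hs0, hPM.inr_desc]
  · rw [mapA_map_hom, μ_natural_left_assoc, ← Functor.map_comp_assoc, hs1, hPM.inl_desc,
      Functor.Monoidal.μ_δ_assoc]

end JA

end Vale.Agent.P257.E
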