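import Vale.Agent.P257.E.Free
import Vale.Agent.P251.H.PiMon

/-!
# P257, block E: abstract stabilizations

* `tt lam A : U ⊗ A ⟶ A`, `Tk lam A t`: `t` is an iterate of `tt lam`;
* `Inv lam Φ`: `Φ` is homotopy invariant and inverts `tt lam`; `IsLoc lam F`: `F` is the
  stabilization; `IsLoc.lft`: the universal property on morphisms;
* `IsLoc.inj_free`: restriction to the trivial group is injective on maps out of free objects;
  `IsLoc.bijective_ev`: stable equivariant maps `G₊ ⊗ Y ⟶ X` are stable maps `Y ⟶ X`;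
  `IsLoc.inj_of_epi`.
-/

open CategoryTheory MonoidalCategory Limits Functor.LaxMonoidal Functor.OplaxMonoidal

namespace Vale.Agent.P257.E

open Vale.Agent.P251.H Vale.Agent.P251.H.StabInput

universe v u v' u' v'' u''

section tk

variable {N : Type u} [Category.{v} N] [MonoidalCategory N] {U : N} {lam : U ⟶ 𝟙_ N}

/-- the structure map `U ⊗ A ⟶ A` -/
def tt (lam : U ⟶ 𝟙_ N) (A : N) : U ⊗ A ⟶ A := lam ▷ A ≫ (λ_ A).hom

@[reassoc]
theorem tt_nat {A B : N} (f : A ⟶ B) : U ◁ f ≫ tt lam B = tt lam A ≫ f := by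
  rw [tt, tt, whisker_exchange_assoc, leftUnitor_naturality, Category.assoc]

@[reassoc]
theorem tt_assoc (A B : N) : (α_ U A B).hom ≫ tt lam (A ⊗ B) = tt lam A ▷ B := by
  simp [tt]

theorem tt_unit : (ρ_ U).inv ≫ tt lam (𝟙_ N) = lam := by
  simp [tt, unitors_equal]

@[reassoc]
theorem tt_comp {U' : N} (g : U' ⟶ U) (A : N) : g ▷ A ≫ tt lam A = tt (g ≫ lam) A := by
  rw [tt, tt, comp_whiskerRight, Category.assoc]

/-- iterates of the structure maps -/
inductive Tk (lam : U ⟶ 𝟙_ N) (A : N) : ∀ {A' : N}, (A' ⟶ A) → Prop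
  | id : Tk lam A (𝟙 A)
  | succ {A' : N} {t : A' ⟶ A} : Tk lam A t → Tk lam A (tt lam A' ≫ t)

namespace Tk

variable {A A' A'' B : N}

theorem comp {t : A' ⟶ A} {s : A'' ⟶ A'} (ht : Tk lam A t) (hs : Tk lam A' s) :
    Tk lam A (s ≫ t) := by
  induction hs with
  | id => rwa [Category.id_comp]
  | succ _ ih => rw [Category.assoc]; exact ih.succ

theorem ore {t : A' ⟶ A} (ht : Tk lam A t) (f : B ⟶ A) :
    ∃ (B' : N) (s : B' ⟶ B) (f' : B' ⟶ A'), Tk lam B s ∧ f' ≫ t = s ≫ f := by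
  induction ht with
  | id => exact ⟨B, 𝟙 B, f, id, by simp⟩
  | succ _ ih =>
    obtain ⟨B', s, f', hs, e⟩ := ih
    exact ⟨_, _, U ◁ f', hs.succ, by rw [tt_nat_assoc, e, Category.assoc]⟩

theorem right {t : A' ⟶ A} (ht : Tk lam A t) (Z : N) :
    ∃ (B : N) (s : B ⟶ A ⊗ Z) (e : A' ⊗ Z ≅ B), Tk lam (A ⊗ Z) s ∧ e.hom ≫ s = t ▷ Z := by
  induction ht with
  | id => exact ⟨_, _, Iso.refl _, id, by simp⟩
  | succ _ ih =>
    obtain ⟨B, s, e, hs, h⟩ := ih
    refine ⟨_, _, α_ _ _ _ ≪≫ whiskerLeftIso U e, hs.succ, ?_⟩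
    rw [Iso.trans_hom, whiskerLeftIso_hom, Category.assoc, tt_nat_assoc, tt_assoc_assoc, h,
      comp_whiskerRight]

variable [SymmetricCategory N]

/-- exchange of two factors -/
def sw (Z U A : N) : Z ⊗ U ⊗ A ≅ U ⊗ Z ⊗ A :=
  (α_ Z U A).symm ≪≫ whiskerRightIso (β_ Z U) A ≪≫ α_ U Z A

@[reassoc]
theorem sw_tt (Z A : N) : (sw Z U A).hom ≫ tt lam (Z ⊗ A) = Z ◁ tt lam A := by
  rw [tt, ← StabObj.left_t lam Z A, sw, tt]
  simp only [Iso.trans_hom, Iso.symm_hom, whiskerRightIso_hom, Category.assoc,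
    Iso.hom_inv_id_assoc]
  rw [← comp_whiskerRight_assoc, SymmetricCategory.symmetry, id_whiskerRight, Category.id_comp,
    Iso.inv_hom_id_assoc]

theorem left {t : A' ⟶ A} (ht : Tk lam A t) (Z : N) :
    ∃ (B : N) (s : B ⟶ Z ⊗ A) (e : Z ⊗ A' ≅ B), Tk lam (Z ⊗ A) s ∧ e.hom ≫ s = Z ◁ t := by
  induction ht with
  | id => exact ⟨_, _, Iso.refl _, id, by simp⟩
  | succ _ ih =>
    obtain ⟨B, s, e, hs, h⟩ := ih
    refine ⟨_, _, sw _ _ _ ≪≫ whiskerLeftIso U e, hs.succ, ?_⟩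
    rw [Iso.trans_hom, whiskerLeftIso_hom, Category.assoc, tt_nat_assoc, sw_tt_assoc, h,
      MonoidalCategory.whiskerLeft_comp]

theorem of_left {Z : N} {s : B ⟶ Z ⊗ A} (hs : Tk lam (Z ⊗ A) s) :
    ∃ (A' : N) (t : A' ⟶ A) (e : Z ⊗ A' ≅ B), Tk lam A t ∧ e.hom ≫ s = Z ◁ t := by
  induction hs with
  | id => exact ⟨_, _, Iso.refl _, id, by simp⟩
  | succ _ ih =>
    obtain ⟨A', t, e, ht, h⟩ := ih
    refine ⟨_, _, sw _ _ _ ≪≫ whiskerLeftIso U e, ht.succ, ?_⟩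
    rw [Iso.trans_hom, whiskerLeftIso_hom, Category.assoc, tt_nat_assoc, sw_tt_assoc, h,
      MonoidalCategory.whiskerLeft_comp]

end Tk

end tk

section loc

variable {N : Type u} [Category.{v} N] [MonoidalCategory N] [SymmetricCategory N]
  [MonoidalClosed N] [HasZeroMorphisms N] [HasColimitsOfSize.{0, 0} N] [StabInput N]
  {U : N} {lam : U ⟶ 𝟙_ N} {C : Type u'} [Category.{v'} C] {C' : Type u''} [Category.{v''} C']

/-- homotopy invariant functors which invert the structure maps -/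
structure Inv (lam : U ⟶ 𝟙_ N) (F : N ⥤ C) : Prop where
  htpy : ∀ {A X : N} {f g : A ⟶ X}, MHtpy f g → F.map f = F.map g
  iso : ∀ A : N, IsIso (F.map (tt lam A))

/-- stabilizations -/
structure IsLoc (lam : U ⟶ 𝟙_ N) (F : N ⥤ C) : Prop extends Inv lam F where
  surj : ∀ {A X : N} (x : F.obj A ⟶ F.obj X),
    ∃ (A' : N) (t : A' ⟶ A) (f : A' ⟶ X), Tk lam A t ∧ F.map t ≫ x = F.map f
  inj : ∀ {A X : N} {f g : A ⟶ X}, F.map f = F.map g →
    ∃ (A' : N) (t : A' ⟶ A), Tk lam A t ∧ MHtpy (t ≫ f) (t ≫ g)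

variable {F : N ⥤ C} {Φ : N ⥤ C'} {A A' B X Y : N}

namespace Inv

theorem isIso (h : Inv lam F) {t : A' ⟶ A} (ht : Tk lam A t) : IsIso (F.map t) := by
  induction ht with
  | id => infer_instance
  | succ _ ih =>
    have := h.iso
    rw [F.map_comp]
    infer_instance

theorem isIso_left (h : Inv lam F) {t : A' ⟶ A} (ht : Tk lam A t) (Z : N) :
    IsIso (F.map (Z ◁ t)) := by
  obtain ⟨B, s, e, hs, k⟩ := ht.left Z
  have := h.isIso hs
  rw [← k, F.map_comp]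
  infer_instance

theorem isIso_right (h : Inv lam F) {t : A' ⟶ A} (ht : Tk lam A t) (Z : N) :
    IsIso (F.map (t ▷ Z)) := by
  obtain ⟨B, s, e, hs, k⟩ := ht.right Z
  have := h.isIso hs
  rw [← k, F.map_comp]
  infer_instance

theorem isIso_lam (h : Inv lam F) : IsIso (F.map lam) := by
  have := h.iso
  rw [← tt_unit (lam := lam), F.map_comp]
  infer_instance

theorem of_monoidal [MonoidalCategory C] [F.Monoidal]
    (h : ∀ {A X : N} {f g : A ⟶ X}, MHtpy f g → F.map f = F.map g) [IsIso (F.map lam)] :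
    Inv lam F :=
  ⟨h, fun A => by
    rw [tt, F.map_comp, Functor.Monoidal.map_whiskerRight]
    infer_instance⟩

end Inv

namespace IsLoc

theorem surj₂ (h : IsLoc lam F) (x : F.obj A ⟶ F.obj X) (y : F.obj A ⟶ F.obj Y) :
    ∃ (A' : N) (t : A' ⟶ A) (f : A' ⟶ X) (g : A' ⟶ Y),
      Tk lam A t ∧ F.map t ≫ x = F.map f ∧ F.map t ≫ y = F.map g := by
  obtain ⟨A₁, t, f, ht, e⟩ := h.surj x
  obtain ⟨A₂, s, g, hs, e'⟩ := h.surj (F.map t ≫ y)
  exact ⟨A₂, s ≫ t, s ≫ f, g, ht.comp hs, by rw [F.map_comp, Category.assoc, e, F.map_comp],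
    by rw [F.map_comp, Category.assoc, e']⟩

variable (h : IsLoc lam F) (k : Inv lam Φ)
include h k

theorem map_eq {f g : A ⟶ X} (e : F.map f = F.map g) : Φ.map f = Φ.map g := by
  obtain ⟨A', t, ht, e⟩ := h.inj e
  have := k.isIso ht
  rw [← cancel_epi (Φ.map t), ← Φ.map_comp, ← Φ.map_comp, k.htpy e]

theorem exists_lft (x : F.obj A ⟶ F.obj X) : ∃ y : Φ.obj A ⟶ Φ.obj X,
    ∀ (B : N) (t : B ⟶ A) (f : B ⟶ X), F.map t ≫ x = F.map f → Φ.map t ≫ y = Φ.map f := by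
  obtain ⟨A', t₀, f₀, ht, e⟩ := h.surj x
  have := k.isIso ht
  refine ⟨inv (Φ.map t₀) ≫ Φ.map f₀, fun B t f e' => ?_⟩
  obtain ⟨B', s, f', hs, l⟩ := ht.ore t
  have := k.isIso hs
  have l2 : Φ.map (f' ≫ f₀) = Φ.map (s ≫ f) := h.map_eq k (by
    rw [F.map_comp, F.map_comp, ← e, ← e', ← F.map_comp_assoc, l, F.map_comp_assoc])
  rw [← cancel_epi (Φ.map s), ← Φ.map_comp_assoc, ← l, Φ.map_comp_assoc, IsIso.hom_inv_id_assoc,
    ← Φ.map_comp, l2, Φ.map_comp]

/-- the universal property on morphisms -/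
noncomputable def lft (x : F.obj A ⟶ F.obj X) : Φ.obj A ⟶ Φ.obj X := (h.exists_lft k x).choose

theorem lft_spec {x : F.obj A ⟶ F.obj X} {t : B ⟶ A} {f : B ⟶ X} (e : F.map t ≫ x = F.map f) :
    Φ.map t ≫ h.lft k x = Φ.map f := (h.exists_lft k x).choose_spec B t f e

@[simp] theorem lft_map (f : A ⟶ X) : h.lft k (F.map f) = Φ.map f := by
  have := h.lft_spec k (x := F.map f) (t := 𝟙 A) (f := f) (by simp)
  simpa using this

@[simp] theorem lft_id (A : N) : h.lft k (𝟙 (F.obj A)) = 𝟙 _ := by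
  rw [← F.map_id, lft_map, Φ.map_id]

@[reassoc, simp]
theorem lft_comp (x : F.obj A ⟶ F.obj X) (y : F.obj X ⟶ F.obj Y) :
    h.lft k (x ≫ y) = h.lft k x ≫ h.lft k y := by
  obtain ⟨A₁, t, f, ht, e⟩ := h.surj x
  obtain ⟨A₂, s, g, hs, e'⟩ := h.surj (F.map f ≫ y)
  have := k.isIso ht
  have := k.isIso hs
  have l1 := h.lft_spec k (x := x ≫ y) (t := s ≫ t) (f := g)
    (by rw [F.map_comp, Category.assoc, reassoc_of% e, e'])
  have l2 := h.lft_spec k (x := y) (t := s ≫ f) (f := g) (by rw [F.map_comp, Category.assoc, e'])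
  rw [← cancel_epi (Φ.map t), ← cancel_epi (Φ.map s), ← Φ.map_comp_assoc, l1,
    reassoc_of% h.lft_spec k e, ← Φ.map_comp_assoc, l2]

/-- uniqueness -/
theorem eq_lft (r : ∀ {A X : N}, (F.obj A ⟶ F.obj X) → (Φ.obj A ⟶ Φ.obj X))
    (h1 : ∀ {A X : N} (f : A ⟶ X), r (F.map f) = Φ.map f)
    (h2 : ∀ {A X Y : N} (f : A ⟶ X) (y : F.obj X ⟶ F.obj Y), r (F.map f ≫ y) = Φ.map f ≫ r y)
    (x : F.obj A ⟶ F.obj X) : r x = h.lft k x := by
  obtain ⟨A₁, t, f, ht, e⟩ := h.surj x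
  have := k.isIso ht
  rw [← cancel_epi (Φ.map t), h.lft_spec k e, ← h2, e, h1]

theorem isIso_lft (x : F.obj A ⟶ F.obj X) [IsIso x] : IsIso (h.lft k x) :=
  ⟨h.lft k (inv x), by rw [← lft_comp, IsIso.hom_inv_id, lft_id],
    by rw [← lft_comp, IsIso.inv_hom_id, lft_id]⟩

theorem lft_whiskerRight [MonoidalCategory C] [MonoidalCategory C'] [F.Monoidal] [Φ.Monoidal]
    (x : F.obj A ⟶ F.obj X) (Z : N) : h.lft k (δ F A Z ≫ x ▷ F.obj Z ≫ μ F X Z) =
      δ Φ A Z ≫ h.lft k x ▷ Φ.obj Z ≫ μ Φ X Z := by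
  obtain ⟨A₁, t, f, ht, e⟩ := h.surj x
  have := k.isIso_right ht Z
  rw [← cancel_epi (Φ.map (t ▷ Z)), h.lft_spec k (f := f ▷ Z), ← δ_natural_left_assoc,
    ← comp_whiskerRight_assoc, h.lft_spec k e, Functor.Monoidal.map_whiskerRight]
  rw [← δ_natural_left_assoc, ← comp_whiskerRight_assoc, e, Functor.Monoidal.map_whiskerRight]

theorem lft_whiskerLeft [MonoidalCategory C] [MonoidalCategory C'] [F.Monoidal] [Φ.Monoidal]
    (Z : N) (x : F.obj A ⟶ F.obj X) : h.lft k (δ F Z A ≫ F.obj Z ◁ x ≫ μ F Z X) =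
      δ Φ Z A ≫ Φ.obj Z ◁ h.lft k x ≫ μ Φ Z X := by
  obtain ⟨A₁, t, f, ht, e⟩ := h.surj x
  have := k.isIso_left ht Z
  rw [← cancel_epi (Φ.map (Z ◁ t)), h.lft_spec k (f := Z ◁ f), ← δ_natural_right_assoc,
    ← MonoidalCategory.whiskerLeft_comp_assoc, h.lft_spec k e, Functor.Monoidal.map_whiskerLeft]
  rw [← δ_natural_right_assoc, ← MonoidalCategory.whiskerLeft_comp_assoc, e,
    Functor.Monoidal.map_whiskerLeft]

end IsLoc

theorem IsLoc.lft_zero [HasZeroMorphisms C] [HasZeroMorphisms C'] [F.PreservesZeroMorphisms]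
    [Φ.PreservesZeroMorphisms] (h : IsLoc lam F) (k : Inv lam Φ) (A X : N) :
    h.lft k (0 : F.obj A ⟶ F.obj X) = 0 := by
  rw [← F.map_zero, h.lft_map, Φ.map_zero]

theorem IsLoc.lft_add [Preadditive C] [Preadditive C'] [F.PreservesZeroMorphisms]
    [Φ.PreservesZeroMorphisms] (h : IsLoc lam F) (k : Inv lam Φ)
    (hΦ : ∀ {Z : C'} (f : Φ.obj (A ⨿ A) ⟶ Z), Φ.map coprod.inl ≫ f = 0 →
      Φ.map coprod.inr ≫ f = 0 → f = 0) (x y : F.obj A ⟶ F.obj X) :
    h.lft k (x + y) = h.lft k x + h.lft k y := by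
  let p : A ⨿ A ⟶ A := coprod.desc (𝟙 A) 0
  let q : A ⨿ A ⟶ A := coprod.desc 0 (𝟙 A)
  have a1 : coprod.inl ≫ p = 𝟙 A := coprod.inl_desc _ _
  have a2 : coprod.inr ≫ p = 0 := coprod.inr_desc _ _
  have a3 : coprod.inl ≫ q = 0 := coprod.inl_desc _ _
  have a4 : coprod.inr ≫ q = 𝟙 A := coprod.inr_desc _ _
  let d : F.obj A ⟶ F.obj (A ⨿ A) := F.map coprod.inl + F.map coprod.inr
  let c : F.obj (A ⨿ A) ⟶ F.obj X := F.map p ≫ x + F.map q ≫ y
  have c1 : F.map coprod.inl ≫ c = x := by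
    rw [Preadditive.comp_add, ← F.map_comp_assoc, ← F.map_comp_assoc, a1, a3, F.map_id,
      F.map_zero, Category.id_comp, zero_comp, add_zero]
  have c2 : F.map coprod.inr ≫ c = y := by
    rw [Preadditive.comp_add, ← F.map_comp_assoc, ← F.map_comp_assoc, a2, a4, F.map_id,
      F.map_zero, Category.id_comp, zero_comp, zero_add]
  have d1 : d ≫ F.map p = 𝟙 _ := by
    rw [Preadditive.add_comp, ← F.map_comp, ← F.map_comp, a1, a2, F.map_id, F.map_zero, add_zero]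
  have d2 : d ≫ F.map q = 𝟙 _ := by
    rw [Preadditive.add_comp, ← F.map_comp, ← F.map_comp, a3, a4, F.map_id, F.map_zero, zero_add]
  have h2 : Φ.map p ≫ Φ.map coprod.inl + Φ.map q ≫ Φ.map coprod.inr = 𝟙 _ := by
    refine sub_eq_zero.1 (hΦ _ ?_ ?_) <;>
      simp only [Preadditive.comp_sub, Preadditive.comp_add, ← Φ.map_comp_assoc, a1, a2, a3, a4,
        Φ.map_id, Φ.map_zero, Category.id_comp, Category.comp_id, zero_comp, add_zero, zero_add,
        sub_self]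
  have h4 : h.lft k d = Φ.map coprod.inl + Φ.map coprod.inr := by
    rw [← Category.comp_id (h.lft k d), ← h2, Preadditive.comp_add, ← h.lft_map k p,
      ← h.lft_map k q, ← h.lft_comp_assoc, ← h.lft_comp_assoc, d1, d2, h.lft_id,
      Category.id_comp, Category.id_comp]
  have h1 : d ≫ c = x + y := by rw [Preadditive.add_comp, c1, c2]
  rw [← h1, h.lft_comp, h4, Preadditive.add_comp, ← h.lft_map k, ← h.lft_map k, ← h.lft_comp,
    ← h.lft_comp, c1, c2]

end loc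

section equivariant

variable {M : Type u} [Category.{v} M] [MonoidalCategory M] [SymmetricCategory M]
  [MonoidalClosed M] [HasZeroMorphisms M] [HasColimitsOfSize.{0, 0} M] [StabInput M]
  {G : Type} [Group G] {H : Type u'} [Category.{v'} H] {E : Type u''} [Category.{v''} E]
  {UH : Action M G} {lamH : UH ⟶ 𝟙_ _} {UE : M} {lamE : UE ⟶ 𝟙_ M}
  {FH : Action M G ⥤ H} {FE : M ⥤ E} {A B X Y Z : Action M G}

omit [SymmetricCategory M] [MonoidalClosed M] [HasZeroMorphisms M] [HasColimitsOfSize.{0, 0} M]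
  [StabInput M] in
theorem tt_hom (A : Action M G) : (tt lamH A).hom = tt lamH.hom A.V := by
  rw [tt, Action.comp_hom, Action.whiskerRight_hom, Action.leftUnitor_hom_hom]
  rfl

/-- an equivariant and a non-equivariant stabilization -/
structure ResData (lamH : UH ⟶ 𝟙_ (Action M G)) (lamE : UE ⟶ 𝟙_ M) (FH : Action M G ⥤ H)
    (FE : M ⥤ E) : Prop where
  locH : IsLoc lamH FH
  locE : IsLoc lamE FE
  iso : ∀ A : M, IsIso (FE.map (tt lamH.hom A))
  fac : ∃ g : UH.V ⟶ UE, MHtpy (g ≫ lamE) lamH.hom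

namespace ResData

variable (R : ResData lamH lamE FH FE)
include R

theorem inv : Inv lamH (Action.forget M G ⋙ FE) :=
  ⟨fun h => R.locE.htpy (mHtpy_hom h), fun A => by
    change IsIso (FE.map (tt lamH A).hom)
    rw [tt_hom]
    exact R.iso _⟩

/-- restriction to the trivial group -/
noncomputable def rs (x : FH.obj A ⟶ FH.obj X) : FE.obj A.V ⟶ FE.obj X.V := R.locH.lft R.inv x

@[simp] theorem rs_map (f : A ⟶ X) : R.rs (FH.map f) = FE.map f.hom := R.locH.lft_map R.inv f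

@[simp] theorem rs_id (A : Action M G) : R.rs (𝟙 (FH.obj A)) = 𝟙 _ := R.locH.lft_id R.inv A

@[reassoc, simp]
theorem rs_comp (x : FH.obj A ⟶ FH.obj X) (y : FH.obj X ⟶ FH.obj Y) :
    R.rs (x ≫ y) = R.rs x ≫ R.rs y := R.locH.lft_comp R.inv x y

theorem rs_spec {x : FH.obj A ⟶ FH.obj X} {t : B ⟶ A} {f : B ⟶ X} (e : FH.map t ≫ x = FH.map f) :
    FE.map t.hom ≫ R.rs x = FE.map f.hom := R.locH.lft_spec R.inv e

theorem isIso_hom {t : B ⟶ A} (ht : Tk lamH A t) : IsIso (FE.map t.hom) := R.inv.isIso ht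

/-- restrictions commute with the action -/
theorem act_rs (x : FH.obj A ⟶ FH.obj X) (g : G) :
    FE.map (act A g) ≫ R.rs x = R.rs x ≫ FE.map (act X g) := by
  obtain ⟨A', t, f, ht, e⟩ := R.locH.surj x
  have := R.isIso_hom ht
  rw [← cancel_epi (FE.map t.hom), ← FE.map_comp_assoc, ← act_comm, FE.map_comp_assoc,
    R.rs_spec e, reassoc_of% R.rs_spec e, ← FE.map_comp, ← FE.map_comp, act_comm]

theorem exists_tk {A : Action M G} {B : M} {s : B ⟶ A.V} (hs : Tk lamE A.V s) :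
    ∃ (A' : Action M G) (t : A' ⟶ A) (g : A'.V ⟶ B), Tk lamH A t ∧ MHtpy (g ≫ s) t.hom := by
  induction hs with
  | id => exact ⟨A, 𝟙 A, 𝟙 _, .id, by simpa using MHtpy.refl _⟩
  | succ _ ih =>
    obtain ⟨A', t, g, ht, e⟩ := ih
    obtain ⟨g₀, e₀⟩ := R.fac
    refine ⟨_, _, g₀ ▷ A'.V ≫ UE ◁ g, ht.succ, ?_⟩
    rw [Action.comp_hom, tt_hom, Category.assoc, tt_nat_assoc, tt_comp_assoc]
    refine (MHtpy.comp_left _ e).trans (MHtpy.comp_right ?_ _)
    exact (e₀.whiskerRight _).comp_right _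

omit R in
theorem _root_.Vale.Agent.P257.E.Free.tk (hA : Free A) {t : B ⟶ A} (ht : Tk lamH A t) : Free B := by
  induction ht with
  | id => exact hA
  | succ _ ih => exact ih.tensor_left _

theorem map_eq_of_free (hA : Free A) {f f' : A ⟶ X} (e : FE.map f.hom = FE.map f'.hom) :
    FH.map f = FH.map f' := by
  obtain ⟨B, s, hs, e⟩ := R.locE.inj e
  obtain ⟨A', t, g, ht, e'⟩ := R.exists_tk hs
  have := R.locH.isIso ht
  rw [← cancel_epi (FH.map t), ← FH.map_comp, ← FH.map_comp]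
  refine R.locH.htpy ((hA.tk ht).mHtpy ?_)
  have h1 := MHtpy.comp_left g e
  rw [← Category.assoc, ← Category.assoc] at h1
  exact (e'.comp_right _).symm.trans (h1.trans (e'.comp_right _))

/-- **T0a**: restriction is injective on maps out of free objects -/
theorem inj_free (hA : Free A) {x y : FH.obj A ⟶ FH.obj X} (e : R.rs x = R.rs y) : x = y := by
  obtain ⟨A', t, f, g, ht, e1, e2⟩ := R.locH.surj₂ x y
  have := R.locH.isIso ht
  rw [← cancel_epi (FH.map t), e1, e2]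
  exact R.map_eq_of_free (hA.tk ht) (by rw [← R.rs_spec e1, ← R.rs_spec e2, e])

/-- **T0**: restriction is injective on maps out of an object covered by a free object -/
theorem inj_of_epi (hA : Free A) (q : FH.obj A ⟶ FH.obj B) [Epi q] {x y : FH.obj B ⟶ FH.obj X}
    (e : R.rs x = R.rs y) : x = y := by
  rw [← cancel_epi q]
  exact R.inj_free hA (by rw [R.rs_comp, R.rs_comp, e])

variable [Finite G]

/-- evaluation at the unit element -/
noncomputable def ev (x : FH.obj (fset M G G ⊗ Y) ⟶ FH.obj X) : FE.obj Y.V ⟶ FE.obj X.V :=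
  FE.map (dinc (1 : G) Y.V) ≫ R.rs x

/-- **T1** -/
theorem ev_surjective (Y X : Action M G) : Function.Surjective (R.ev (Y := Y) (X := X)) := by
  intro y
  obtain ⟨B, s, f, hs, e⟩ := R.locE.surj y
  obtain ⟨Y', t, g, ht, e'⟩ := R.exists_tk hs
  have := R.locH.isIso_left ht (fset M G G)
  have := R.isIso_hom ht
  refine ⟨CategoryTheory.inv (FH.map (fset M G G ◁ t)) ≫ FH.map (gdesc (g ≫ f)), ?_⟩
  have h1 := R.rs_spec (IsIso.hom_inv_id_assoc (FH.map (fset M G G ◁ t)) (FH.map (gdesc (g ≫ f))))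
  rw [← cancel_epi (FE.map t.hom), ev, ← FE.map_comp_assoc, ← dinc_nat, FE.map_comp_assoc]
  refine (congrArg (FE.map (dinc (1 : G) Y'.V) ≫ ·) h1).trans ?_
  rw [← FE.map_comp, dinc_one_gdesc, FE.map_comp, ← e, ← FE.map_comp_assoc, R.locE.htpy e']

theorem ev_injective (Y X : Action M G) : Function.Injective (R.ev (Y := Y) (X := X)) := by
  intro x y e
  obtain ⟨A', t, f, g, ht, e1, e2⟩ := R.locH.surj₂ x y
  obtain ⟨Y', s, u, hs, e3⟩ := ht.of_left
  have := R.locH.isIso ht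
  have k : ∀ {x : FH.obj (fset M G G ⊗ Y) ⟶ FH.obj X} {f : A' ⟶ X}, FH.map t ≫ x = FH.map f →
      FE.map s.hom ≫ R.ev x = FE.map (dinc (1 : G) Y'.V ≫ (u.hom ≫ f).hom) := fun {x f} e => by
    have h1 := R.rs_spec (t := fset M G G ◁ s) (f := u.hom ≫ f)
      (by rw [← e3, FH.map_comp, Category.assoc, e, FH.map_comp])
    rw [ev, ← FE.map_comp_assoc, ← dinc_nat, FE.map_comp_assoc, FE.map_comp]
    exact congrArg (FE.map (dinc (1 : G) Y'.V) ≫ ·) h1
  obtain ⟨B, s', hs', e4⟩ := R.locE.inj ((k e1).symm.trans ((congrArg _ e).trans (k e2)))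
  obtain ⟨Y'', t', g', ht', e5⟩ := R.exists_tk hs'
  have := R.locH.isIso_left ht' (fset M G G)
  rw [← cancel_epi (FH.map t), e1, e2, ← cancel_epi (FH.map u.hom),
    ← cancel_epi (FH.map (fset M G G ◁ t')), ← FH.map_comp, ← FH.map_comp, ← FH.map_comp,
    ← FH.map_comp]
  refine R.locH.htpy (mHtpy_gset ?_)
  have k2 : ∀ f : A' ⟶ X, dinc (1 : G) Y''.V ≫ (fset M G G ◁ t' ≫ u.hom ≫ f).hom =
      t'.hom ≫ dinc (1 : G) Y'.V ≫ (u.hom ≫ f).hom := fun f => by
    rw [Action.comp_hom, Action.whiskerLeft_hom]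
    exact dinc_nat_assoc _ _ _
  have h1 := MHtpy.comp_left g' e4
  rw [← Category.assoc, ← Category.assoc g'] at h1
  rw [k2, k2]
  exact (e5.comp_right _).symm.trans (h1.trans (e5.comp_right _))

theorem ev_bijective (Y X : Action M G) : Function.Bijective (R.ev (Y := Y) (X := X)) :=
  ⟨R.ev_injective Y X, R.ev_surjective Y X⟩

end ResData

end equivariant

end Vale.Agent.P257.E
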