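import Vale.Agent.P257.E.Rot
import Vale.Agent.P257.D.OBig
import Mathlib.Data.Matrix.ColumnRowPartitioned

/-!
# P257, block E: representation spheres

* `VF : O ⥤ LC`, `a ↦ V a`, braided monoidal; `Lin f`: `f` is a linear isometric embedding;
* `negV`, `rotV`, `rotLCV`: the data of the rotation homotopy, natural for linear maps;
* `sphA Q`: the `G`-space of a representation `Q : Action O G`.
-/

open CategoryTheory MonoidalCategory Limits Functor.LaxMonoidal Functor.OplaxMonoidal
open Topology OnePoint Filter Matrix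

namespace Vale.Agent.P257.E

open Vale.Agent.P251.H (rc rs rc_zero rs_zero rc_one rs_one rc_sq_add_rs_sq continuous_rc
  continuous_rs)
open Vale.Agent.P251.G (LC)
open Vale.Agent.P251.G.LC (RR II HH app smash incl point)
open Vale.Agent.P257.D
open Vale.Agent.P257.D.O (V vec vfst vsnd spt vsm)

/-- the vector spaces as a functor to spaces -/
@[reducible] def VF : O ⥤ LC where
  obj a := V a
  map f := LC.homMk (O.act f) (O.continuous_act continuous_const continuous_id) (O.act_infty f)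
  map_id _ := LC.hom_ext' fun v => O.act_id v
  map_comp f g := LC.hom_ext' fun v => O.act_comp f g v

variable {a b c d : O}

theorem app_VF_map (f : a ⟶ b) (v : OnePoint (a.El → ℝ)) : app (VF.map f) v = O.act f v := rfl

theorem app_VF_map_mk (f : OH a.El b.El) (v : a.El → ℝ) :
    app (VF.map (O.mk f)) (v : OnePoint _) = (f.ap v : OnePoint _) := rfl

theorem app_vecIso_hom (u : OnePoint (a.El → ℝ)) (v : OnePoint (b.El → ℝ)) :
    app (O.vecIso a b).hom (smash u v) = vsm u v := rfl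

theorem app_vecIso_inv (u : OnePoint (a.El → ℝ)) (v : OnePoint (b.El → ℝ)) :
    app (O.vecIso a b).inv (vsm u v) = smash u v := by
  rw [← app_vecIso_hom, ← LC.app_comp, Iso.hom_inv_id, LC.app_id]

theorem app_unitIsoV_hom (u : Unit) :
    app O.unitIsoV.hom (u : OnePoint Unit) = ((0 : (𝟙_ O).El → ℝ) : OnePoint _) := rfl

/-- the monoidal structure of `VF` -/
def VFCore : VF.CoreMonoidal where
  εIso := O.unitIsoV
  μIso := O.vecIso
  μIso_hom_natural_left {a b} f c := by
    refine LC.tensor_ext fun u v => ?_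
    rw [LC.app_comp, LC.app_comp, LC.app_whiskerRight_smash, app_vecIso_hom, app_vecIso_hom,
      app_VF_map, app_VF_map, O.whiskerRight_eq, O.act_tensor_vsm, O.act_id]
  μIso_hom_natural_right {a b} c f := by
    refine LC.tensor_ext fun u v => ?_
    rw [LC.app_comp, LC.app_comp, LC.app_whiskerLeft_smash, app_vecIso_hom, app_vecIso_hom,
      app_VF_map, app_VF_map, O.whiskerLeft_eq, O.act_tensor_vsm, O.act_id]
  associativity a b c := by
    refine LC.hom_ext fun ⟨⟨u, v⟩, w⟩ => ?_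
    exact congrArg OnePoint.some (O.asc_ap u v w)
  left_unitality a := by
    refine LC.hom_ext fun ⟨_, v⟩ => ?_
    exact congrArg OnePoint.some (O.lu_ap _ v).symm
  right_unitality a := by
    refine LC.hom_ext fun ⟨v, _⟩ => ?_
    exact congrArg OnePoint.some (O.ru_ap v _).symm

instance : VF.Monoidal := VFCore.toMonoidal

theorem VF_ε : ε VF = O.unitIsoV.hom := rfl

theorem VF_η : η VF = O.unitIsoV.inv := rfl

theorem VF_μ (a b : O) : μ VF a b = (O.vecIso a b).hom := rfl

theorem VF_δ (a b : O) : δ VF a b = (O.vecIso a b).inv := rfl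

instance : VF.Braided where
  braided a b := by
    refine LC.hom_ext fun ⟨u, v⟩ => ?_
    exact congrArg OnePoint.some (O.brd_ap u v)

/-- linear isometric embeddings -/
def Lin (f : a ⟶ b) : Prop := ∃ φ : OH a.El b.El, f = O.mk φ ∧ φ.w = 0

theorem lin_of_isIso (f : a ⟶ b) [IsIso f] : Lin f :=
  ⟨O.isoOH f, (O.mk_isoOH f).symm, O.isoOH_w f⟩

theorem lin_mk {φ : OH a.El b.El} (h : φ.w = 0) : Lin (O.mk φ) := ⟨φ, rfl, h⟩

theorem Lin.comp {f : a ⟶ b} {g : b ⟶ c} (hf : Lin f) (hg : Lin g) : Lin (f ≫ g) := by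
  obtain ⟨φ, rfl, h⟩ := hf
  obtain ⟨ψ, rfl, h'⟩ := hg
  refine ⟨φ.comp ψ, rfl, ?_⟩
  rw [OH.comp_w, h, OH.ap_zero, h']

theorem Lin.tensor {f : a ⟶ b} {g : c ⟶ d} (hf : Lin f) (hg : Lin g) : Lin (f ⊗ₘ g) := by
  obtain ⟨φ, rfl, h⟩ := hf
  obtain ⟨ψ, rfl, h'⟩ := hg
  refine ⟨O.tens φ ψ, rfl, ?_⟩
  rw [← OH.ap_zero, ← O.vec_zero, O.tens_ap_vec, OH.ap_zero, OH.ap_zero, h, h', O.vec_zero]

theorem ap_lin {φ : OH a.El b.El} (h : φ.w = 0) (r s : ℝ) (u v : a.El → ℝ) :
    φ.ap (r • u + s • v) = r • φ.ap u + s • φ.ap v := by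
  simp only [OH.ap, h, add_zero, mulVec_add, mulVec_smul]

theorem ap_lin' {φ : OH a.El b.El} (h : φ.w = 0) (r s : ℝ) (u v : a.El → ℝ) :
    φ.ap (r • u - s • v) = r • φ.ap u - s • φ.ap v := by
  simp only [OH.ap, h, add_zero, mulVec_sub, mulVec_smul]

theorem ap_neg {φ : OH a.El b.El} (h : φ.w = 0) (u : a.El → ℝ) : φ.ap (-u) = -φ.ap u := by
  simp only [OH.ap, h, add_zero, mulVec_neg]

/-- the antipode -/
def negV (a : O) : V a ⟶ V a :=
  (LC.ofHomeo (X := V a) (Y := V a) (Homeomorph.neg (a.El → ℝ))).hom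

theorem app_negV (v : a.El → ℝ) : app (negV a) (v : OnePoint _) = ((-v : a.El → ℝ) : OnePoint _) :=
  rfl

theorem negV_negV (a : O) : negV a ≫ negV a = 𝟙 _ :=
  LC.hom_ext fun v => congrArg OnePoint.some (neg_neg v)

theorem negV_nat {f : a ⟶ b} (hf : Lin f) : VF.map f ≫ negV b = negV a ≫ VF.map f := by
  obtain ⟨φ, rfl, h⟩ := hf
  exact LC.hom_ext fun v => congrArg OnePoint.some (ap_neg h v).symm

theorem dot_rot {ι : Type} [Fintype ι] (t : unitInterval) (u v : ι → ℝ) :
    (rc t • u - rs t • v) ⬝ᵥ (rc t • u - rs t • v) + (rs t • u + rc t • v) ⬝ᵥ (rs t • u + rc t • v)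
      = u ⬝ᵥ u + v ⬝ᵥ v := by
  have h := rc_sq_add_rs_sq t
  simp only [sub_dotProduct, dotProduct_sub, add_dotProduct, dotProduct_add, smul_dotProduct,
    dotProduct_smul, smul_eq_mul, dotProduct_comm v u]
  linear_combination (u ⬝ᵥ u + v ⬝ᵥ v) * h

/-- the rotation of `V ⊕ V` -/
noncomputable def rotV (a : O) : (V a ⊗ V a) ⊗ II ⟶ (V a ⊗ II) ⊗ V a :=
  LC.ofProper (X := (V a ⊗ V a) ⊗ II) (Y := (V a ⊗ II) ⊗ V a)
    (fun p : ((a.El → ℝ) × (a.El → ℝ)) × unitInterval =>
      ((rc p.2 • p.1.1 - rs p.2 • p.1.2, p.2), rs p.2 • p.1.1 + rc p.2 • p.1.2))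
    (by
      have h1 := continuous_rc
      have h2 := continuous_rs
      fun_prop)
    ((((propFn_dotProduct a.El).prod (propFn_dotProduct a.El)).prod
      PropFn.of_compact).tendsto_cocompact
      (N' := fun q : ((a.El → ℝ) × unitInterval) × (a.El → ℝ) => q.1.1 ⬝ᵥ q.1.1 + q.2 ⬝ᵥ q.2)
      (by fun_prop) (fun p => by rw [add_zero]; exact (dot_rot p.2 p.1.1 p.1.2).ge))

theorem app_rotV (u v : a.El → ℝ) (t : unitInterval) :
    app (rotV a) (smash (smash (u : OnePoint _) (v : OnePoint _)) (t : OnePoint unitInterval)) =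
      smash (smash ((rc t • u - rs t • v : a.El → ℝ) : OnePoint _) (t : OnePoint unitInterval))
        ((rs t • u + rc t • v : a.El → ℝ) : OnePoint _) := rfl

theorem incl_zero_rotV (a : O) : incl 0 (V a ⊗ V a) ≫ rotV a = incl 0 (V a) ▷ V a := by
  refine LC.tensor_ext fun u v => ?_
  rw [LC.app_comp, LC.app_incl, LC.app_whiskerRight_smash, LC.app_incl]
  refine (app_rotV u v 0).trans ?_
  rw [rc_zero, rs_zero, one_smul, zero_smul, sub_zero, zero_smul, one_smul, zero_add]

theorem incl_one_rotV (a : O) : incl 1 (V a ⊗ V a) ≫ rotV a =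
    (β_ (V a) (V a)).hom ≫ (negV a ≫ incl 1 (V a)) ▷ V a := by
  refine LC.tensor_ext fun u v => ?_
  rw [LC.app_comp, LC.app_incl, LC.app_comp, LC.app_braiding_smash, LC.app_whiskerRight_smash,
    LC.app_comp, app_negV, LC.app_incl]
  refine (app_rotV u v 1).trans ?_
  rw [rc_one, rs_one, one_smul, zero_smul, zero_sub, zero_smul, one_smul, add_zero]

theorem rotV_nat {f : a ⟶ b} (hf : Lin f) :
    ((VF.map f ⊗ₘ VF.map f) ⊗ₘ 𝟙 II) ≫ rotV b = rotV a ≫ ((VF.map f ⊗ₘ 𝟙 II) ⊗ₘ VF.map f) := by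
  obtain ⟨φ, rfl, h⟩ := hf
  refine LC.hom_ext fun ⟨⟨u, v⟩, t⟩ => ?_
  refine (app_rotV (φ.ap u) (φ.ap v) t).trans ?_
  rw [← ap_lin h, ← ap_lin' h]
  rfl

/-- the rotating embedding of `V` in `V ⊕ V` -/
noncomputable def rotOHV (a : O) (p : (a.El → ℝ) × unitInterval) : OH a.El (a ⊗ a).El :=
  OH.mk (ι := a.El) (κ := a.El ⊕ a.El) (fromRows (rs p.2 • 1) (rc p.2 • 1))
    (Sum.elim (rc p.2 • p.1) (-(rs p.2 • p.1)))
    (fun v => by
      have h := rc_sq_add_rs_sq p.2
      rw [fromRows_mulVec, transpose_fromRows, fromCols_mulVec_sumElim]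
      simp only [transpose_smul, transpose_one, smul_mulVec, one_mulVec, smul_smul, ← add_smul]
      rw [add_comm, h, one_smul])
    (by
      rw [transpose_fromRows, fromCols_mulVec_sumElim]
      simp only [transpose_smul, transpose_one, smul_mulVec, one_mulVec, smul_smul, smul_neg]
      rw [mul_comm, add_neg_cancel])

theorem rotOHV_ap (y : a.El → ℝ) (t : unitInterval) (x : a.El → ℝ) :
    (rotOHV a (y, t)).ap x = vec (rc t • y + rs t • x) (rc t • x - rs t • y) := by
  change fromRows (rs t • (1 : Matrix a.El a.El ℝ)) (rc t • (1 : Matrix a.El a.El ℝ)) *ᵥ x +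
    Sum.elim (rc t • y) (-(rs t • y)) = Sum.elim _ _
  rw [fromRows_mulVec]
  simp only [smul_mulVec, one_mulVec]
  funext k
  rcases k with k | k
  · exact add_comm _ _
  · exact (sub_eq_add_neg _ _).symm

theorem continuous_rotOHV (a : O) : Continuous (rotOHV a) := by
  have h1 := continuous_rc
  have h2 := continuous_rs
  refine OH.continuous_of (continuous_pi fun k => continuous_pi fun i => ?_)
    (continuous_pi fun k => ?_)
  · rcases k with k | k
    · change Continuous fun p : (a.El → ℝ) × unitInterval =>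
        rs p.2 * (1 : Matrix a.El a.El ℝ) k i
      fun_prop
    · change Continuous fun p : (a.El → ℝ) × unitInterval =>
        rc p.2 * (1 : Matrix a.El a.El ℝ) k i
      fun_prop
  · rcases k with k | k
    · change Continuous fun p : (a.El → ℝ) × unitInterval => rc p.2 * p.1 k
      fun_prop
    · change Continuous fun p : (a.El → ℝ) × unitInterval => -(rs p.2 * p.1 k)
      fun_prop

theorem nrm_rotOHV (p : (a.El → ℝ) × unitInterval) : (rotOHV a p).nrm = p.1 ⬝ᵥ p.1 := by
  have h := rc_sq_add_rs_sq p.2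
  refine (O.vec_dot (rc p.2 • p.1) (rc p.2 • p.1) (-(rs p.2 • p.1)) (-(rs p.2 • p.1))).trans ?_
  simp only [neg_dotProduct, dotProduct_neg, smul_dotProduct, dotProduct_smul,
    smul_eq_mul]
  linear_combination (p.1 ⬝ᵥ p.1) * h

/-- the rotating embedding as a morphism of `LC` -/
noncomputable def rotLCV (a : O) : V a ⊗ II ⟶ O.H a (a ⊗ a) :=
  LC.ofProper (X := V a ⊗ II) (rotOHV a) (continuous_rotOHV a)
    (((propFn_dotProduct a.El).prod PropFn.of_compact).tendsto_cocompact OH.propFn_nrm.cont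
      (fun p => by rw [nrm_rotOHV, add_zero]))

/-- the rotating embedding as a family of morphisms of `O` -/
noncomputable def rotO (z : OnePoint ((a.El → ℝ) × unitInterval)) : a ⟶ a ⊗ a :=
  O.ofPt (app (rotLCV a) z)

theorem rotO_coe (y : a.El → ℝ) (t : unitInterval) :
    rotO (smash (y : OnePoint _) (t : OnePoint unitInterval)) = O.mk (rotOHV a (y, t)) := rfl

theorem rotO_infty : rotO (a := a) ∞ = 0 := congrArg O.ofPt (LC.app_infty (rotLCV a))

theorem plot_rotO {K : P251.H.CH} {z : K → OnePoint ((a.El → ℝ) × unitInterval)}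
    (hz : Continuous z) : Idx.plot K (fun k => rotO (z k)) :=
  O.plot_ofPt ((LC.continuous_app (rotLCV a)).comp hz)

theorem rotO_zero (y : OnePoint (a.El → ℝ)) :
    rotO (smash y ((0 : unitInterval) : OnePoint unitInterval)) = (λ_ a).inv ≫ spt y ▷ a := by
  induction y using OnePoint.rec with
  | infty =>
    rw [LC.smash_infty_left, rotO_infty, O.spt_infty, Idx.zero_whiskerRight, comp_zero]
  | coe y =>
    rw [rotO_coe, O.spt_coe, O.leftUnitor_inv, O.whiskerRight_mk, O.mk_comp]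
    refine O.mk_ext fun x => ?_
    rw [rotOHV_ap]
    simp

theorem rotO_one (y : OnePoint (a.El → ℝ)) :
    rotO (smash y ((1 : unitInterval) : OnePoint unitInterval)) =
      (ρ_ a).inv ≫ a ◁ spt (app (negV a) y) := by
  induction y using OnePoint.rec with
  | infty =>
    rw [LC.smash_infty_left, rotO_infty, LC.app_infty, O.spt_infty, Idx.whiskerLeft_zero,
      comp_zero]
  | coe y =>
    rw [rotO_coe, app_negV, O.spt_coe, O.rightUnitor_inv, O.whiskerLeft_mk, O.mk_comp]
    refine O.mk_ext fun x => ?_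
    rw [rotOHV_ap]
    simp

theorem rotO_nat {f : a ⟶ b} (hf : Lin f) (y : OnePoint (a.El → ℝ)) (t : unitInterval) :
    f ≫ rotO (smash (O.act f y) (t : OnePoint unitInterval)) =
      rotO (smash y (t : OnePoint unitInterval)) ≫ (f ⊗ₘ f) := by
  obtain ⟨φ, rfl, h⟩ := hf
  induction y using OnePoint.rec with
  | infty =>
    rw [O.act_infty, LC.smash_infty_left, LC.smash_infty_left, rotO_infty, rotO_infty, comp_zero,
      zero_comp]
  | coe y =>
    rw [O.act_mk_coe, rotO_coe, rotO_coe, O.mk_tensor, O.mk_comp, O.mk_comp]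
    refine O.mk_ext fun x => ?_
    rw [OH.comp_ap, OH.comp_ap, rotOHV_ap, rotOHV_ap, O.tens_ap_vec, ap_lin h, ap_lin' h]

variable {G : Type} [Group G]

variable (G) in
/-- the sphere of a representation, as a `G`-space -/
abbrev sphA : Action O G ⥤ Action LC G := mapA VF G

theorem lin_act (Q : Action O G) (g : G) : Lin (act Q g) := lin_of_isIso _

/-- the equivariant antipode -/
def negA (Q : Action O G) : (sphA G).obj Q ⟶ (sphA G).obj Q :=
  mkHom (negV Q.V) fun g => negV_nat (lin_act Q g)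

theorem negA_hom (Q : Action O G) : (negA Q).hom = negV Q.V := rfl

/-- the equivariant rotation -/
noncomputable def rotA (Q : Action O G) :
    ((sphA G).obj Q ⊗ (sphA G).obj Q) ⊗ (triv G).obj II ⟶
      ((sphA G).obj Q ⊗ (triv G).obj II) ⊗ (sphA G).obj Q :=
  mkHom (rotV Q.V) fun g => rotV_nat (lin_act Q g)

theorem rotA_hom (Q : Action O G) : (rotA Q).hom = rotV Q.V := rfl

end Vale.Agent.P257.E
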