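import Vale.Agent.P257.E.Free
import Vale.Agent.P257.E.VF
import Vale.Agent.P257.C.Deg
import Mathlib.GroupTheory.Sylow
import Mathlib.GroupTheory.Perm.Cycle.Type

/-!
# P257, block E: Pontryagin-Thom transfers

* `Ctr G c`: an equivariant separated family of centres `c : T → E` in an isometric representation;
  `pt hc : S^E ⟶ T₊ ⊗ S^E`, the collapse onto the balls of radius `1 / 2`, `theta hc = pt ≫ fold`;
* `map_pt`: after a functor which is additive on spaces, `pt` is the sum of the inclusions, and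
  `theta` is multiplication by the cardinality of `T`;
* `GF Ω`: functions on a finite `G`-set, `permRep G Ω`: the permutation representation,
  `sphGF : sphA (permRep G Ω) ≅ gsp G (GF Ω)`, `fnGF : gsp (Fn ι ℝ) ≅ gsp (GF ι)`;
* `ctr_ind`: indicator functions of an equivariant injective family of subsets are centres.
-/

open CategoryTheory MonoidalCategory Limits Functor.LaxMonoidal Functor.OplaxMonoidal
open Topology OnePoint Filter

namespace Vale.Agent.P257.E

open Vale.Agent.P251.H Vale.Agent.P251.H.StabInput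
open Vale.Agent.P251.G (LC)
open Vale.Agent.P251.G.LC (RR II HH app smash incl point ballEmb collapseBall)
open Vale.Agent.P257.Z (Ds Fn)
open Vale.Agent.P257.C (SphFun)
open Vale.Agent.P257.D

universe v u v' u'

variable {G : Type} [Group G] {T : Type} [MulAction G T]

section generic

variable {E : Type} [NormedAddCommGroup E] [NormedSpace ℝ E] [DistribMulAction G E]
  [SMulCommClass G ℝ E]

variable (G) in
/-- equivariant separated centres in an isometric representation -/
structure Ctr (c : T → E) : Prop where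
  norm_smul : ∀ (g : G) (x : E), ‖g • x‖ = ‖x‖
  smul : ∀ (g : G) t, c (g • t) = g • c t
  sep : ∀ s t, s ≠ t → 1 ≤ dist (c s) (c t)

/-- the embedding onto the union of the balls -/
noncomputable def balls (c : T → E) (p : Ds T × E) : E := ballEmb (c p.1.val) (1 / 2) p.2

variable {c : T → E}

theorem balls_mem (c : T → E) (p : Ds T × E) : balls c p ∈ Metric.ball (c p.1.val) (1 / 2) :=
  (LC.mem_range_ballEmb' _ (by norm_num)).1 ⟨p.2, rfl⟩

omit [NormedSpace ℝ E] [SMulCommClass G ℝ E] in
theorem Ctr.disjoint (hc : Ctr G c) {s t : T} (h : s ≠ t) :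
    Disjoint (Metric.ball (c s) (1 / 2)) (Metric.ball (c t) (1 / 2)) :=
  Metric.ball_disjoint_ball (by linarith [hc.sep s t h])

omit [SMulCommClass G ℝ E] in
theorem Ctr.isOpenEmbedding (hc : Ctr G c) : IsOpenEmbedding (balls c) := by
  refine IsOpenEmbedding.of_continuous_injective_isOpenMap ?_ ?_ ?_
  · exact continuous_prod_of_discrete_left.2 fun i =>
      (LC.isOpenEmbedding_ballEmb (c i.val) (by norm_num)).continuous
  · rintro ⟨i, x⟩ ⟨j, y⟩ h
    have hij : i = j := by
      by_contra hne
      have h1 := balls_mem c (i, x)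
      have h2 := balls_mem c (j, y)
      rw [h] at h1
      exact Set.disjoint_left.1 (hc.disjoint (s := i.val) (t := j.val) hne) h1 h2
    subst hij
    have h3 : x = y := (LC.isOpenEmbedding_ballEmb (c i.val) (r := 1 / 2) (by norm_num)).injective h
    rw [h3]
  · exact isOpenMap_prod_of_discrete_left.2 fun i =>
      (LC.isOpenEmbedding_ballEmb (c i.val) (by norm_num)).isOpenMap

theorem Ctr.balls_smul (hc : Ctr G c) (g : G) (p : Ds T × E) : balls c (g • p) = g • balls c p := by
  change c (g • p.1.val) + (1 / 2 : ℝ) • OpenPartialHomeomorph.univUnitBall (g • p.2) =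
    g • (c p.1.val + (1 / 2 : ℝ) • OpenPartialHomeomorph.univUnitBall p.2)
  rw [OpenPartialHomeomorph.univUnitBall_apply, OpenPartialHomeomorph.univUnitBall_apply,
    hc.norm_smul, hc.smul, smul_add, smul_comm g, smul_comm g]

variable [FiniteDimensional ℝ E] [ContinuousConstSMul G E] [Finite T]

/-- the collapse onto the balls -/
noncomputable def ptS (hc : Ctr G c) : gsp G E ⟶ gds G T ⊗ gsp G E :=
  gOpen (X := E) (Y := Ds T × E) (balls c) hc.isOpenEmbedding hc.balls_smul ≫
    (gspTensor G (Ds T) E).inv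

theorem app_ptS (hc : Ctr G c) (p : Ds T × E) :
    app (ptS hc).hom ((balls c p : E) : OnePoint E) = (p : OnePoint (Ds T × E)) :=
  app_gOpen (X := E) (Y := Ds T × E) (balls c) hc.isOpenEmbedding hc.balls_smul p

theorem app_ptS_of_notMem (hc : Ctr G c) {x : E} (hx : x ∉ Set.range (balls c)) :
    app (ptS hc).hom (x : OnePoint E) = ∞ :=
  app_gOpen_of_notMem (X := E) (Y := Ds T × E) (balls c) hc.isOpenEmbedding hc.balls_smul hx

/-- the inclusion of a summand, for spaces -/
def dincS (t : T) (K : LC) : K ⟶ dsp T ⊗ K := (λ_ K).inv ≫ dpt t ▷ K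

theorem map_ptS {C : Type u'} [Category.{v'} C] [Preadditive C] {F : LC ⥤ C} (hF : SphFun F)
    [Fintype T] (hc : Ctr G c) : F.map (ptS hc).hom = ∑ t : T, F.map (dincS t (LC.of E)) := by
  have h2 : (0 : ℝ) < 1 / 2 := by norm_num
  rw [hF.map_sum (X := LC.of E) Finset.univ
    (g := fun t => collapseBall (c t) (1 / 2) h2 ≫ dincS t (LC.of E))
    (U := fun t => Metric.ball (c t) (1 / 2)) (fun i _ j _ hij => hc.disjoint hij) ?_ ?_ ?_]
  · refine Finset.sum_congr rfl fun t _ => ?_
    rw [F.map_comp, hF.htpy (LC.homotopic_collapseBall (c t) h2), F.map_id, Category.id_comp]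
  · intro t _ x hx
    obtain ⟨y, rfl⟩ := (LC.mem_range_ballEmb' (c t) h2).2 hx
    refine (app_ptS hc (Ds.mk t, y)).trans ?_
    rw [LC.app_comp]
    exact (congrArg (app (dincS t (LC.of E))) (LC.app_ofOpen_coe (X := LC.of E) (Y := LC.of E)
      (ballEmb (c t) (1 / 2)) (LC.isOpenEmbedding_ballEmb (c t) h2) y)).symm
  · intro t _ x hx
    rw [LC.app_comp, collapseBall, LC.app_ofOpen_of_notMem (X := LC.of E) (Y := LC.of E) _ _
      fun h => hx ((LC.mem_range_ballEmb' (c t) h2).1 h), LC.app_infty]
  · intro x hx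
    refine app_ptS_of_notMem hc ?_
    rintro ⟨p, rfl⟩
    exact hx p.1.val (Finset.mem_univ _) (balls_mem c p)

variable (M : Type u) [Category.{v} M] [MonoidalCategory M] [SymmetricCategory M]
  [MonoidalClosed M] [HasZeroMorphisms M] [HasColimitsOfSize.{0, 0} M] [StabInput M]

/-- the Pontryagin-Thom collapse `S^E ⟶ T₊ ⊗ S^E` -/
noncomputable def pt (hc : Ctr G c) :
    (JA G M).obj (gsp G E) ⟶ fset M G T ⊗ (JA G M).obj (gsp G E) :=
  (JA G M).map (ptS hc) ≫ δ (JA G M) (gds G T) (gsp G E)

/-- the transfer followed by the fold map -/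
noncomputable def theta (hc : Ctr G c) : (JA G M).obj (gsp G E) ⟶ (JA G M).obj (gsp G E) :=
  pt M hc ≫ fold T _

variable {M}

omit [MulAction G T] [Finite T] in
theorem map_dincS (t : T) (K : LC) :
    (J M).map (dincS t K) ≫ δ (J M) (dsp T) K = dinc t ((J M).obj K) := by
  rw [dincS, dinc, Functor.map_comp, Category.assoc, ← δ_natural_left, comp_whiskerRight,
    ← Category.assoc, ← Category.assoc]
  congr 1
  rw [← cancel_mono (μ (J M) (𝟙_ LC) K), Category.assoc, Category.assoc, Functor.Monoidal.δ_μ,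
    Category.comp_id, left_unitality_inv]

variable {C : Type u'} [Category.{v'} C] [Preadditive C] {F : M ⥤ C}

theorem map_pt (hF : SphFun (J M ⋙ F)) [Fintype T] (hc : Ctr G c) :
    F.map (pt M hc).hom = ∑ t : T, F.map (dinc t ((J M).obj (LC.of E))) := by
  have h := map_ptS hF hc
  rw [Functor.comp_map] at h
  rw [pt, Action.comp_hom, F.map_comp, mapA_map_hom, h, Preadditive.sum_comp]
  refine Finset.sum_congr rfl fun t _ => ?_
  rw [Functor.comp_map, ← F.map_comp]
  exact congrArg _ (map_dincS t _)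

theorem map_theta (hF : SphFun (J M ⋙ F)) (hc : Ctr G c) :
    F.map (theta M hc).hom = Nat.card T • 𝟙 _ := by
  have := Fintype.ofFinite T
  rw [theta, Action.comp_hom, F.map_comp, map_pt hF, Preadditive.sum_comp, Nat.card_eq_fintype_card,
    ← Finset.card_univ, ← Finset.sum_const]
  refine Finset.sum_congr rfl fun t _ => ?_
  rw [← F.map_comp]
  exact (congrArg _ (dinc_fold t ((JA G M).obj (gsp G E)))).trans (F.map_id _)

end generic

/-- real functions on a `G`-set -/
def GF (Ω : Type) : Type := Ω → ℝ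

namespace GF

variable {Ω : Type} [Finite Ω]

noncomputable instance : NormedAddCommGroup (GF Ω) :=
  letI := Fintype.ofFinite Ω
  inferInstanceAs (NormedAddCommGroup (Ω → ℝ))

noncomputable instance : NormedSpace ℝ (GF Ω) :=
  letI := Fintype.ofFinite Ω
  inferInstanceAs (NormedSpace ℝ (Ω → ℝ))

instance : FiniteDimensional ℝ (GF Ω) := inferInstanceAs (FiniteDimensional ℝ (Ω → ℝ))

theorem continuous_ap (i : Ω) : Continuous fun x : GF Ω => x i := continuous_apply i

theorem continuous_mk {Y : Type} [TopologicalSpace Y] {f : Y → GF Ω}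
    (h : ∀ i, Continuous fun y => f y i) : Continuous f := continuous_pi h

theorem abs_le_norm (x : GF Ω) (i : Ω) : |x i| ≤ ‖x‖ :=
  letI := Fintype.ofFinite Ω
  norm_le_pi_norm (G := fun _ : Ω => ℝ) x i

theorem norm_le {x : GF Ω} {r : ℝ} (hr : 0 ≤ r) (h : ∀ i, |x i| ≤ r) : ‖x‖ ≤ r :=
  letI := Fintype.ofFinite Ω
  (pi_norm_le_iff_of_nonneg (G := fun _ : Ω => ℝ) hr).2 h

variable [MulAction G Ω]

noncomputable instance : DistribMulAction G (GF Ω) where
  smul g x := fun i => x (g⁻¹ • i)
  one_smul x := funext fun i => congrArg x (by rw [inv_one, one_smul])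
  mul_smul g h x := funext fun i => congrArg x (by rw [mul_inv_rev, mul_smul])
  smul_zero _ := rfl
  smul_add _ _ _ := rfl

theorem smul_apply (g : G) (x : GF Ω) (i : Ω) : (g • x) i = x (g⁻¹ • i) := rfl

instance : SMulCommClass G ℝ (GF Ω) := ⟨fun _ _ _ => rfl⟩

instance : ContinuousConstSMul G (GF Ω) := ⟨fun g => continuous_mk fun i => continuous_ap (g⁻¹ • i)⟩

theorem norm_smul' (g : G) (x : GF Ω) : ‖g • x‖ = ‖x‖ := by
  have k : ∀ (g : G) (x : GF Ω), ‖g • x‖ ≤ ‖x‖ := fun g x =>
    norm_le (norm_nonneg x) fun i => abs_le_norm x _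
  refine le_antisymm (k g x) ?_
  simpa using k g⁻¹ (g • x)

end GF

variable {Ω : Type} [Finite Ω] [MulAction G Ω]

/-- the indicator function of a subset -/
noncomputable def ind (s : Set Ω) : GF Ω := s.indicator fun _ => (1 : ℝ)

theorem ctr_ind (s : T → Set Ω) (hs : Function.Injective s)
    (he : ∀ (g : G) t i, i ∈ s (g • t) ↔ g⁻¹ • i ∈ s t) : Ctr G fun t => ind (s t) where
  norm_smul := GF.norm_smul'
  smul g t := funext fun i => by
    classical
    rw [GF.smul_apply, ind, ind, Set.indicator_apply, Set.indicator_apply]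
    simp only [he]
  sep a b h := by
    classical
    obtain ⟨i, hi⟩ := not_forall.1 fun k => h (hs (Set.ext k))
    rw [dist_eq_norm]
    refine le_trans ?_ (GF.abs_le_norm _ i)
    change 1 ≤ |(s a).indicator (fun _ => (1 : ℝ)) i - (s b).indicator (fun _ => (1 : ℝ)) i|
    by_cases h1 : i ∈ s a <;> by_cases h2 : i ∈ s b <;> simp_all

/-- the fibres of an equivariant surjection are centres -/
theorem ctr_fibre (q : Ω → T) (hq : Function.Surjective q)
    (he : ∀ (g : G) i, q (g • i) = g • q i) : Ctr G fun t => ind (q ⁻¹' {t}) :=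
  ctr_ind (fun t => q ⁻¹' {t})
    (fun _ _ h => Set.singleton_injective (hq.preimage_injective h)) fun g t i => by
      rw [Set.mem_preimage, Set.mem_preimage, Set.mem_singleton_iff, Set.mem_singleton_iff, he,
        inv_smul_eq_iff]

theorem ctr_self : Ctr G fun t : Ω => ind (id ⁻¹' {t}) :=
  ctr_fibre id Function.surjective_id fun _ _ => rfl

theorem ctr_quot [Finite G] (K : Subgroup G) :
    Ctr G fun t : G ⧸ K => ind ((QuotientGroup.mk : G → G ⧸ K) ⁻¹' {t}) :=
  ctr_fibre _ QuotientGroup.mk_surjective fun _ _ => rfl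

/-- `G/P × T` is free if `P` is a `p`-group and no element of order `p` has a fixed point in `T` -/
theorem freeSet_quot {p : ℕ} (hp : p.Prime) {P : Subgroup G} (hP : IsPGroup p P)
    (h : ∀ g : G, orderOf g = p → ∀ t : T, g • t ≠ t) : FreeSet G ((G ⧸ P) × T) := by
  have := Fact.mk hp
  rintro g ⟨a, t⟩ e
  obtain ⟨e1, e2⟩ := Prod.ext_iff.1 e
  obtain ⟨a, rfl⟩ := QuotientGroup.mk_surjective a
  have h1 : a⁻¹ * g * a ∈ P := by
    have h2 := P.inv_mem (QuotientGroup.eq.1 e1)
    simpa [mul_assoc] using h2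
  obtain ⟨k, hk⟩ := IsPGroup.iff_orderOf.1 hP ⟨_, h1⟩
  rw [Subgroup.orderOf_mk] at hk
  have h3 : orderOf g = p ^ k := by
    rw [← hk]
    exact SemiconjBy.orderOf_eq a⁻¹ (by simp [SemiconjBy, mul_assoc])
  cases k with
  | zero => exact orderOf_eq_one_iff.1 h3
  | succ k =>
    refine absurd ?_ (h (g ^ p ^ k) ?_ t)
    · exact (MulAction.stabilizer G t).pow_mem e2 _
    · rw [orderOf_pow_of_dvd (pow_ne_zero _ hp.ne_zero) (h3 ▸ pow_dvd_pow p k.le_succ), h3,
        pow_succ, Nat.mul_div_cancel_left _ (pow_pos hp.pos _)]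

/-- a permutation of prime order `card ι` is transitive -/
theorem perm_trans {ι : Type} [Finite ι] (hp : (Nat.card ι).Prime) {g : Equiv.Perm ι}
    (hg : orderOf g = Nat.card ι) (a b : ι) : ∃ n : ℕ, (g ^ n) a = b := by
  classical
  have := Fintype.ofFinite ι
  rw [Nat.card_eq_fintype_card] at hp hg
  have hc := Equiv.Perm.isCycle_of_prime_order'' hp hg
  have hs : g.support = Finset.univ := Finset.eq_univ_of_card _ (hc.orderOf.symm.trans hg)
  have k : ∀ x, g x ≠ x := fun x => Equiv.Perm.mem_support.1 (hs ▸ Finset.mem_univ x)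
  exact hc.exists_pow_eq (k a) (k b)

/-- the prime factors of the index of a Sylow subgroup of the symmetric group -/
theorem lt_of_dvd_index {ι : Type} [Finite ι] {p q : ℕ} (hp : p.Prime) (hq : q.Prime)
    (h : Nat.card ι = p) (P : Sylow p (Equiv.Perm ι))
    (hd : q ∣ Nat.card (Equiv.Perm ι ⧸ (P : Subgroup (Equiv.Perm ι)))) : q < p := by
  have := Fact.mk hp
  have h1 : q ∣ p.factorial := by
    rw [← h, ← Nat.card_perm]
    exact hd.trans (Subgroup.index_dvd_card _)
  refine lt_of_le_of_ne (hq.dvd_factorial.1 h1) ?_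
  rintro rfl
  exact P.not_dvd_index hd

variable (G Ω) in
/-- the permutation representation -/
@[reducible] noncomputable def permRep : Action O G :=
  mkAct (O.of Ω) (fun g => O.mk (OH.ofEquiv
      ((O.ofEquiv Ω).symm.trans ((MulAction.toPerm g).trans (O.ofEquiv Ω)))))
    (O.mk_ext fun v => by
      rw [OH.ofEquiv_ap, OH.ofEquiv_ap]
      funext i
      simp)
    fun g h => O.mk_ext fun v => by
      rw [OH.comp_ap, OH.ofEquiv_ap, OH.ofEquiv_ap, OH.ofEquiv_ap]
      funext i
      simp [mul_smul]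

variable (Ω) in
/-- coordinates -/
noncomputable def gfHomeo : ((O.of Ω).El → ℝ) ≃ₜ GF Ω where
  toFun v := fun i => v (O.ofEquiv Ω i)
  invFun x := fun j => x ((O.ofEquiv Ω).symm j)
  left_inv v := funext fun j => congrArg v ((O.ofEquiv Ω).apply_symm_apply j)
  right_inv x := funext fun i => congrArg x ((O.ofEquiv Ω).symm_apply_apply i)
  continuous_toFun := GF.continuous_mk fun _ => continuous_apply _
  continuous_invFun := continuous_pi fun _ => GF.continuous_ap _

variable (G Ω) in
/-- the sphere of the permutation representation -/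
noncomputable def sphGF : (sphA G).obj (permRep G Ω) ≅ gsp G (GF Ω) :=
  Action.mkIso (LC.ofHomeo (X := O.V (O.of Ω)) (Y := LC.of (GF Ω)) (gfHomeo Ω)) fun g =>
    LC.hom_ext fun v => congrArg OnePoint.some (funext fun i => by
      change (OH.ofEquiv ((O.ofEquiv Ω).symm.trans ((MulAction.toPerm g).trans (O.ofEquiv Ω)))).ap
        v (O.ofEquiv Ω i) = v (O.ofEquiv Ω (g⁻¹ • i))
      rw [OH.ofEquiv_ap]
      simp)

/-- comparison with the model of block `Z` -/
noncomputable def fnGF (ι : Type) [Finite ι] :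
    gsp (Equiv.Perm ι) (Fn ι ℝ) ≅ gsp (Equiv.Perm ι) (GF ι) :=
  gHomeo (X := Fn ι ℝ) (Y := GF ι) (Homeomorph.refl (ι → ℝ)) fun _ _ => rfl

end Vale.Agent.P257.E
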