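import Vale.Agent.P257.E.Trf
import Vale.Agent.P257.K.Add

/-!
# P257, block E: functors out of stable categories

* `lift Φ h : SC D ⥤ C`, the universal property of `SC D`; monoidal, braided, additive;
* `DE M n : Stab M`: the stable category with `n` inverted;
* `DX D a ha : Stab (Action M G)`: the equivariant stable category in which `a` and `D.lam` are
  inverted; `tau : SC D ⥤ SC (DX D a ha)`, `rsA : SC (DX D a ha) ⥤ Action (SC D) G`.
-/

open CategoryTheory MonoidalCategory Limits Functor.LaxMonoidal Functor.OplaxMonoidal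

namespace Vale.Agent.P257.E

open Vale.Agent.P251.H Vale.Agent.P251.H.StabInput
open Vale.Agent.P251.M (IsInv)
open Vale.Agent.P251.G (LC)
open Vale.Agent.P251.G.LC (RR mfold)
open Vale.Agent.P257.K

universe v u v' u'

variable {M : Type u} [Category.{v} M] [MonoidalCategory M] [SymmetricCategory M]
  [MonoidalClosed M] [HasZeroMorphisms M] [HasColimitsOfSize.{0, 0} M] [StabInput M]

section lift

variable {D : Stab M} {C : Type u'} [Category.{v'} C]

theorem tk_tk (D : Stab M) (k : ℕ) (A : M) : Tk D.lam A (D.tk k A) := by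
  induction k with
  | zero => exact .id
  | succ k ih => exact ih.succ

theorem isLoc (D : Stab M) : IsLoc D.lam (st D) where
  htpy := SC.st_htpy
  iso A := inferInstanceAs (IsIso ((st D).map (D.t A)))
  surj x := by
    obtain ⟨k, f, h⟩ := SC.exists_frac x
    exact ⟨_, _, f, tk_tk D k _, h⟩
  inj h := by
    obtain ⟨k, h⟩ := (SC.st_eq_iff _ _).1 h
    exact ⟨_, _, tk_tk D k _, h⟩

/-- the universal property of the stable category -/
@[implicit_reducible] noncomputable def lift (Φ : M ⥤ C) (h : Inv D.lam Φ) : SC D ⥤ C where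
  obj X := Φ.obj X.obj
  map {X Y} x := (isLoc D).lft h (A := X.obj) (X := Y.obj) x
  map_id X := (isLoc D).lft_id h X.obj
  map_comp {X Y Z} x y := (isLoc D).lft_comp h (A := X.obj) (X := Y.obj) (Y := Z.obj) x y

variable {Φ : M ⥤ C} (h : Inv D.lam Φ)

theorem lift_obj (X : SC D) : (lift Φ h).obj X = Φ.obj X.obj := rfl

@[simp] theorem lift_st {A B : M} (f : A ⟶ B) : (lift Φ h).map ((st D).map f) = Φ.map f :=
  (isLoc D).lft_map h f

/-- the factorization -/
noncomputable def liftIso : st D ⋙ lift Φ h ≅ Φ :=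
  NatIso.ofComponents (fun _ => Iso.refl _) fun f =>
    (Category.comp_id _).trans ((lift_st h f).trans (Category.id_comp _).symm)

theorem lift_additive [Preadditive C] [Φ.PreservesZeroMorphisms]
    (k : ∀ A : M, IsSum fun b => Φ.map (Sigma.ι (fun _ : Bool => A) b)) : (lift Φ h).Additive :=
  SC.additive_of _ (fun _ _ => by rw [lift_st, Φ.map_zero]) fun A => by
    simpa only [lift_st] using k A

variable [MonoidalCategory C] [Φ.Monoidal]

theorem lift_μ_left {X Y : SC D} (x : X ⟶ Y) (Z : SC D) :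
    (lift Φ h).map x ▷ Φ.obj Z.obj ≫ μ Φ Y.obj Z.obj =
      μ Φ X.obj Z.obj ≫ (lift Φ h).map (x ▷ Z) :=
  SC.nat_of_st (lift Φ h ⋙ tensorRight (Φ.obj Z.obj)) (tensorRight Z ⋙ lift Φ h)
    (fun X => μ Φ X.obj Z.obj) (fun f => by
      change (lift Φ h).map ((st D).map f) ▷ Φ.obj Z.obj ≫ _ =
        _ ≫ (lift Φ h).map ((st D).map f ▷ (st D).obj Z.obj)
      rw [← SC.st_whiskerRight, lift_st, lift_st]
      exact μ_natural_left Φ f Z.obj) x

theorem lift_μ_right (Z : SC D) {X Y : SC D} (x : X ⟶ Y) :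
    Φ.obj Z.obj ◁ (lift Φ h).map x ≫ μ Φ Z.obj Y.obj =
      μ Φ Z.obj X.obj ≫ (lift Φ h).map (Z ◁ x) :=
  SC.nat_of_st (lift Φ h ⋙ tensorLeft (Φ.obj Z.obj)) (tensorLeft Z ⋙ lift Φ h)
    (fun X => μ Φ Z.obj X.obj) (fun f => by
      change Φ.obj Z.obj ◁ (lift Φ h).map ((st D).map f) ≫ _ =
        _ ≫ (lift Φ h).map ((st D).obj Z.obj ◁ (st D).map f)
      rw [← SC.st_whiskerLeft, lift_st, lift_st]
      exact μ_natural_right Φ Z.obj f) x

/-- the monoidal structure -/
noncomputable def liftCore : (lift Φ h).CoreMonoidal where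
  εIso := Functor.Monoidal.εIso Φ
  μIso X Y := Functor.Monoidal.μIso Φ X.obj Y.obj
  μIso_hom_natural_left := lift_μ_left h
  μIso_hom_natural_right Z := lift_μ_right h Z
  associativity X Y Z := by
    have := Functor.LaxMonoidal.associativity Φ X.obj Y.obj Z.obj
    rwa [← lift_st h] at this
  left_unitality X := by
    have := Functor.LaxMonoidal.left_unitality Φ X.obj
    rwa [← lift_st h] at this
  right_unitality X := by
    have := Functor.LaxMonoidal.right_unitality Φ X.obj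
    rwa [← lift_st h] at this

noncomputable instance : (lift Φ h).Monoidal := (liftCore h).toMonoidal

theorem lift_ε : ε (lift Φ h) = ε Φ := rfl

theorem lift_η : η (lift Φ h) = η Φ := rfl

theorem lift_μ (X Y : SC D) : μ (lift Φ h) X Y = μ Φ X.obj Y.obj := rfl

theorem lift_δ (X Y : SC D) : δ (lift Φ h) X Y = δ Φ X.obj Y.obj := rfl

end lift

noncomputable instance {D : Stab M} {C : Type u'} [Category.{v'} C] [MonoidalCategory C]
    [BraidedCategory C] {Φ : M ⥤ C} [Φ.Braided] (h : Inv D.lam Φ) : (lift Φ h).Braided where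
  braided X Y := by
    have := Functor.LaxBraided.braided (F := Φ) X.obj Y.obj
    rwa [← lift_st h] at this

section nsmul

variable {C : Type u'} [Category.{v'} C] [Preadditive C] {X : C}

theorem isIso_nsmul_mul {m n : ℕ} (h : IsIso (m • 𝟙 X)) (k : IsIso (n • 𝟙 X)) :
    IsIso ((m * n) • 𝟙 X) := by
  rw [show (m * n) • 𝟙 X = (m • 𝟙 X) ≫ (n • 𝟙 X) by
    rw [Preadditive.nsmul_comp, Category.id_comp, smul_smul]]
  infer_instance

theorem isIso_nsmul_of_dvd {m n : ℕ} (h : IsIso (n • 𝟙 X)) (k : m ∣ n) : IsIso (m • 𝟙 X) := by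
  obtain ⟨d, rfl⟩ := k
  have e1 : (m • 𝟙 X) ≫ (d • 𝟙 X) = (m * d) • 𝟙 X := by
    rw [Preadditive.nsmul_comp, Category.id_comp, smul_smul]
  have e2 : (d • 𝟙 X) ≫ (m • 𝟙 X) = (m * d) • 𝟙 X := by
    rw [Preadditive.nsmul_comp, Category.id_comp, smul_smul, mul_comm]
  have : IsIso ((m • 𝟙 X) ≫ (d • 𝟙 X)) := e1 ▸ h
  have : IsIso ((d • 𝟙 X) ≫ (m • 𝟙 X)) := e2 ▸ h
  exact isIso_of_comp_comp _ (d • 𝟙 X) (d • 𝟙 X)

theorem isIso_nsmul_of_primes {m : ℕ} (hm : m ≠ 0)
    (h : ∀ q : ℕ, q.Prime → q ∣ m → IsIso (q • 𝟙 X)) : IsIso (m • 𝟙 X) := by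
  induction m using Nat.recOnPrimeCoprime with
  | zero => exact absurd rfl hm
  | prime_pow q k hq =>
    induction k with
    | zero => rw [pow_zero, one_smul]; infer_instance
    | succ k ih =>
      rw [pow_succ]
      exact isIso_nsmul_mul (ih (pow_ne_zero _ hq.ne_zero) fun r hr e =>
        h r hr (e.trans (pow_dvd_pow q k.le_succ))) (h q hq (dvd_pow_self q k.succ_ne_zero))
  | coprime a b ha hb _ iha ihb =>
    exact isIso_nsmul_mul (iha (by omega) fun r hr e => h r hr (e.mul_right b))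
      (ihb (by omega) fun r hr e => h r hr (e.mul_left a))

theorem isIso_nsmul_of_unit [MonoidalCategory C] [MonoidalPreadditive C] {m : ℕ}
    (h : IsIso (m • 𝟙 (𝟙_ C))) (X : C) : IsIso (m • 𝟙 X) := by
  have e : m • 𝟙 X = (λ_ X).inv ≫ (m • 𝟙 (𝟙_ C)) ▷ X ≫ (λ_ X).hom := by
    rw [show (m • 𝟙 (𝟙_ C)) ▷ X = m • 𝟙 (𝟙_ C) ▷ X from (tensorRight X).map_nsmul]
    simp
  rw [e]
  infer_instance

end nsmul

section DE

variable (M) in
/-- the stabilization in which `n` is inverted -/
@[implicit_reducible] noncomputable def DE (n : ℕ) : Stab M :=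
  (Stab.std M).twist (L ◁ (J M).map (mfold n))

theorem DE_L (n : ℕ) : (DE M n).L = L := rfl

theorem DE_lam (n : ℕ) : (DE M n).lam = L ◁ (J M).map (mfold n) ≫ (Stab.std M).lam := rfl

theorem st_whiskerLeft_mfold (D : Stab M) (X : M) (n : ℕ) :
    (st D).map (X ◁ (J M).map (mfold n)) = n • 𝟙 _ := by
  have h : (st D).map ((J M).map (mfold n)) = n • 𝟙 _ := (SC.sphFun D).map_mfold n
  rw [SC.st_whiskerLeft, h]
  exact ((tensorLeft ((st D).obj X)).map_nsmul).trans
    (congrArg (n • ·) (MonoidalCategory.whiskerLeft_id _ _))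

variable {n : ℕ}

theorem st_DE_lam (D : Stab M) : (st D).map (DE M n).lam = n • (st D).map (Stab.std M).lam := by
  change (st D).map (L ◁ (J M).map (mfold n) ≫ (Stab.std M).lam) = _
  rw [Functor.map_comp, st_whiskerLeft_mfold, Preadditive.nsmul_comp, Category.id_comp]

theorem isIso_std_lam (D : Stab M) [h : IsIso ((st D).map (DE M n).lam)] :
    IsIso ((st D).map (Stab.std M).lam) :=
  Rot.isIso_map (st D) SC.st_htpy (Stab.std M).rot (L ◁ (J M).map (mfold n)) (h := h)

theorem isIso_nsmul_of_DE (D : Stab M) [h : IsIso ((st D).map (DE M n).lam)] (X : SC D) :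
    IsIso (n • 𝟙 X) := by
  have := isIso_std_lam (n := n) D
  refine isIso_nsmul_of_unit ?_ X
  have e : n • 𝟙 (𝟙_ (SC D)) = inv ((st D).map (Stab.std M).lam) ≫ (st D).map (DE M n).lam := by
    rw [st_DE_lam, Preadditive.comp_nsmul, IsIso.inv_hom_id]
    rfl
  rw [e]
  infer_instance

instance : IsIso ((st (DE M n)).map (Stab.std M).lam) := isIso_std_lam (n := n) _

theorem isIso_nsmul_DE {m : ℕ} (hm : m ≠ 0) (h : ∀ q : ℕ, q.Prime → q ∣ m → q ∣ n)
    (X : SC (DE M n)) : IsIso (m • 𝟙 X) :=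
  isIso_nsmul_of_primes hm fun q hq e =>
    isIso_nsmul_of_dvd (isIso_nsmul_of_DE (n := n) _ X) (h q hq e)

/-- the product of the primes `q < p ^ 2`, `q ≠ p` -/
def n0 (p : ℕ) : ℕ := ∏ q ∈ (Finset.range (p ^ 2)).filter fun q => q.Prime ∧ q ≠ p, q

theorem dvd_n0 {p q : ℕ} (hq : q.Prime) (h : q < p ^ 2) (k : q ≠ p) : q ∣ n0 p :=
  Finset.dvd_prod_of_mem _ (Finset.mem_filter.2 ⟨Finset.mem_range.2 h, hq, k⟩)

theorem coprime_n0 {p : ℕ} (hp : p.Prime) : p.Coprime (n0 p) :=
  Nat.Coprime.prod_right fun _ hq => (Nat.coprime_primes hp (Finset.mem_filter.1 hq).2.1).2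
    (Finset.mem_filter.1 hq).2.2.symm

theorem n0_ne_zero (p : ℕ) : n0 p ≠ 0 :=
  Finset.prod_ne_zero_iff.2 fun _ hq => (Finset.mem_filter.1 hq).2.1.ne_zero

theorem isIso_nsmul_n0 {p m : ℕ} (hm : m ≠ 0) (h : ∀ q : ℕ, q.Prime → q ∣ m → q < p ^ 2 ∧ q ≠ p)
    (X : SC (DE M (n0 p))) : IsIso (m • 𝟙 X) :=
  isIso_nsmul_DE hm (fun q hq e => dvd_n0 hq (h q hq e).1 (h q hq e).2) X

theorem isIso_nsmul_lt {p m : ℕ} (hm : m ≠ 0) (h : m < p ^ 2) (k : ¬ p ∣ m)
    (X : SC (DE M (n0 p))) : IsIso (m • 𝟙 X) :=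
  isIso_nsmul_n0 hm (fun _ _ e => ⟨(Nat.le_of_dvd (Nat.pos_of_ne_zero hm) e).trans_lt h,
    fun l => k (l ▸ e)⟩) X

end DE

theorem isSum_of_hom {G : Type} [Group G] {C : Type u'} [Category.{v'} C] {ι : Type}
    {X : ι → Action C G} {W : Action C G} {i : ∀ k, X k ⟶ W} (h : IsSum fun k => (i k).hom) :
    IsSum i := by
  refine ⟨fun f => ?_, fun e => Action.hom_ext _ _ (h.ext fun k =>
    congrArg Action.Hom.hom (e k))⟩
  obtain ⟨g, hg⟩ := h.desc fun k => (f k).hom
  refine ⟨mkHom g fun s => h.ext fun k => ?_, fun k => Action.hom_ext _ _ (hg k)⟩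
  rw [← act_comm_assoc, hg, reassoc_of% hg k, act_comm]

instance {G : Type} [Group G] {C : Type u} [Category.{v} C] [HasZeroMorphisms C] {C' : Type u'}
    [Category.{v'} C'] [HasZeroMorphisms C'] (F : C ⥤ C') [F.PreservesZeroMorphisms] :
    (mapA F G).PreservesZeroMorphisms :=
  ⟨fun _ _ => Action.hom_ext _ _ (F.map_zero _ _)⟩

section DX

variable {G : Type} [Group G] (D : Stab M) {U : Action M G} (a : U ⟶ 𝟙_ _) (ha : Rot a)

variable (G) in
/-- the structure map with the trivial action -/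
noncomputable def lamT : (triv G).obj D.L ⊗ S (Action M G) ⟶ 𝟙_ _ :=
  μ (triv G) D.L (S M) ≫ (triv G).map D.lam ≫ η (triv G)

theorem lamT_hom : (lamT G D).hom = D.lam :=
  (Category.id_comp _).trans (Category.comp_id _)

theorem rot_lamT : Rot (lamT G D) :=
  (Rot.triv (G := G) D.rot).of_iso (Functor.Monoidal.μIso (triv G) D.L (S M))

/-- the equivariant stabilization in which `a` and `D.lam` are inverted -/
@[implicit_reducible] noncomputable def DX : Stab (Action M G) where
  L := U ⊗ (triv G).obj D.L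
  lam := (α_ U _ _).hom ≫ tt a _ ≫ lamT G D
  rot := (ha.tensor (rot_lamT D)).of_iso (α_ U _ _)

theorem DX_L : (DX D a ha).L = U ⊗ (triv G).obj D.L := rfl

theorem DX_lam : (DX D a ha).lam = (α_ U _ _).hom ≫ tt a _ ≫ lamT G D := rfl

instance : IsIso ((st (DX D a ha)).map (lamT G D)) :=
  Rot.isIso_map _ SC.st_htpy (rot_lamT D) ((α_ U _ _).hom ≫ tt a _) (h := by
    rw [Category.assoc]
    exact inferInstanceAs (IsIso ((st (DX D a ha)).map (DX D a ha).lam)))

instance : IsIso ((st (DX D a ha)).map a) :=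
  Rot.isIso_map _ SC.st_htpy ha ((α_ U _ _).hom ≫ U ◁ lamT G D ≫ (ρ_ U).hom) (h := by
    rw [Category.assoc, ← tt_comp_eq]
    exact inferInstanceAs (IsIso ((st (DX D a ha)).map (DX D a ha).lam)))

theorem inv_triv : Inv D.lam (triv G ⋙ st (DX D a ha)) := by
  have h : IsIso ((st (DX D a ha)).map (lamT G D)) := inferInstance
  rw [lamT, Functor.map_comp, Functor.map_comp] at h
  have := IsIso.of_isIso_comp_left ((st (DX D a ha)).map (μ (triv G) D.L (S M)))
    ((st (DX D a ha)).map ((triv G).map D.lam) ≫ (st (DX D a ha)).map (η (triv G)))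
  have : IsIso ((triv G ⋙ st (DX D a ha)).map D.lam) :=
    IsIso.of_isIso_comp_right ((st (DX D a ha)).map ((triv G).map D.lam))
      ((st (DX D a ha)).map (η (triv G)))
  exact Inv.of_monoidal fun h => SC.st_htpy (mHtpy_triv h)

/-- objects with the trivial action -/
noncomputable abbrev tau : SC D ⥤ SC (DX D a ha) := lift _ (inv_triv D a ha)

theorem tau_st {A B : M} (f : A ⟶ B) :
    (tau D a ha).map ((st D).map f) = (st (DX D a ha)).map ((triv G).map f) := lift_st _ f

instance : (tau D a ha).Additive :=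
  lift_additive _ fun A => (isSum_of_hom (i := fun b => (triv G).map (Sigma.ι (fun _ : Bool => A) b))
    (IsSum.sigma fun _ : Bool => A)).st _

variable [hi : IsIso ((st D).map a.hom)]

theorem resData : ResData (DX D a ha).lam D.lam (st (DX D a ha)) (st D) where
  locH := isLoc _
  locE := isLoc _
  iso A := by
    have : IsIso ((st D).map (DX D a ha).lam.hom) := by
      change IsIso ((st D).map ((α_ U _ _).hom ≫ tt a _ ≫ lamT G D).hom)
      rw [Action.comp_hom, Action.comp_hom, tt_hom, lamT_hom, Functor.map_comp, Functor.map_comp]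
      infer_instance
    infer_instance
  fac := ⟨((α_ U _ _).hom ≫ tt a _).hom, MHtpy.of_eq (by
    change _ = ((α_ U _ _).hom ≫ tt a _ ≫ lamT G D).hom
    rw [Action.comp_hom, Action.comp_hom, Action.comp_hom, lamT_hom]
    exact Category.assoc _ _ _)⟩

theorem inv_mapA : Inv (DX D a ha).lam (mapA (st D) G) :=
  ⟨fun h => Action.hom_ext _ _ (SC.st_htpy (mHtpy_hom h)), fun A => by
    have : IsIso ((mapA (st D) G).map (tt (DX D a ha).lam A)).hom := (resData D a ha).inv.iso A
    infer_instance⟩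

/-- restriction to the trivial group, with the action -/
noncomputable abbrev rsA : SC (DX D a ha) ⥤ Action (SC D) G := lift _ (inv_mapA D a ha)

theorem rsA_st {A B : Action M G} (f : A ⟶ B) :
    (rsA D a ha).map ((st _).map f) = (mapA (st D) G).map f := lift_st _ f

theorem rsA_st_hom {A B : Action M G} (f : A ⟶ B) :
    ((rsA D a ha).map ((st _).map f)).hom = (st D).map f.hom := by rw [rsA_st]; rfl

theorem rsA_obj_V (X : SC (DX D a ha)) : ((rsA D a ha).obj X).V = (st D).obj X.obj.V := rfl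

theorem act_rsA (X : SC (DX D a ha)) (g : G) :
    act ((rsA D a ha).obj X) g = (st D).map (act X.obj g) := rfl

theorem rsA_hom {A B : Action M G} (x : (st (DX D a ha)).obj A ⟶ (st (DX D a ha)).obj B) :
    ((rsA D a ha).map x).hom = (resData D a ha).rs x :=
  (isLoc _).eq_lft (resData D a ha).inv (fun x => ((rsA D a ha).map x).hom)
    (fun f => rsA_st_hom D a ha f)
    (fun f y => by rw [Functor.map_comp, Action.comp_hom, rsA_st_hom]; rfl) x

instance : (rsA D a ha).Additive :=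
  lift_additive _ fun A =>
    isSum_of_hom (((IsSum.sigma fun _ : Bool => A).map (Action.forget M G)).st D)

theorem rsA_tau_hom {X Y : SC D} (y : X ⟶ Y) :
    ((rsA D a ha).map ((tau D a ha).map y)).hom = y := by
  have h := SC.nat_of_st (tau D a ha ⋙ rsA D a ha ⋙ Action.forget _ G) (𝟭 _) (fun X => 𝟙 X)
    (fun f => (Category.comp_id _).trans (Eq.trans (by
      change ((rsA D a ha).map ((tau D a ha).map ((st D).map f))).hom = (st D).map f
      rw [tau_st, rsA_st_hom]) (Category.id_comp _).symm)) y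
  exact (Category.comp_id _).symm.trans (h.trans (Category.id_comp _))

theorem act_rsA_tau (X : SC D) (g : G) : act ((rsA D a ha).obj ((tau D a ha).obj X)) g = 𝟙 _ :=
  (st D).map_id X.obj

/-- the restriction of an object with trivial action -/
noncomputable def tauRsA : tau D a ha ⋙ rsA D a ha ≅ triv G :=
  NatIso.ofComponents (fun X => mapATriv G (st D) X.obj) fun y => Action.hom_ext _ _
    ((Category.comp_id _).trans ((rsA_tau_hom D a ha y).trans (Category.id_comp _).symm))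

theorem tauRsA_hom_hom (X : SC D) : ((tauRsA D a ha).hom.app X).hom = 𝟙 X := rfl

theorem tauRsA_inv_hom (X : SC D) : ((tauRsA D a ha).inv.app X).hom = 𝟙 X := rfl

@[simp] theorem rsA_ε_hom : (ε (rsA D a ha)).hom = 𝟙 (𝟙_ (SC D)) := rfl

@[simp] theorem rsA_η_hom : (η (rsA D a ha)).hom = 𝟙 (𝟙_ (SC D)) := rfl

@[simp] theorem rsA_μ_hom (X Y : SC (DX D a ha)) :
    (μ (rsA D a ha) X Y).hom = 𝟙 ((st D).obj (X.obj.V ⊗ Y.obj.V)) := rfl

@[simp] theorem rsA_δ_hom (X Y : SC (DX D a ha)) :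
    (δ (rsA D a ha) X Y).hom = 𝟙 ((st D).obj (X.obj.V ⊗ Y.obj.V)) := rfl

theorem rsA_whiskerRight_hom {X Y : SC (DX D a ha)} (x : X ⟶ Y) (Z : SC (DX D a ha)) :
    ((rsA D a ha).map (x ▷ Z)).hom = ((rsA D a ha).map x).hom ▷ (st D).obj Z.obj.V := by
  rw [Functor.Monoidal.map_whiskerRight, Action.comp_hom, Action.comp_hom, Action.whiskerRight_hom]
  exact (Category.id_comp _).trans (Category.comp_id _)

theorem rsA_whiskerLeft_hom (Z : SC (DX D a ha)) {X Y : SC (DX D a ha)} (x : X ⟶ Y) :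
    ((rsA D a ha).map (Z ◁ x)).hom = (st D).obj Z.obj.V ◁ ((rsA D a ha).map x).hom := by
  rw [Functor.Monoidal.map_whiskerLeft, Action.comp_hom, Action.comp_hom, Action.whiskerLeft_hom]
  exact (Category.id_comp _).trans (Category.comp_id _)

variable {D a ha} {X Y : SC (DX D a ha)}

/-- **T0a** -/
theorem rsA_inj_free (hY : Free Y.obj) {x y : Y ⟶ X}
    (e : ((rsA D a ha).map x).hom = ((rsA D a ha).map y).hom) : x = y :=
  (resData D a ha).inj_free (A := Y.obj) (X := X.obj) hY
    ((rsA_hom D a ha x).symm.trans (e.trans (rsA_hom D a ha y)))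

/-- **T0** -/
theorem rsA_inj_trf {T : Type} [MulAction G T] [Finite T] {S : Action M G}
    [IsInv ((st (DX D a ha)).obj S)] (p : S ⟶ fset M G T ⊗ S)
    [IsIso ((st (DX D a ha)).map (p ≫ fold T S))] (hY : Free (fset M G T ⊗ Y.obj)) {x y : Y ⟶ X}
    (e : ((rsA D a ha).map x).hom = ((rsA D a ha).map y).hom) : x = y :=
  (resData D a ha).inj_of_trf (B := Y.obj) (X := X.obj) p hY
    ((rsA_hom D a ha x).symm.trans (e.trans (rsA_hom D a ha y)))

variable (X Y) in
/-- **T1** -/
theorem rsA_bijective [Finite G] : Function.Bijective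
    fun x : (st (DX D a ha)).obj (fset M G G) ⊗ Y ⟶ X =>
      (st D).map (dinc (1 : G) Y.obj.V) ≫ ((rsA D a ha).map x).hom := by
  have h := (resData D a ha).ev_bijective Y.obj X.obj
  rwa [show (resData D a ha).ev (Y := Y.obj) (X := X.obj) = _ from
    funext fun x => congrArg (_ ≫ ·) (rsA_hom D a ha x).symm] at h

theorem rsA_trf {T : Type} [MulAction G T] [Fintype T] {S : Action M G}
    [IsInv ((st (DX D a ha)).obj S)] [IsInv ((st D).obj S.V)] (p : S ⟶ fset M G T ⊗ S)
    (hp : (st D).map p.hom = ∑ t : T, (st D).map (dinc t S.V)) :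
    ∃ τ : 𝟙_ (SC (DX D a ha)) ⟶ (st _).obj (fset M G T),
      (λ_ _).inv ≫ τ ▷ (st _).obj S = (st _).map p ∧ ∀ B : SC (DX D a ha),
        ((rsA D a ha).map ((λ_ B).inv ≫ τ ▷ B)).hom = ∑ t : T, (st D).map (dinc t B.obj.V) := by
  obtain ⟨τ, h1, h2⟩ := (resData D a ha).exists_trf p hp
  have k : ∀ B : Action M G, xt (st (DX D a ha)) τ B = (λ_ _).inv ≫ τ ▷ (st _).obj B := fun B =>
    congrArg (_ ≫ ·) ((Category.comp_id _).trans (congrArg (· ▷ _) (Category.id_comp τ)))
  exact ⟨τ, (k S).symm.trans h1, fun B =>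
    (rsA_hom D a ha _).trans ((congrArg _ (k B.obj).symm).trans (h2 B.obj))⟩

end DX

end Vale.Agent.P257.E
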