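import Vale.Agent.P257.E.JA
import Vale.Agent.P251.H.RotAbs

/-!
# P257, block E: the rotation homotopy for `G`-spaces

`Rot lam`: the two maps `lam ▷ U`, `U ◁ lam : U ⊗ U ⟶ U` are homotopic.  `rot_of_JA`: the
reduction of `Rot` for `L ⊗ W` (`W` a `G`-space) to a family `(L ⊗ L) ⊗ (W ⊗ I) ⟶ L`.
-/

open CategoryTheory MonoidalCategory Limits Functor.LaxMonoidal Functor.OplaxMonoidal

namespace Vale.Agent.P257.E

open Vale.Agent.P251.H Vale.Agent.P251.H.StabInput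
open Vale.Agent.P251.G (LC)
open Vale.Agent.P251.G.LC (RR II HH app smash incl point)

universe v u v' u'

section generic

variable {C : Type u'} [Category.{v'} C] [MonoidalCategory C]
  {M : Type u} [Category.{v} M] [MonoidalCategory M]

/-- the inclusion `X ⟶ X ⊗ I` given by a point of `I` -/
def pinc {I : C} (p : 𝟙_ C ⟶ I) (X : C) : X ⟶ X ⊗ I := (ρ_ X).inv ≫ X ◁ p

@[reassoc]
theorem pinc_naturality {I : C} (p : 𝟙_ C ⟶ I) {X Y : C} (f : X ⟶ Y) :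
    pinc p X ≫ f ▷ I = f ≫ pinc p Y := by
  simp only [pinc, Category.assoc]
  rw [whisker_exchange, rightUnitor_inv_naturality_assoc]

@[reassoc]
theorem pinc_tensor {I : C} (p : 𝟙_ C ⟶ I) (A B : C) :
    pinc p (A ⊗ B) ≫ (α_ A B I).hom = A ◁ pinc p B := by
  simp only [pinc]
  monoidal

@[reassoc]
theorem pinc_whiskerLeft {I I' : C} (p : 𝟙_ C ⟶ I) (f : I ⟶ I') (X : C) :
    pinc p X ≫ X ◁ f = pinc (p ≫ f) X := by
  simp only [pinc, Category.assoc, MonoidalCategory.whiskerLeft_comp]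

@[reassoc]
theorem pinc_μ (j : C ⥤ M) [j.LaxMonoidal] {I : C} (p : 𝟙_ C ⟶ I) (K : C) :
    pinc (ε j ≫ j.map p) (j.obj K) ≫ μ j K I = j.map (pinc p K) := by
  have h : (ρ_ (j.obj K)).inv ≫ j.obj K ◁ ε j ≫ μ j K (𝟙_ C) = j.map (ρ_ K).inv :=
    (right_unitality_inv j K)
  rw [pinc, pinc, Functor.map_comp, ← h]
  simp only [MonoidalCategory.whiskerLeft_comp, Category.assoc]
  rw [μ_natural_right]

variable [SymmetricCategory C] [SymmetricCategory M]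

/-- The rotation homotopy from a family `G`, for an arbitrary category of spaces. -/
theorem rot_of_gen (j : C ⥤ M) [j.Braided] {W I : C} (p₀ p₁ : 𝟙_ C ⟶ I) (L : M)
    (lam : L ⊗ j.obj W ⟶ 𝟙_ M) (R : (W ⊗ W) ⊗ I ⟶ (W ⊗ I) ⊗ W) (neg : W ⟶ W)
    (hneg : neg ≫ neg = 𝟙 W) (hR0 : pinc p₀ (W ⊗ W) ≫ R = pinc p₀ W ▷ W)
    (hR1 : pinc p₁ (W ⊗ W) ≫ R = (β_ W W).hom ≫ (neg ≫ pinc p₁ W) ▷ W)
    (G : (L ⊗ L) ⊗ j.obj (W ⊗ I) ⟶ L)
    (h0 : (L ⊗ L) ◁ j.map (pinc p₀ W) ≫ G = contr₁ L lam)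
    (h1 : (L ⊗ L) ◁ j.map (pinc p₁ W) ≫ G = (L ⊗ L) ◁ j.map neg ≫ contr₂ L lam) :
    ∃ K : ((L ⊗ j.obj W) ⊗ (L ⊗ j.obj W)) ⊗ j.obj I ⟶ L ⊗ j.obj W,
      pinc (ε j ≫ j.map p₀) _ ≫ K = lam ▷ (L ⊗ j.obj W) ≫ (λ_ (L ⊗ j.obj W)).hom ∧
      pinc (ε j ≫ j.map p₁) _ ≫ K = (L ⊗ j.obj W) ◁ lam ≫ (ρ_ (L ⊗ j.obj W)).hom := by
  have key : ∀ p : 𝟙_ C ⟶ I, pinc (ε j ≫ j.map p) ((L ⊗ j.obj W) ⊗ (L ⊗ j.obj W)) ≫
      (rearr L ▷ j.obj I ≫ (α_ (L ⊗ L) (j.obj W ⊗ j.obj W) (j.obj I)).hom ≫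
        (L ⊗ L) ◁ (μ j W W ▷ j.obj I ≫ μ j (W ⊗ W) I ≫ j.map R ≫
          δ j (W ⊗ I) W) ≫ (α_ (L ⊗ L) (j.obj (W ⊗ I)) (j.obj W)).inv ≫ G ▷ j.obj W) =
      rearr L ≫ (L ⊗ L) ◁ (μ j W W ≫ j.map (pinc p (W ⊗ W) ≫ R) ≫
        δ j (W ⊗ I) W) ≫ (α_ (L ⊗ L) (j.obj (W ⊗ I)) (j.obj W)).inv ≫
          G ▷ j.obj W := by
    intro p
    rw [pinc_naturality_assoc, pinc_tensor_assoc, ← MonoidalCategory.whiskerLeft_comp_assoc,
      pinc_naturality_assoc, pinc_μ_assoc, Functor.map_comp, Category.assoc]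
  have hδ : ∀ f : W ⟶ W ⊗ I, μ j W W ≫ j.map (f ▷ W) ≫ δ j (W ⊗ I) W =
      j.map f ▷ j.obj W := by
    intro f
    rw [← μ_natural_left_assoc, Functor.Monoidal.μ_δ, Category.comp_id]
  refine ⟨_, (key p₀).trans ?_, (key p₁).trans ?_⟩
  · rw [hR0, hδ, associator_inv_naturality_middle_assoc, ← comp_whiskerRight, h0]
    exact rearr_contr₁ L lam
  · have h2 : (L ⊗ L) ◁ j.map (neg ≫ pinc p₁ W) ≫ G = contr₂ L lam := by
      rw [Functor.map_comp, MonoidalCategory.whiskerLeft_comp, Category.assoc, h1,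
        ← MonoidalCategory.whiskerLeft_comp_assoc, ← Functor.map_comp, hneg,
        CategoryTheory.Functor.map_id, MonoidalCategory.whiskerLeft_id, Category.id_comp]
    have hβ : μ j W W ≫ j.map (pinc p₁ (W ⊗ W) ≫ R) ≫ δ j (W ⊗ I) W =
        (β_ (j.obj W) (j.obj W)).hom ≫ j.map (neg ≫ pinc p₁ W) ▷ j.obj W := by
      rw [hR1, Functor.map_comp, Category.assoc, Functor.LaxBraided.braided_assoc, hδ]
    rw [hβ, MonoidalCategory.whiskerLeft_comp_assoc, associator_inv_naturality_middle_assoc,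
      ← comp_whiskerRight, h2]
    exact rearr_contr₂ L lam

end generic

variable {M : Type u} [Category.{v} M] [MonoidalCategory M] [SymmetricCategory M]
  [MonoidalClosed M] [HasZeroMorphisms M] [HasColimitsOfSize.{0, 0} M] [StabInput M]

/-- The two maps `U ⊗ U ⟶ U` induced by `lam : U ⟶ 𝟙` are homotopic. -/
def Rot {U : M} (lam : U ⟶ 𝟙_ M) : Prop :=
  MHtpy (lam ▷ U ≫ (λ_ U).hom) (U ◁ lam ≫ (ρ_ U).hom)

namespace Rot

variable {U U' : M} {lam : U ⟶ 𝟙_ M}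

theorem of_iso (h : Rot lam) (e : U' ≅ U) : Rot (e.hom ≫ lam) := by
  have h1 := (MHtpy.comp_left (e.hom ⊗ₘ e.hom) h).comp_right e.inv
  have e1 : ((e.hom ⊗ₘ e.hom) ≫ lam ▷ U ≫ (λ_ U).hom) ≫ e.inv =
      (e.hom ≫ lam) ▷ U' ≫ (λ_ U').hom := by
    rw [tensorHom_def, comp_whiskerRight, Category.assoc, Category.assoc, Category.assoc,
      Category.assoc, whisker_exchange_assoc, leftUnitor_naturality_assoc, Iso.hom_inv_id,
      Category.comp_id]
  have e2 : ((e.hom ⊗ₘ e.hom) ≫ U ◁ lam ≫ (ρ_ U).hom) ≫ e.inv =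
      U' ◁ (e.hom ≫ lam) ≫ (ρ_ U').hom := by
    rw [tensorHom_def', MonoidalCategory.whiskerLeft_comp, Category.assoc, Category.assoc,
      Category.assoc, Category.assoc, ← whisker_exchange_assoc, rightUnitor_naturality_assoc,
      Iso.hom_inv_id, Category.comp_id]
  rw [e1, e2] at h1
  exact h1

theorem comp_end (h : Rot lam) (e : U ⟶ U) : Rot (e ≫ lam) := by
  have h1 := MHtpy.comp_left (e ▷ U) h
  have h2 := MHtpy.comp_left (U ◁ e) h
  have h3 := MHtpy.comp_right h e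
  have e1 : e ▷ U ≫ U ◁ lam ≫ (ρ_ U).hom = (U ◁ lam ≫ (ρ_ U).hom) ≫ e := by
    rw [← whisker_exchange_assoc, rightUnitor_naturality, Category.assoc]
  have e2 : U ◁ e ≫ lam ▷ U ≫ (λ_ U).hom = (lam ▷ U ≫ (λ_ U).hom) ≫ e := by
    rw [whisker_exchange_assoc, leftUnitor_naturality, Category.assoc]
  rw [e1] at h1
  rw [e2] at h2
  unfold Rot
  rw [comp_whiskerRight, MonoidalCategory.whiskerLeft_comp, Category.assoc, Category.assoc]
  exact h1.trans (h3.symm.trans h2)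

theorem of_mHtpy {lam' : U ⟶ 𝟙_ M} (h : Rot lam) (e : MHtpy lam lam') : Rot lam' :=
  (((e.whiskerRight U).comp_right _).symm.trans h).trans ((e.whiskerLeft U).comp_right _)

end Rot

variable {G : Type} [Group G]

theorem Rot.hom {U : Action M G} {lam : U ⟶ 𝟙_ _} (h : Rot lam) : Rot lam.hom := by
  have h1 := mHtpy_hom h
  simpa [Rot] using h1

theorem Rot.triv {U : M} {lam : U ⟶ 𝟙_ M} (h : Rot lam) :
    Rot ((triv G).map lam ≫ η (triv G)) := by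
  obtain ⟨K, h0, h1⟩ := h
  refine (mHtpy_iff _ _).2 ⟨K, fun g => by simp, ?_, ?_⟩
  · simpa using h0
  · simpa using h1

variable (G) in
/-- the time `t` point of the interval with the trivial action -/
def ptA (t : unitInterval) : 𝟙_ (Action LC G) ⟶ (triv G).obj II :=
  mkHom (point (X := II) t) fun _ => (Category.id_comp _).trans (Category.comp_id _).symm

theorem ptA_hom (t : unitInterval) : (ptA G t).hom = point (X := II) t := rfl

theorem pinc_ptA_hom (t : unitInterval) (W : Action LC G) :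
    (pinc (ptA G t) W).hom = incl t W.V := by
  rw [pinc, Action.comp_hom, Action.whiskerLeft_hom, Action.rightUnitor_inv_hom]
  rfl

omit [MonoidalClosed M] [HasZeroMorphisms M] [HasColimitsOfSize.{0, 0} M] [StabInput M] in
theorem contr₁_hom (L : Action M G) {S : Action M G} (lam : L ⊗ S ⟶ 𝟙_ _) :
    (contr₁ L lam).hom = contr₁ L.V lam.hom := by
  simp [contr₁]

omit [SymmetricCategory M] [MonoidalClosed M] [HasZeroMorphisms M] [HasColimitsOfSize.{0, 0} M]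
  [StabInput M] in
theorem contr₂_hom (L : Action M G) {S : Action M G} (lam : L ⊗ S ⟶ 𝟙_ _) :
    (contr₂ L lam).hom = contr₂ L.V lam.hom := by
  simp [contr₂]

theorem pinc_JA (t : unitInterval) (X : Action M G) :
    pinc (ε (JA G M) ≫ (JA G M).map (ptA G t)) X ≫ X ◁ (JATriv G M II).hom = inc t X := by
  rw [pinc_whiskerLeft]
  refine congrArg (fun p => pinc p X) (Action.hom_ext _ _ ?_)
  refine (Category.comp_id _).trans ?_
  rw [Action.comp_hom, Action.comp_hom, J_ε_hom]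
  rfl

/-- The rotation homotopy for `L ⊗ W`, `W` a `G`-space. -/
theorem rot_of_JA {W : Action LC G} (L : Action M G) (lam : L ⊗ (JA G M).obj W ⟶ 𝟙_ _)
    (R : (W ⊗ W) ⊗ (triv G).obj II ⟶ (W ⊗ (triv G).obj II) ⊗ W) (neg : W ⟶ W)
    (hneg : neg.hom ≫ neg.hom = 𝟙 W.V) (hR0 : incl 0 (W.V ⊗ W.V) ≫ R.hom = incl 0 W.V ▷ W.V)
    (hR1 : incl 1 (W.V ⊗ W.V) ≫ R.hom = (β_ W.V W.V).hom ≫ (neg.hom ≫ incl 1 W.V) ▷ W.V)
    (K : (L ⊗ L) ⊗ (JA G M).obj (W ⊗ (triv G).obj II) ⟶ L)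
    (h0 : (L.V ⊗ L.V) ◁ (J M).map (incl 0 W.V) ≫ K.hom = contr₁ L.V lam.hom)
    (h1 : (L.V ⊗ L.V) ◁ (J M).map (incl 1 W.V) ≫ K.hom =
      (L.V ⊗ L.V) ◁ (J M).map neg.hom ≫ contr₂ L.V lam.hom) : Rot lam := by
  obtain ⟨K', k0, k1⟩ := rot_of_gen (JA G M) (ptA G 0) (ptA G 1) L lam R neg
    (Action.hom_ext _ _ hneg)
    (Action.hom_ext _ _ (by simpa [pinc_ptA_hom] using hR0))
    (Action.hom_ext _ _ (by simpa [pinc_ptA_hom] using hR1)) K
    (Action.hom_ext _ _ (by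
      rw [Action.comp_hom, Action.whiskerLeft_hom, mapA_map_hom, pinc_ptA_hom, contr₁_hom]
      exact h0))
    (Action.hom_ext _ _ (by
      rw [Action.comp_hom, Action.comp_hom, Action.whiskerLeft_hom, Action.whiskerLeft_hom,
        mapA_map_hom, pinc_ptA_hom, contr₂_hom]
      exact h1))
  refine ⟨_ ◁ (JATriv G M II).inv ≫ K', ?_, ?_⟩
  · rw [← k0]
    refine (congrArg (· ≫ _) (pinc_JA 0 _).symm).trans ?_
    simp only [Category.assoc]
    rw [← MonoidalCategory.whiskerLeft_comp_assoc, Iso.hom_inv_id, MonoidalCategory.whiskerLeft_id,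
      Category.id_comp]
  · rw [← k1]
    refine (congrArg (· ≫ _) (pinc_JA 1 _).symm).trans ?_
    simp only [Category.assoc]
    rw [← MonoidalCategory.whiskerLeft_comp_assoc, Iso.hom_inv_id, MonoidalCategory.whiskerLeft_id,
      Category.id_comp]

end Vale.Agent.P257.E
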