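import Vale.Agent.P257.E.Loc
import Vale.Agent.P257.E.Rot
import Vale.Agent.P257.E.PT
import Vale.Agent.P251.M.EvenPer

/-!
# P257, block E: stable transfers

* `Rot.tensor`, `Rot.isIso_map`, `isInv_left`, `isInv_right`: invertibility;
* `xt F x B : F B ⟶ F (Z ⊗ B)` for `x : F 𝟙 ⟶ F Z`;
* `ResData.exists_trf`: a stable transfer `τ : 𝟙 ⟶ T₊` whose restriction is the sum of the points;
* `ResData.inj_of_trf`: **T0**.
-/

open CategoryTheory MonoidalCategory Limits Functor.LaxMonoidal Functor.OplaxMonoidal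

namespace Vale.Agent.P257.E

open Vale.Agent.P251.H Vale.Agent.P251.H.StabInput
open Vale.Agent.P251.M (IsInv whiskerRight_inj whiskerRight_surj)
open Vale.Agent.P257.C (SphFun)

universe v u v' u' v'' u''

section abstract

variable {C : Type u'} [Category.{v'} C] [MonoidalCategory C]

theorem isIso_of_comm {U W : C} {a : U ⟶ 𝟙_ C} (h : a ▷ U ≫ (λ_ U).hom = U ◁ a ≫ (ρ_ U).hom)
    (s : W ⟶ U) [IsIso (s ≫ a)] : IsIso a := by
  have h1 : (inv (s ≫ a) ≫ s) ≫ a = 𝟙 _ := by rw [Category.assoc, IsIso.inv_hom_id]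
  generalize inv (s ≫ a) ≫ s = r at h1
  refine ⟨r, ?_, h1⟩
  have h2 := congrArg (fun x => (ρ_ U).inv ≫ U ◁ r ≫ x) h
  simp only [whisker_exchange_assoc, ← MonoidalCategory.whiskerLeft_comp_assoc, h1] at h2
  simpa [unitors_equal] using h2

omit [MonoidalCategory C] in
theorem isIso_of_comp_comp {X Y : C} (f : X ⟶ Y) (g g' : Y ⟶ X) [IsIso (f ≫ g)] [IsIso (g' ≫ f)] :
    IsIso f := by
  have := mono_of_mono f g
  have : IsSplitEpi f := ⟨⟨inv (g' ≫ f) ≫ g', by rw [Category.assoc, IsIso.inv_hom_id]⟩⟩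
  exact isIso_of_mono_of_isSplitEpi f

variable [SymmetricCategory C]

theorem isIso_of_whiskerRight {X Y : C} (f : X ⟶ Y) (P : C) [IsInv P] [IsIso (f ▷ P)] :
    IsIso f := by
  obtain ⟨g, hg⟩ := whiskerRight_surj P (inv (f ▷ P))
  exact ⟨g, whiskerRight_inj P (by simp [hg]), whiskerRight_inj P (by simp [hg])⟩

omit [SymmetricCategory C] in
theorem isIso_of_whiskerLeft {X Y : C} (P : C) (f : X ⟶ Y) [IsInv P] [IsIso (P ◁ f)] :
    IsIso f := by
  have : IsIso ((tensorLeft P).map f) := inferInstanceAs (IsIso (P ◁ f))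
  exact isIso_of_reflects_iso f (tensorLeft P)

variable {N : Type u} [Category.{v} N] [MonoidalCategory N] (F : N ⥤ C) [F.Monoidal]

theorem isInv_left {L S : N} (lam : L ⊗ S ⟶ 𝟙_ N) [IsIso (F.map lam)] : IsInv (F.obj L) :=
  IsInv.of_inverse (Functor.Monoidal.μIso F L S ≪≫ asIso (F.map lam) ≪≫
    (Functor.Monoidal.εIso F).symm)

theorem isInv_right {L S : N} (lam : L ⊗ S ⟶ 𝟙_ N) [IsIso (F.map lam)] : IsInv (F.obj S) :=
  IsInv.of_inverse' (Functor.Monoidal.μIso F L S ≪≫ asIso (F.map lam) ≪≫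
    (Functor.Monoidal.εIso F).symm)

omit [SymmetricCategory C] in
theorem isInv_tensor (X Y : N) [IsInv (F.obj X)] [IsInv (F.obj Y)] : IsInv (F.obj (X ⊗ Y)) :=
  IsInv.of_iso (Functor.Monoidal.μIso F X Y)

theorem isIso_map_of_whiskerRight {X Y : N} (f : X ⟶ Y) (P : N) [IsInv (F.obj P)]
    [h : IsIso (F.map (f ▷ P))] : IsIso (F.map f) := by
  have : IsIso (F.map f ▷ F.obj P) := by
    rw [Functor.Monoidal.map_whiskerRight] at h
    have := IsIso.of_isIso_comp_left (δ F X P) (F.map f ▷ F.obj P ≫ μ F Y P)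
    exact IsIso.of_isIso_comp_right _ (μ F Y P)
  exact isIso_of_whiskerRight _ (F.obj P)

omit [SymmetricCategory C] in
theorem isIso_map_of_whiskerLeft {X Y : N} (P : N) (f : X ⟶ Y) [IsInv (F.obj P)]
    [h : IsIso (F.map (P ◁ f))] : IsIso (F.map f) := by
  have : IsIso (F.obj P ◁ F.map f) := by
    rw [Functor.Monoidal.map_whiskerLeft] at h
    have := IsIso.of_isIso_comp_left (δ F P X) (F.obj P ◁ F.map f ≫ μ F P Y)
    exact IsIso.of_isIso_comp_right _ (μ F P Y)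
  exact isIso_of_whiskerLeft (F.obj P) _

omit [SymmetricCategory C]

instance {X Y : N} (f : X ⟶ Y) (P : N) [IsIso (F.map f)] : IsIso (F.map (f ▷ P)) := by
  rw [Functor.Monoidal.map_whiskerRight]
  infer_instance

instance {X Y : N} (P : N) (f : X ⟶ Y) [IsIso (F.map f)] : IsIso (F.map (P ◁ f)) := by
  rw [Functor.Monoidal.map_whiskerLeft]
  infer_instance

instance {U : N} (a : U ⟶ 𝟙_ N) (P : N) [IsIso (F.map a)] : IsIso (F.map (tt a P)) := by
  rw [tt, F.map_comp]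
  infer_instance

variable {Z Z' B B' : N}

/-- the map `B ⟶ Z ⊗ B` given by a point of `Z` -/
def xt (x : F.obj (𝟙_ N) ⟶ F.obj Z) (B : N) : F.obj B ⟶ F.obj (Z ⊗ B) :=
  (λ_ (F.obj B)).inv ≫ (ε F ≫ x) ▷ F.obj B ≫ μ F Z B

theorem xt_eq (x : F.obj (𝟙_ N) ⟶ F.obj Z) (B : N) :
    xt F x B = F.map (λ_ B).inv ≫ δ F (𝟙_ N) B ≫ x ▷ F.obj B ≫ μ F Z B := by
  rw [xt, Functor.Monoidal.map_leftUnitor_inv]
  simp only [Category.assoc, Functor.Monoidal.μ_δ_assoc, comp_whiskerRight]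

theorem xt_map (z : 𝟙_ N ⟶ Z) (B : N) : xt F (F.map z) B = F.map ((λ_ B).inv ≫ z ▷ B) := by
  rw [xt_eq, F.map_comp, Functor.Monoidal.map_whiskerRight]

@[reassoc]
theorem xt_comp (x : F.obj (𝟙_ N) ⟶ F.obj Z) (f : Z ⟶ Z') (B : N) :
    xt F x B ≫ F.map (f ▷ B) = xt F (x ≫ F.map f) B := by
  simp [xt]

@[reassoc]
theorem xt_nat (x : F.obj (𝟙_ N) ⟶ F.obj Z) (y : F.obj B ⟶ F.obj B') :
    y ≫ xt F x B' = xt F x B ≫ δ F Z B ≫ F.obj Z ◁ y ≫ μ F Z B' := by
  simp only [xt, Category.assoc, Functor.Monoidal.μ_δ_assoc, ← whisker_exchange_assoc]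
  rw [leftUnitor_inv_naturality_assoc]

@[reassoc]
theorem xt_nat_map (x : F.obj (𝟙_ N) ⟶ F.obj Z) (f : B ⟶ B') :
    F.map f ≫ xt F x B' = xt F x B ≫ F.map (Z ◁ f) := by
  rw [xt_nat, Functor.Monoidal.map_whiskerLeft]

@[reassoc]
theorem xt_tensor (x : F.obj (𝟙_ N) ⟶ F.obj Z) (B B' : N) :
    δ F B B' ≫ xt F x B ▷ F.obj B' ≫ μ F (Z ⊗ B) B' ≫ F.map (α_ Z B B').hom = xt F x (B ⊗ B') := by
  rw [xt, xt]
  generalize ε F ≫ x = y
  simp only [Category.assoc, comp_whiskerRight, Functor.LaxMonoidal.associativity,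
    associator_naturality_left_assoc]
  rw [← cancel_epi (μ F B B'), Functor.Monoidal.μ_δ_assoc, leftUnitor_inv_naturality_assoc,
    whisker_exchange_assoc]
  monoidal

theorem isIso_xt (x : F.obj (𝟙_ N) ⟶ F.obj Z) [IsIso x] (B : N) : IsIso (xt F x B) := by
  rw [xt]
  infer_instance

theorem xt_sum [Preadditive C] [MonoidalPreadditive C] {T : Type} (s : Finset T)
    (x : T → (F.obj (𝟙_ N) ⟶ F.obj Z)) (B : N) :
    xt F (∑ t ∈ s, x t) B = ∑ t ∈ s, xt F (x t) B := by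
  simp only [xt, sum_whiskerRight, Preadditive.sum_comp, Preadditive.comp_sum]

variable [SymmetricCategory C]

theorem xt_inj (B : N) [IsInv (F.obj B)] {x y : F.obj (𝟙_ N) ⟶ F.obj Z}
    (h : xt F x B = xt F y B) : x = y := by
  rw [xt, xt, cancel_epi, cancel_mono] at h
  exact (cancel_epi _).1 (whiskerRight_inj _ h)

theorem xt_surj (B : N) [IsInv (F.obj B)] (y : F.obj B ⟶ F.obj (Z ⊗ B)) :
    ∃ x : F.obj (𝟙_ N) ⟶ F.obj Z, xt F x B = y := by
  obtain ⟨x, hx⟩ := whiskerRight_surj (F.obj B) ((λ_ (F.obj B)).hom ≫ y ≫ δ F Z B)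
  exact ⟨η F ≫ x, by simp [xt, hx]⟩

theorem isIso_of_xt (x : F.obj (𝟙_ N) ⟶ F.obj Z) (B : N) [IsInv (F.obj B)]
    [h : IsIso (xt F x B)] : IsIso x := by
  have : IsIso ((ε F ≫ x) ▷ F.obj B) := by
    rw [xt] at h
    have := IsIso.of_isIso_comp_left (λ_ (F.obj B)).inv ((ε F ≫ x) ▷ F.obj B ≫ μ F Z B)
    exact IsIso.of_isIso_comp_right _ (μ F Z B)
  have := isIso_of_whiskerRight (ε F ≫ x) (F.obj B)
  exact IsIso.of_isIso_comp_left (ε F) x

end abstract

section rot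

variable {N : Type u} [Category.{v} N] [MonoidalCategory N] [SymmetricCategory N]
  [MonoidalClosed N] [HasZeroMorphisms N] [HasColimitsOfSize.{0, 0} N] [StabInput N]
  {U V : N} {a : U ⟶ 𝟙_ N} {b : V ⟶ 𝟙_ N}

omit [SymmetricCategory N] [MonoidalClosed N] [HasZeroMorphisms N] [HasColimitsOfSize.{0, 0} N]
  [StabInput N] in
theorem tt_comp_eq : tt a V ≫ b = (U ◁ b ≫ (ρ_ U).hom) ≫ a := by
  rw [← tt_nat, tt]
  simp [unitors_equal]

theorem Rot.tensor (ha : Rot a) (hb : Rot b) : Rot (tt a V ≫ b) := by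
  have h := MHtpy.comp_left (tensorμ U V U V) (((ha.whiskerRight (V ⊗ V)).comp_right
    (U ◁ (b ▷ V ≫ (λ_ V).hom))).trans (MHtpy.comp_left _ (hb.whiskerLeft U)))
  have e : tt a V ≫ b = (a ⊗ₘ b) ≫ (λ_ _).hom := by
    rw [tt, MonoidalCategory.tensorHom_def, Category.assoc, Category.assoc, leftUnitor_naturality]
  rw [← MonoidalCategory.tensorHom_def, ← MonoidalCategory.tensorHom_def,
    ← tensorHom_comp_tensorHom, ← tensorHom_comp_tensorHom, ← tensorμ_natural_left_assoc,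
    ← tensorμ_natural_right_assoc] at h
  rwa [Rot, e, tensor_left_unitality U V, tensor_right_unitality U V, ← comp_whiskerRight_assoc,
    ← MonoidalCategory.whiskerLeft_comp_assoc, Category.assoc, Iso.hom_inv_id, Category.comp_id]

theorem Rot.isIso_map {C : Type u'} [Category.{v'} C] [MonoidalCategory C] (F : N ⥤ C)
    [F.Monoidal] (hF : ∀ {A X : N} {f g : A ⟶ X}, MHtpy f g → F.map f = F.map g) (ha : Rot a)
    {W : N} (s : W ⟶ U) [h : IsIso (F.map (s ≫ a))] : IsIso (F.map a) := by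
  have h1 := hF ha
  rw [F.map_comp, F.map_comp, Functor.Monoidal.map_whiskerRight, Functor.Monoidal.map_whiskerLeft,
    Functor.Monoidal.map_leftUnitor, Functor.Monoidal.map_rightUnitor] at h1
  simp only [Category.assoc, Functor.Monoidal.μ_δ_assoc, cancel_epi,
    ← comp_whiskerRight_assoc, ← MonoidalCategory.whiskerLeft_comp_assoc] at h1
  have : IsIso (F.map s ≫ F.map a ≫ η F) := by
    rw [← F.map_comp_assoc]
    infer_instance
  have := isIso_of_comm h1 (F.map s)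
  exact IsIso.of_isIso_comp_right _ (η F)

end rot

section trf

variable {M : Type u} [Category.{v} M] [MonoidalCategory M] [SymmetricCategory M]
  [MonoidalClosed M] [HasZeroMorphisms M] [HasColimitsOfSize.{0, 0} M] [StabInput M]
  {G : Type} [Group G] {H : Type u'} [Category.{v'} H] [MonoidalCategory H] [SymmetricCategory H]
  {E : Type u''} [Category.{v''} E] [MonoidalCategory E] [SymmetricCategory E]
  {UH : Action M G} {lamH : UH ⟶ 𝟙_ _} {UE : M} {lamE : UE ⟶ 𝟙_ M}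
  {FH : Action M G ⥤ H} [FH.Monoidal] {FE : M ⥤ E} [FE.Monoidal] {A B X Y Z : Action M G}
  {T : Type} [MulAction G T] [Finite T]

/-- a point of `T₊` -/
def jp (M : Type u) [Category.{v} M] [MonoidalCategory M] [SymmetricCategory M]
    [MonoidalClosed M] [HasZeroMorphisms M] [HasColimitsOfSize.{0, 0} M] [StabInput M] (t : T) :
    𝟙_ M ⟶ (J M).obj (dsp T) := ε (J M) ≫ (J M).map (dpt t)

omit [SymmetricCategory E] [Finite T] in
theorem xt_jp (t : T) (B : M) : xt FE (FE.map (jp M t)) B = FE.map (dinc t B) := xt_map _ _ _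

omit [SymmetricCategory H] in
theorem xt_fold (τ : FH.obj (𝟙_ _) ⟶ FH.obj (fset M G T)) (B : Action M G) :
    xt FH τ B ≫ FH.map (fold T B) = xt FH (τ ≫ FH.map (faug M G T)) B ≫ FH.map (λ_ B).hom := by
  rw [fold, FH.map_comp, xt_comp_assoc]

/-- if the transfer followed by the fold map is invertible for one invertible object, it is
invertible for all objects -/
theorem isIso_xt_fold (τ : FH.obj (𝟙_ _) ⟶ FH.obj (fset M G T)) (S : Action M G)
    [IsInv (FH.obj S)] [h : IsIso (xt FH τ S ≫ FH.map (fold T S))] (B : Action M G) :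
    IsIso (xt FH τ B ≫ FH.map (fold T B)) := by
  rw [xt_fold] at h ⊢
  have := IsIso.of_isIso_comp_right (xt FH (τ ≫ FH.map (faug M G T)) S) (FH.map (λ_ S).hom)
  have := isIso_of_xt FH (τ ≫ FH.map (faug M G T)) S
  have := isIso_xt FH (τ ≫ FH.map (faug M G T)) B
  infer_instance

theorem epi_fold {S : Action M G} [IsInv (FH.obj S)] (p : S ⟶ fset M G T ⊗ S)
    [h : IsIso (FH.map (p ≫ fold T S))] (B : Action M G) : Epi (FH.map (fold T B)) := by
  obtain ⟨τ, hτ⟩ := xt_surj FH S (FH.map p)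
  rw [FH.map_comp, ← hτ] at h
  have := isIso_xt_fold τ S B
  exact epi_of_epi (xt FH τ B) _

namespace ResData

variable (R : ResData lamH lamE FH FE)
include R

omit [SymmetricCategory H] [SymmetricCategory E] in
theorem rs_whiskerRight (x : FH.obj A ⟶ FH.obj X) (Z : Action M G) :
    R.rs (δ FH A Z ≫ x ▷ FH.obj Z ≫ μ FH X Z) =
      δ FE A.V Z.V ≫ R.rs x ▷ FE.obj Z.V ≫ μ FE X.V Z.V := by
  obtain ⟨A₁, t, f, ht, e⟩ := R.locH.surj x
  have : IsIso (FE.map (t ▷ Z).hom) := R.inv.isIso_right ht Z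
  rw [← cancel_epi (FE.map (t ▷ Z).hom), R.rs_spec (f := f ▷ Z), Action.whiskerRight_hom,
    Action.whiskerRight_hom]
  · refine Eq.trans ?_ (δ_natural_left_assoc FE t.hom Z.V _)
    rw [← comp_whiskerRight_assoc, R.rs_spec e, Functor.Monoidal.map_whiskerRight]
  · rw [← δ_natural_left_assoc, ← comp_whiskerRight_assoc, e, Functor.Monoidal.map_whiskerRight]

omit [SymmetricCategory H] [SymmetricCategory E] in
theorem rs_whiskerLeft (Z : Action M G) (x : FH.obj A ⟶ FH.obj X) :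
    R.rs (δ FH Z A ≫ FH.obj Z ◁ x ≫ μ FH Z X) =
      δ FE Z.V A.V ≫ FE.obj Z.V ◁ R.rs x ≫ μ FE Z.V X.V := by
  obtain ⟨A₁, t, f, ht, e⟩ := R.locH.surj x
  have : IsIso (FE.map (Z ◁ t).hom) := R.inv.isIso_left ht Z
  rw [← cancel_epi (FE.map (Z ◁ t).hom), R.rs_spec (f := Z ◁ f), Action.whiskerLeft_hom,
    Action.whiskerLeft_hom]
  · refine Eq.trans ?_ (δ_natural_right_assoc FE Z.V t.hom _)
    rw [← MonoidalCategory.whiskerLeft_comp_assoc, R.rs_spec e, Functor.Monoidal.map_whiskerLeft]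
  · rw [← δ_natural_right_assoc, ← MonoidalCategory.whiskerLeft_comp_assoc, e,
      Functor.Monoidal.map_whiskerLeft]

omit [SymmetricCategory H] [SymmetricCategory E] in
theorem rs_xt (x : FH.obj (𝟙_ _) ⟶ FH.obj Z) (B : Action M G) :
    R.rs (xt FH x B) = xt FE (Z := Z.V) (R.rs x) B.V := by
  rw [xt_eq, xt_eq, R.rs_comp, R.rs_map, R.rs_whiskerRight, Action.leftUnitor_inv_hom]
  rfl

omit [MonoidalCategory E] [SymmetricCategory E] [FE.Monoidal] in
/-- **T0** -/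
theorem inj_of_trf {S : Action M G} [IsInv (FH.obj S)] (p : S ⟶ fset M G T ⊗ S)
    [IsIso (FH.map (p ≫ fold T S))] (hB : Free (fset M G T ⊗ B)) {x y : FH.obj B ⟶ FH.obj X}
    (e : R.rs x = R.rs y) : x = y :=
  have := epi_fold (FH := FH) p B
  R.inj_of_epi hB (FH.map (fold T B)) e

variable [Preadditive E] [MonoidalPreadditive E]

omit [Finite T] in
/-- stable transfers -/
theorem exists_trf [Fintype T] {S : Action M G} [IsInv (FH.obj S)] [IsInv (FE.obj S.V)]
    (p : S ⟶ fset M G T ⊗ S) (hp : FE.map p.hom = ∑ t : T, FE.map (dinc t S.V)) :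
    ∃ τ : FH.obj (𝟙_ _) ⟶ FH.obj (fset M G T), xt FH τ S = FH.map p ∧
      ∀ B : Action M G, R.rs (xt FH τ B) = ∑ t : T, FE.map (dinc t B.V) := by
  obtain ⟨τ, hτ⟩ := xt_surj FH S (FH.map p)
  have k : ∀ B : M, xt FE (∑ t : T, FE.map (jp M t)) B = ∑ t : T, FE.map (dinc t B) := fun B => by
    rw [xt_sum]
    exact Finset.sum_congr rfl fun t _ => xt_jp t B
  have h : R.rs τ = ∑ t : T, FE.map (jp M t) := xt_inj FE S.V
    ((R.rs_xt τ S).symm.trans (by rw [hτ, R.rs_map, hp, k]))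
  exact ⟨τ, hτ, fun B => (R.rs_xt τ B).trans ((congrArg (xt FE · B.V) h).trans (k B.V))⟩

end ResData

end trf

end Vale.Agent.P257.E
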